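import Vale.Agent.P100W.Def
import Vale.Agent.P100C.Pohozaev
import Vale.Agent.P100T.Comparison

/-!
The elementary cases of the weighted system: no positive entire solution when `A ≤ -2` or
`B ≤ -2`, and none when `A, B > -2` and `p q ≤ 1`. Only the minimum principle is used.
-/

open MeasureTheory Filter Topology Laplacian Set
open scoped ContDiff

noncomputable section

namespace Vale.Agent.P100W

open Vale.Agent.P100 Vale.Agent.P100C

variable {n : ℕ}

/-- At an interior minimum the Laplacian is nonnegative. -/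
lemma lap_nonneg_of_isLocalMin {φ : Euc n → ℝ} {x : Euc n} (hφ : ContDiffAt ℝ 2 φ x)
    (hm : IsLocalMin φ x) : 0 ≤ Δ φ x := by
  rw [laplacian_eq_sum hφ]
  refine Finset.sum_nonneg fun i _ => ?_
  obtain ⟨h1, h2⟩ := P100T.deriv_line hφ i
  have hx : x + (0 : ℝ) • ev i = x := by simp
  have hmax : IsLocalMax (fun t : ℝ => -φ (x + t • ev i)) 0 := by
    have hm' : IsLocalMax (fun y => -φ y) (x + (0 : ℝ) • ev i) := by rw [hx]; exact hm.neg
    exact IsMaxFilter.comp_tendsto (g := fun s : ℝ => x + s • ev i) hm'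
      ((P100T.hasDerivAt_line x i 0).continuousAt.tendsto)
  have := P100T.second_le (g' := fun t => -pd i φ (x + t • ev i)) hmax
    (h1.mono fun t ht => ht.neg) h2.neg
  linarith

/-- Minimum principle on a compact set. -/
lemma min_principle {φ : Euc n → ℝ} {K S : Set (Euc n)} (hK : IsCompact K)
    (hφ : ContinuousOn φ K)
    (hint : ∀ x ∈ K, x ∉ S → K ∈ 𝓝 x ∧ ContDiffAt ℝ 2 φ x ∧ Δ φ x < 0)
    {x : Euc n} (hx : x ∈ K) : ∃ s ∈ S, φ s ≤ φ x := by
  obtain ⟨z, hz, hzmin⟩ := hK.exists_isMinOn ⟨x, hx⟩ hφ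
  by_cases hzS : z ∈ S
  · exact ⟨z, hzS, hzmin hx⟩
  · obtain ⟨hn, hc, hl⟩ := hint z hz hzS
    linarith [lap_nonneg_of_isLocalMin hc (hzmin.isLocalMin hn)]

lemma contDiffAt_pow (c : ℝ) {x : Euc n} (hx : x ≠ 0) :
    ContDiffAt ℝ 2 (fun y : Euc n => ‖y‖ ^ c) x :=
  ContDiffAt.rpow_const_of_ne (contDiffAt_norm ℝ hx) (norm_ne_zero_iff.2 hx)

lemma pd_pow (c : ℝ) {x : Euc n} (hx : x ≠ 0) (i : Fin n) :
    pd i (fun y : Euc n => ‖y‖ ^ c) x = c * (‖x‖ ^ (c - 2) * x i) := by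
  have e : (fun y : Euc n => ‖y‖ ^ c) = fun y => (‖y‖ ^ 2) ^ (c / 2) := funext fun y => by
    rw [← Real.rpow_two, ← Real.rpow_mul (norm_nonneg y)]
    congr 1; ring
  have hr : 0 < ‖x‖ := norm_pos_iff.2 hx
  have h := ((hasStrictFDerivAt_norm_sq x).hasFDerivAt.rpow_const (p := c / 2)
    (Or.inl (by positivity))).fderiv
  have e2 : (‖x‖ ^ 2) ^ (c / 2 - 1) = ‖x‖ ^ (c - 2) := by
    rw [← Real.rpow_two, ← Real.rpow_mul hr.le]
    congr 1; ring
  rw [e, ← e2]
  simp only [pd, h]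
  simp [ev, EuclideanSpace.inner_single_right]
  ring

lemma lap_pow (c : ℝ) {x : Euc n} (hx : x ≠ 0) :
    Δ (fun y : Euc n => ‖y‖ ^ c) x = c * (c + n - 2) * ‖x‖ ^ (c - 2) := by
  have hr : 0 < ‖x‖ := norm_pos_iff.2 hx
  have key : ∀ i, pd i (pd i fun y : Euc n => ‖y‖ ^ c) x
      = c * ((c - 2) * (‖x‖ ^ (c - 2 - 2) * x i) * x i + ‖x‖ ^ (c - 2)) := by
    intro i
    have hev : pd i (fun y : Euc n => ‖y‖ ^ c) =ᶠ[𝓝 x]
        fun y => c * (‖y‖ ^ (c - 2) * y i) :=
      eventually_of_mem (isOpen_ne.mem_nhds hx) fun y hy => pd_pow c hy i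
    have d1 : DifferentiableAt ℝ (fun y : Euc n => ‖y‖ ^ (c - 2)) x :=
      (contDiffAt_pow _ hx).differentiableAt two_ne_zero
    have d2 : DifferentiableAt ℝ (fun y : Euc n => y i) x :=
      (contDiff_coord (k := 1) i).differentiable one_ne_zero x
    rw [show pd i (pd i fun y : Euc n => ‖y‖ ^ c) x
        = pd i (fun y => c * (‖y‖ ^ (c - 2) * y i)) x by simp only [pd]; rw [← hev.fderiv_eq],
      pd_const_mul _ (d1.fun_mul d2), pd_mul' d1 d2, pd_pow _ hx, pd_coord, if_pos rfl, mul_one]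
  rw [laplacian_eq_sum (contDiffAt_pow c hx), Finset.sum_congr rfl fun i _ => key i,
    ← Finset.mul_sum, Finset.sum_add_distrib, Finset.sum_const, Finset.card_univ,
    Fintype.card_fin, nsmul_eq_mul]
  have e : ∑ i, (c - 2) * (‖x‖ ^ (c - 2 - 2) * x i) * x i = (c - 2) * ‖x‖ ^ (c - 2) := by
    calc ∑ i, (c - 2) * (‖x‖ ^ (c - 2 - 2) * x i) * x i
        = (c - 2) * ‖x‖ ^ (c - 2 - 2) * ‖x‖ ^ 2 := by
          rw [EuclideanSpace.real_norm_sq_eq x, Finset.mul_sum]
          exact Finset.sum_congr rfl fun i _ => by ring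
      _ = _ := by
          rw [mul_assoc, ← Real.rpow_two, ← Real.rpow_add hr, sub_add_cancel]
  rw [e]; ring

/-- A positive superharmonic function on the punctured space. -/
def Super (u : Euc n → ℝ) : Prop :=
  Continuous u ∧ ContDiffOn ℝ 2 u {x | x ≠ 0} ∧ (∀ x, 0 < u x) ∧ ∀ x, x ≠ 0 → Δ u x ≤ 0

lemma lap_add_mul {u w : Euc n → ℝ} {x : Euc n} (hu : ContDiffAt ℝ 2 u x)
    (hw : ContDiffAt ℝ 2 w x) (t : ℝ) :
    Δ (fun y => u y + t * w y) x = Δ u x + t * Δ w x := by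
  have h : ContDiffAt ℝ 2 (t • w) x := hw.const_smul t
  rw [show (fun y => u y + t * w y) = u + t • w from rfl, hu.laplacian_add h,
    InnerProductSpace.laplacian_smul t hw, smul_eq_mul]

/-- The minimum over a ball is approached on its sphere. -/
lemma inner_bound (hn : 3 ≤ n) {u : Euc n → ℝ} (hu : Super u) {R μ : ℝ}
    (h : ∀ z : Euc n, ‖z‖ = R → μ ≤ u z) {x : Euc n} (hx : x ≠ 0) (hxR : ‖x‖ ≤ R) : μ ≤ u x := by
  obtain ⟨huc, hu2, hup, hlap⟩ := hu
  refine le_of_forall_pos_le_add fun e he => ?_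
  have hr : 0 < ‖x‖ := norm_pos_iff.2 hx
  set d := e / ‖x‖ ^ (-(1 / 2) : ℝ) with hd
  have hd0 : 0 < d := div_pos he (Real.rpow_pos_of_pos hr _)
  obtain ⟨ρ, hρ, hρx, hbig⟩ : ∃ ρ : ℝ, 0 < ρ ∧ ρ < ‖x‖ ∧ |μ| < d * ρ ^ (-(1 / 2) : ℝ) := by
    have ht : Tendsto (fun ρ : ℝ => d * ρ ^ (-(1 / 2) : ℝ)) (𝓝[>] 0) atTop :=
      (tendsto_rpow_neg_nhdsGT_zero (by norm_num)).const_mul_atTop hd0
    obtain ⟨ρ, h1, h2, h3⟩ := ((ht.eventually (eventually_gt_atTop |μ|)).and
      ((eventually_nhdsWithin_of_eventually_nhds (gt_mem_nhds hr)).and self_mem_nhdsWithin)).exists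
    exact ⟨ρ, h3, h2, h1⟩
  set K : Set (Euc n) := {y | ρ ≤ ‖y‖ ∧ ‖y‖ ≤ R}
  have hK : IsCompact K := (isCompact_closedBall (0 : Euc n) R).of_isClosed_subset
    (isClosed_le continuous_const continuous_norm |>.inter
      (isClosed_le continuous_norm continuous_const))
    fun y hy => by simpa using hy.2
  have hne : ∀ y ∈ K, y ≠ 0 := fun y hy h0 => by
    have := hy.1; rw [h0, norm_zero] at this; linarith
  obtain ⟨s, hs, hle⟩ := min_principle (φ := fun y => u y + d * ‖y‖ ^ (-(1 / 2) : ℝ))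
    (S := {y | ‖y‖ ≤ ρ ∧ ρ ≤ ‖y‖ ∨ ‖y‖ = R}) hK
    (huc.continuousOn.add (continuousOn_const.mul (continuous_norm.continuousOn.rpow_const
      fun y hy => Or.inl (norm_ne_zero_iff.2 (hne y hy)))))
    (fun y hy hyS => by
      simp only [mem_setOf_eq, not_or, not_and, not_le] at hyS
      have h1 : ρ < ‖y‖ := lt_of_le_of_ne hy.1 fun h => absurd (hyS.1 h.ge) (by linarith)
      have h2 : ‖y‖ < R := lt_of_le_of_ne hy.2 hyS.2
      refine ⟨mem_of_superset (((isOpen_lt continuous_const continuous_norm).inter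
        (isOpen_lt continuous_norm continuous_const)).mem_nhds ⟨h1, h2⟩)
        fun z hz => ⟨hz.1.le, hz.2.le⟩,
        (hu2.contDiffAt (isOpen_ne.mem_nhds (hne y hy))).add
          (contDiffAt_const.mul (contDiffAt_pow _ (hne y hy))), ?_⟩
      rw [lap_add_mul (hu2.contDiffAt (isOpen_ne.mem_nhds (hne y hy)))
        (contDiffAt_pow _ (hne y hy)), lap_pow _ (hne y hy)]
      have hn' : (3 : ℝ) ≤ n := by exact_mod_cast hn
      have : 0 < d * ((1 / 2) * (-(1 / 2) + n - 2) * ‖y‖ ^ ((-(1 / 2) : ℝ) - 2)) :=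
        mul_pos hd0 (mul_pos (mul_pos (by norm_num) (by linarith))
          (Real.rpow_pos_of_pos (norm_pos_iff.2 (hne y hy)) _))
      linarith [hlap y (hne y hy)]) (x := x) ⟨hρx.le, hxR⟩
  have he' : d * ‖x‖ ^ (-(1 / 2) : ℝ) = e := by
    rw [hd, div_mul_cancel₀ _ (Real.rpow_pos_of_pos hr _).ne']
  simp only [he'] at hle
  have hd' : 0 ≤ d * ‖s‖ ^ (-(1 / 2) : ℝ) := by positivity
  rcases hs with ⟨h1, h2⟩ | hsR
  · rw [le_antisymm h1 h2] at hle hd'
    linarith [le_abs_self μ, hup s]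
  · linarith [h s hsR]

/-- The exterior bound. -/
lemma outer_bound (hn : 3 ≤ n) {u : Euc n → ℝ} (hu : Super u) {r μ : ℝ} (hr : 0 < r) (hμ : 0 ≤ μ)
    (h : ∀ z : Euc n, ‖z‖ = r → μ ≤ u z) {x : Euc n} (hx : r ≤ ‖x‖) :
    μ * (r / ‖x‖) ^ (n - 1) ≤ u x := by
  obtain ⟨huc, hu2, hup, hlap⟩ := hu
  rcases hμ.eq_or_lt with rfl | hμ0
  · simpa using (hup x).le
  set m : ℝ := -((n : ℝ) - 1) with hm
  have hxr : 0 < ‖x‖ := hr.trans_le hx
  have epow : ∀ t : ℝ, 0 < t → (r / t) ^ (n - 1) = (r ^ m)⁻¹ * t ^ m := fun t ht => by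
    rw [← Real.rpow_natCast, Real.div_rpow hr.le ht.le, Nat.cast_sub (by omega), hm,
      Real.rpow_neg hr.le, Real.rpow_neg ht.le, inv_inv, Nat.cast_one, div_eq_mul_inv]
  set c := μ * (r ^ m)⁻¹ with hc
  have hc0 : 0 < c := mul_pos hμ0 (inv_pos.2 (Real.rpow_pos_of_pos hr _))
  have main : ∀ L : ℝ, ‖x‖ ≤ L → c * ‖x‖ ^ m - c * L ^ m ≤ u x := by
    intro L hL
    set K : Set (Euc n) := {y | r ≤ ‖y‖ ∧ ‖y‖ ≤ L}
    have hK : IsCompact K := (isCompact_closedBall (0 : Euc n) L).of_isClosed_subset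
      (isClosed_le continuous_const continuous_norm |>.inter
        (isClosed_le continuous_norm continuous_const))
      fun y hy => by simpa using hy.2
    have hne : ∀ y ∈ K, y ≠ 0 := fun y hy h0 => by
      have := hy.1; rw [h0, norm_zero] at this; linarith
    obtain ⟨s, hs, hle⟩ := min_principle (φ := fun y => u y + -c * ‖y‖ ^ m)
      (S := {y | ‖y‖ = r ∨ ‖y‖ = L}) hK
      (huc.continuousOn.add (continuousOn_const.mul (continuous_norm.continuousOn.rpow_const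
        fun y hy => Or.inl (norm_ne_zero_iff.2 (hne y hy)))))
      (fun y hy hyS => by
        simp only [mem_setOf_eq, not_or] at hyS
        refine ⟨mem_of_superset (((isOpen_lt continuous_const continuous_norm).inter
          (isOpen_lt continuous_norm continuous_const)).mem_nhds
          ⟨lt_of_le_of_ne hy.1 (Ne.symm hyS.1), lt_of_le_of_ne hy.2 hyS.2⟩)
          fun z hz => ⟨hz.1.le, hz.2.le⟩,
          (hu2.contDiffAt (isOpen_ne.mem_nhds (hne y hy))).add
            (contDiffAt_const.mul (contDiffAt_pow _ (hne y hy))), ?_⟩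
        rw [lap_add_mul (hu2.contDiffAt (isOpen_ne.mem_nhds (hne y hy)))
          (contDiffAt_pow _ (hne y hy)), lap_pow _ (hne y hy)]
        have hn' : (3 : ℝ) ≤ n := by exact_mod_cast hn
        have : 0 < c * (((n : ℝ) - 1) * ‖y‖ ^ (m - 2)) :=
          mul_pos hc0 (mul_pos (by linarith) (Real.rpow_pos_of_pos (norm_pos_iff.2 (hne y hy)) _))
        have e : m * (m + n - 2) = (n : ℝ) - 1 := by rw [hm]; ring
        rw [e]
        linarith [hlap y (hne y hy)]) (x := x) ⟨hx, hL⟩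
    have hcL : 0 ≤ c * L ^ m := mul_nonneg hc0.le (Real.rpow_nonneg (hxr.le.trans hL) _)
    rcases hs with hsr | hsL
    · rw [hsr] at hle
      have : c * r ^ m = μ := by
        rw [hc, inv_mul_cancel_right₀ (Real.rpow_pos_of_pos hr _).ne']
      linarith [h s hsr]
    · rw [hsL] at hle
      linarith [hup s]
  have hlim : Tendsto (fun L : ℝ => c * ‖x‖ ^ m - c * L ^ m) atTop
      (𝓝 (c * ‖x‖ ^ m - c * 0)) := by
    refine tendsto_const_nhds.sub (Tendsto.const_mul c ?_)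
    rw [hm]
    exact tendsto_rpow_neg_atTop (by
      have : (3 : ℝ) ≤ n := by exact_mod_cast hn
      linarith)
  rw [epow _ hxr, ← mul_assoc, ← hc]
  have := le_of_tendsto hlim ((eventually_ge_atTop ‖x‖).mono main)
  linarith

/-- One step inwards: the source adds to the minimum. -/
lemma step_bound (hn : 3 ≤ n) {A p : ℝ} (hp : 0 < p) : ∃ c : ℝ, 0 < c ∧ ∀ (u v : Euc n → ℝ),
    Super u → Super v → (∀ y, y ≠ 0 → -(Δ u y) = ‖y‖ ^ A * v y ^ p) →
    ∀ (x : Euc n) (μ ν : ℝ), x ≠ 0 → 0 < ν →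
      (∀ z : Euc n, ‖z‖ = 3 / 2 * ‖x‖ → μ ≤ u z ∧ ν ≤ v z) →
      μ + c * ‖x‖ ^ (A + 2) * ν ^ p ≤ u x := by
  set C : ℝ := min ((1 / 2 : ℝ) ^ A) ((3 / 2 : ℝ) ^ A) with hC
  have hC0 : 0 < C := lt_min (Real.rpow_pos_of_pos (by norm_num) _)
    (Real.rpow_pos_of_pos (by norm_num) _)
  have hn0 : (0 : ℝ) < n := by exact_mod_cast (show 0 < n by omega)
  refine ⟨C / (16 * n), by positivity, fun u v hu hv he x μ ν hx hν hsph => ?_⟩
  obtain ⟨huc, hu2, -, -⟩ := id hu
  have hr : 0 < ‖x‖ := norm_pos_iff.2 hx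
  set m := C * ‖x‖ ^ A * ν ^ p with hm
  have hm0 : 0 < m := by positivity
  set t := m / (4 * n) with ht
  set K := Metric.closedBall x (‖x‖ / 2)
  have hK : ∀ y ∈ K, y ≠ 0 ∧ ‖x‖ / 2 ≤ ‖y‖ ∧ ‖y‖ ≤ 3 / 2 * ‖x‖ := fun y hy => by
    rw [Metric.mem_closedBall, dist_eq_norm] at hy
    have h1 : ‖x‖ ≤ ‖y‖ + ‖y - x‖ := norm_le_norm_add_norm_sub y x
    have h2 := norm_le_norm_add_norm_sub' y x
    exact ⟨fun h => by rw [h] at h1 hy; rw [norm_zero] at h1; linarith, by linarith, by linarith⟩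
  set w : Euc n → ℝ := fun y => ‖y - x‖ ^ 2 with hw
  have hw2 : ContDiff ℝ 2 w := (contDiff_id.sub contDiff_const).norm_sq ℝ
  have hwl : ∀ y, Δ w y = 2 * n := fun y => by
    rw [laplacian_eq_sum hw2.contDiffAt]
    have e : ∀ i, pd i w = fun z => 2 * (z i - x i) := fun i => funext fun z => by
      have h0 : HasFDerivAt (fun z : Euc n => ‖z - x‖ ^ 2) _ z :=
        ((hasFDerivAt_id z).sub_const x).norm_sq
      simp only [pd, hw, h0.fderiv]
      simp [ev, EuclideanSpace.inner_single_right]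
    have e2 : ∀ i, pd i (pd i w) y = 2 := fun i => by
      have hd : DifferentiableAt ℝ (fun z : Euc n => z i) y :=
        (contDiff_coord (k := 1) i).differentiable one_ne_zero y
      rw [e, pd_const_mul _ (hd.sub_const _)]
      have : pd i (fun z : Euc n => z i - x i) y = pd i (fun z : Euc n => z i) y := by
        simp [pd, fderiv_sub_const]
      rw [this, pd_coord, if_pos rfl, mul_one]
    simp [e2, mul_comm]
  obtain ⟨s, hs, hle⟩ := min_principle (φ := fun y => u y + t * w y) (K := K)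
    (S := Metric.sphere x (‖x‖ / 2)) (isCompact_closedBall _ _)
    (huc.continuousOn.add (continuousOn_const.mul hw2.continuous.continuousOn))
    (fun y hy hyS => by
      obtain ⟨hy0, hy1, hy2⟩ := hK y hy
      have hcu := hu2.contDiffAt (isOpen_ne.mem_nhds hy0)
      refine ⟨mem_of_superset (Metric.isOpen_ball.mem_nhds ?_) Metric.ball_subset_closedBall,
        hcu.add (contDiffAt_const.mul hw2.contDiffAt), ?_⟩
      · rw [Metric.mem_ball]
        exact lt_of_le_of_ne hy fun h => hyS h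
      rw [lap_add_mul hcu hw2.contDiffAt, hwl]
      have hA : C * ‖x‖ ^ A ≤ ‖y‖ ^ A := by
        rcases le_or_gt 0 A with h | h
        · refine le_trans ?_ (Real.rpow_le_rpow (by positivity) hy1 h)
          rw [show ‖x‖ / 2 = 1 / 2 * ‖x‖ by ring, Real.mul_rpow (by norm_num) hr.le]
          exact mul_le_mul_of_nonneg_right (min_le_left _ _) (by positivity)
        · refine le_trans ?_ (Real.rpow_le_rpow_of_nonpos (by linarith) hy2 h.le)
          rw [Real.mul_rpow (by norm_num) hr.le]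
          exact mul_le_mul_of_nonneg_right (min_le_right _ _) (by positivity)
      have hvy : ν ≤ v y := inner_bound hn hv (fun z hz => (hsph z hz).2) hy0 hy2
      have := mul_le_mul hA (Real.rpow_le_rpow hν.le hvy hp.le) (by positivity) (by positivity)
      have e : t * (2 * n) = m / 2 := by rw [ht]; field_simp; ring
      linarith [he y hy0]) (x := x) (Metric.mem_closedBall_self (by positivity))
  obtain ⟨hs0, -, hs2⟩ := hK s (Metric.sphere_subset_closedBall hs)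
  rw [Metric.mem_sphere, dist_eq_norm] at hs
  have hμ : μ ≤ u s := inner_bound hn hu (fun z hz => (hsph z hz).1) hs0 hs2
  simp only [hw, hs, sub_self, norm_zero] at hle
  rw [show C / (16 * n) * ‖x‖ ^ (A + 2) * ν ^ p = t * (‖x‖ / 2) ^ 2 by
    rw [ht, hm, Real.rpow_add hr, Real.rpow_two]; field_simp; ring]
  linarith

lemma IsWeightedSolution.super {A B p q : ℝ} {u v : Euc n → ℝ}
    (hs : IsWeightedSolution A B p q u v) : Super u ∧ Super v := by
  obtain ⟨a, b, c, d, e, f, g⟩ := hs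
  refine ⟨⟨a, c, e, fun x hx => ?_⟩, ⟨b, d, f, fun x hx => ?_⟩⟩
  · have := (g x hx).1
    have : 0 ≤ ‖x‖ ^ A * v x ^ p := mul_nonneg (by positivity) (Real.rpow_nonneg (f x).le _)
    linarith
  · have := (g x hx).2
    have : 0 ≤ ‖x‖ ^ B * u x ^ q := mul_nonneg (by positivity) (Real.rpow_nonneg (e x).le _)
    linarith

lemma exists_sphere_min (hn : 0 < n) {u : Euc n → ℝ} (hu : Continuous u) {r : ℝ} (hr : 0 ≤ r) :
    ∃ z : Euc n, ‖z‖ = r ∧ ∀ y : Euc n, ‖y‖ = r → u z ≤ u y := by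
  obtain ⟨z, hz, hmin⟩ := (isCompact_sphere (0 : Euc n) r).exists_isMinOn
    ⟨r • ev ⟨0, hn⟩, by simp [norm_smul, norm_ev, abs_of_nonneg hr]⟩ hu.continuousOn
  exact ⟨z, by simpa using hz, fun y hy => hmin (by simpa using hy)⟩

/-- No solution with a weight exponent `≤ -2`. -/
theorem no_solution_weight (hn : 3 ≤ n) {A B p q : ℝ} (hp : 0 < p) (hA : A ≤ -2) :
    ¬ ∃ u v : Euc n → ℝ, IsWeightedSolution A B p q u v := by
  rintro ⟨u, v, hs⟩
  obtain ⟨hu, hv⟩ := hs.super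
  obtain ⟨-, -, -, -, hup, hvp, heq⟩ := id hs
  obtain ⟨c, hc, hstep⟩ := step_bound (A := A) hn hp
  obtain ⟨zu, hzu, hmu⟩ := exists_sphere_min (by omega : 0 < n) hu.1 zero_le_one
  obtain ⟨zv, hzv, hmv⟩ := exists_sphere_min (by omega : 0 < n) hv.1 zero_le_one
  set δ := c * v zv ^ p
  have hδ : 0 < δ := mul_pos hc (Real.rpow_pos_of_pos (hvp zv) _)
  have key : ∀ k : ℕ, ∀ x : Euc n, x ≠ 0 → ‖x‖ ≤ (2 / 3) ^ k → (k : ℝ) * δ ≤ u x := by
    intro k
    induction k with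
    | zero => intro x _ _; simpa using (hup x).le
    | succ k ih =>
      intro x hx hxk
      have hr : 0 < ‖x‖ := norm_pos_iff.2 hx
      have hk1 : (2 / 3 : ℝ) ^ k ≤ 1 := pow_le_one₀ (by norm_num) (by norm_num)
      rw [pow_succ] at hxk
      have h := hstep u v hu hv (fun y hy => (heq y hy).1) x ((k : ℝ) * δ) (v zv) hx (hvp zv)
        fun z hz => by
          have hz0 : z ≠ 0 := fun h => by rw [h, norm_zero] at hz; linarith
          exact ⟨ih z hz0 (by linarith), inner_bound hn hv hmv hz0 (by linarith)⟩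
      have h1 : 1 ≤ ‖x‖ ^ (A + 2) :=
        Real.one_le_rpow_of_pos_of_le_one_of_nonpos hr (by linarith) (by linarith)
      have : δ ≤ c * ‖x‖ ^ (A + 2) * v zv ^ p := by
        rw [mul_right_comm]
        exact le_mul_of_one_le_right hδ.le h1
      push_cast
      linarith
  obtain ⟨M, hM⟩ := (isCompact_closedBall (0 : Euc n) 1).exists_bound_of_continuousOn
    hu.1.continuousOn
  obtain ⟨k, hk⟩ := exists_nat_gt (M / δ)
  rw [div_lt_iff₀ hδ] at hk
  have hk0 : (0 : ℝ) < (2 / 3) ^ k := by positivity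
  set x : Euc n := ((2 / 3 : ℝ) ^ k) • ev ⟨0, by omega⟩ with hxd
  have hxn : ‖x‖ = (2 / 3) ^ k := by
    rw [hxd, norm_smul, norm_ev, mul_one, Real.norm_of_nonneg hk0.le]
  have h1 := key k x (fun h => by rw [h, norm_zero] at hxn; linarith) hxn.le
  have h2 := hM x (by
    rw [Metric.mem_closedBall, dist_zero_right, hxn]
    exact pow_le_one₀ (by norm_num) (by norm_num))
  rw [Real.norm_eq_abs, abs_of_pos (hup x)] at h2
  linarith

/-- No solution when `p q ≤ 1`. -/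
theorem no_solution_sublinear_w (hn : 3 ≤ n) {A B p q : ℝ} (hp : 0 < p) (hq : 0 < q)
    (hA : -2 < A) (hB : -2 < B) (hpq : p * q ≤ 1) :
    ¬ ∃ u v : Euc n → ℝ, IsWeightedSolution A B p q u v := by
  rintro ⟨u, v, hs⟩
  obtain ⟨hu, hv⟩ := hs.super
  obtain ⟨-, -, -, -, hup, hvp, heq⟩ := id hs
  obtain ⟨c1, hc1, hstep1⟩ := step_bound (A := A) hn hp
  obtain ⟨c2, hc2, hstep2⟩ := step_bound (A := B) hn hq
  choose zu hzu hmu using fun r : {r : ℝ // 0 < r} =>
    exists_sphere_min (by omega : 0 < n) hu.1 r.2.le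
  choose zv hzv hmv using fun r : {r : ℝ // 0 < r} =>
    exists_sphere_min (by omega : 0 < n) hv.1 r.2.le
  have ne0 : ∀ {z : Euc n} {r : ℝ}, 0 < r → ‖z‖ = r → z ≠ 0 := fun hr hz h => by
    rw [h, norm_zero] at hz; linarith
  set T := ((4 / 9 : ℝ) ^ (n - 1)) ^ (p * q) with hT
  set c := c1 * (c2 ^ p * ((3 / 2 : ℝ) ^ (B + 2)) ^ p) * T
  have hc0 : 0 < c := by positivity
  set γ := A + 2 + (B + 2) * p with hγ
  have hγ0 : 0 < γ := by
    have : 0 < (B + 2) * p := mul_pos (by linarith) hp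
    linarith
  set m0 := u (zu ⟨1, one_pos⟩)
  have key : ∀ r : ℝ, 1 ≤ r → c * r ^ γ ≤ m0 ^ (1 - p * q) := by
    intro r hr
    have hr0 : 0 < r := by linarith
    set R1 : {r : ℝ // 0 < r} := ⟨r, hr0⟩
    set R2 : {r : ℝ // 0 < r} := ⟨3 / 2 * r, by linarith⟩
    set R3 : {r : ℝ // 0 < r} := ⟨3 / 2 * (3 / 2 * r), by linarith⟩
    have h1 := hstep1 u v hu hv (fun y hy => (heq y hy).1) (zu R1) 0 (v (zv R2))
      (ne0 hr0 (hzu R1)) (hvp _) fun z hz => ⟨(hup z).le, hmv R2 z (by rw [hz, hzu R1])⟩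
    have h2 := hstep2 v u hv hu (fun y hy => (heq y hy).2) (zv R2) 0 (u (zu R3))
      (ne0 R2.2 (hzv R2)) (hup _) fun z hz => ⟨(hvp z).le, hmu R3 z (by rw [hz, hzv R2])⟩
    have hz3 : ‖zu R3‖ = 3 / 2 * (3 / 2 * r) := hzu R3
    have h3 := outer_bound hn hu hr0 (hup (zu R1)).le (hmu R1)
      (x := zu R3) (by rw [hz3]; linarith)
    rw [hz3, show r / (3 / 2 * (3 / 2 * r)) = (4 / 9 : ℝ) by field_simp; ring] at h3
    rw [zero_add, hzu R1] at h1
    rw [zero_add, hzv R2] at h2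
    set X := u (zu R1)
    have hX : 0 < X := hup _
    have e2 : (c2 * (3 / 2 * r) ^ (B + 2) * u (zu R3) ^ q) ^ p ≤ v (zv R2) ^ p :=
      Real.rpow_le_rpow (mul_nonneg (by positivity) (Real.rpow_nonneg (hup _).le _)) h2 hp.le
    have e3 : T * X ^ (p * q) ≤ (u (zu R3) ^ q) ^ p := by
      rw [← Real.rpow_mul (hup _).le, mul_comm q p, hT, ← Real.mul_rpow (by positivity) hX.le]
      exact Real.rpow_le_rpow (by positivity) (by linarith) (by positivity)
    rw [Real.mul_rpow (by positivity) (Real.rpow_nonneg (hup _).le _),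
      Real.mul_rpow hc2.le (by positivity), Real.mul_rpow (by norm_num) hr0.le,
      Real.mul_rpow (by positivity) (by positivity), ← Real.rpow_mul hr0.le] at e2
    have e4 : c * r ^ γ * X ^ (p * q) ≤ X := by
      refine le_trans (le_of_eq ?_) ((mul_le_mul_of_nonneg_left
        ((mul_le_mul_of_nonneg_left e3 (by positivity)).trans e2)
        (mul_nonneg hc1.le (Real.rpow_nonneg hr0.le _))).trans h1)
      simp only [c, hγ, Real.rpow_add hr0]
      ring
    have hXm : X ≤ m0 := by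
      have h := inner_bound hn hu (hmu R1) (ne0 one_pos (hzu ⟨1, one_pos⟩))
        (by rw [hzu ⟨1, one_pos⟩]; exact hr)
      exact h
    rw [← le_div_iff₀ (Real.rpow_pos_of_pos hX _)] at e4
    refine e4.trans ((le_of_eq ?_).trans (Real.rpow_le_rpow hX.le hXm (by linarith)))
    rw [Real.rpow_sub hX, Real.rpow_one]
  obtain ⟨r, h1, h2⟩ := ((eventually_ge_atTop (1 : ℝ)).and
    (((tendsto_rpow_atTop hγ0).const_mul_atTop hc0).eventually
      (eventually_gt_atTop (m0 ^ (1 - p * q))))).exists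
  linarith [key r h1]

end Vale.Agent.P100W
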