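import Vale.Agent.P100W.Decay
import Vale.Agent.P100C.Pohozaev

/-!
The weighted Pohozaev identity between two spheres and the nonexistence it gives: if the
Lane–Emden system with exponents `(p, q)` has no positive entire solution, then neither has the
weighted system with subcritical parameters `A, B > -2`.
-/

open MeasureTheory Filter Topology Laplacian Set
open scoped ContDiff

noncomputable section

namespace Vale.Agent.P100W

open Vale.Agent.P100 Vale.Agent.P100C

variable {n : ℕ}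

/-- The weighted Pohozaev field. -/
def Fw (a b U V : Euc n → ℝ) (p q a1 a2 : ℝ) (i : Fin n) (x : Euc n) : ℝ :=
  pd i U x * (∑ j, x j * pd j V x) + pd i V x * (∑ j, x j * pd j U x)
    - x i * (∑ j, pd j U x * pd j V x)
    + x i * (1 / (p + 1) * (a x * V x ^ (p + 1)) + 1 / (q + 1) * (b x * U x ^ (q + 1)))
    + a1 * (V x * pd i U x) + a2 * (U x * pd i V x)

/-- The size of the field. -/
def Hw (a b U V : Euc n → ℝ) (p q : ℝ) (x : Euc n) : ℝ :=
  ‖x‖ * (‖fderiv ℝ U x‖ * ‖fderiv ℝ V x‖ + (a x * V x ^ (p + 1) + b x * U x ^ (q + 1)))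
    + V x * ‖fderiv ℝ U x‖ + U x * ‖fderiv ℝ V x‖

/-- The correction of the unweighted field. -/
def Gw (a b U V : Euc n → ℝ) (p q : ℝ) (i : Fin n) (x : Euc n) : ℝ :=
  x i * (1 / (p + 1) * ((a x - 1) * V x ^ (p + 1)) + 1 / (q + 1) * ((b x - 1) * U x ^ (q + 1)))

section Field

variable {a b U V : Euc n → ℝ} (ha : ContDiff ℝ 1 a) (hb : ContDiff ℝ 1 b)
  (hU : ContDiff ℝ 2 U) (hV : ContDiff ℝ 2 V) (hUp : ∀ x, 0 < U x)
  (hVp : ∀ x, 0 < V x) {p q : ℝ} (a1 a2 : ℝ)

lemma Fw_eq (i : Fin n) :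
    Fw a b U V p q a1 a2 i = fun x => Ff U V p q a1 a2 i x + Gw a b U V p q i x := by
  funext x; simp only [Fw, Ff, Gw]; ring

include ha hb hU hV hUp hVp in
lemma contDiff_Gw (i : Fin n) : ContDiff ℝ 1 (Gw a b U V p q i) :=
  (contDiff_coord i).mul ((contDiff_const.mul ((ha.sub contDiff_const).mul
    ((hV.of_le one_le_two).rpow_const_of_ne fun x => (hVp x).ne'))).add
    (contDiff_const.mul ((hb.sub contDiff_const).mul
    ((hU.of_le one_le_two).rpow_const_of_ne fun x => (hUp x).ne'))))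

include ha hb hU hV hUp hVp in
lemma contDiff_Fw (i : Fin n) : ContDiff ℝ 1 (Fw a b U V p q a1 a2 i) := by
  rw [Fw_eq]
  exact (contDiff_Ff hU hV hUp hVp a1 a2 i).add (contDiff_Gw ha hb hU hV hUp hVp i)

include ha hb hU hV hUp hVp in
lemma pd_Gw (hp : p + 1 ≠ 0) (hq : q + 1 ≠ 0) (i : Fin n) (x : Euc n) :
    pd i (Gw a b U V p q i) x =
      (1 / (p + 1) * ((a x - 1) * V x ^ (p + 1)) + 1 / (q + 1) * ((b x - 1) * U x ^ (q + 1)))
      + x i * (1 / (p + 1) * V x ^ (p + 1) * pd i a x + (a x - 1) * (V x ^ p * pd i V x)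
        + (1 / (q + 1) * U x ^ (q + 1) * pd i b x + (b x - 1) * (U x ^ q * pd i U x))) := by
  have hU1 : DifferentiableAt ℝ U x := (hU.of_le one_le_two).differentiable one_ne_zero x
  have hV1 : DifferentiableAt ℝ V x := (hV.of_le one_le_two).differentiable one_ne_zero x
  have ha1 : DifferentiableAt ℝ (fun y => a y - 1) x :=
    ((ha.sub contDiff_const).differentiable one_ne_zero) x
  have hb1 : DifferentiableAt ℝ (fun y => b y - 1) x :=
    ((hb.sub contDiff_const).differentiable one_ne_zero) x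
  have ea : pd i (fun y => a y - 1) x = pd i a x := by simp [pd, fderiv_sub_const]
  have eb : pd i (fun y => b y - 1) x = pd i b x := by simp [pd, fderiv_sub_const]
  have c : DifferentiableAt ℝ (fun y : Euc n => y i) x :=
    (contDiff_coord (k := 1) i).differentiable one_ne_zero x
  have hVr : DifferentiableAt ℝ (fun y => V y ^ (p + 1)) x :=
    hV1.rpow_const (Or.inl (hVp x).ne')
  have hUr : DifferentiableAt ℝ (fun y => U y ^ (q + 1)) x :=
    hU1.rpow_const (Or.inl (hUp x).ne')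
  have t1 := ha1.fun_mul hVr
  have t2 := hb1.fun_mul hUr
  have e1 := pd_comp hV1 (Real.hasDerivAt_rpow_const (p := p + 1) (Or.inl (hVp x).ne')) i
  have e2 := pd_comp hU1 (Real.hasDerivAt_rpow_const (p := q + 1) (Or.inl (hUp x).ne')) i
  change pd i (fun y : Euc n => y i * (1 / (p + 1) * ((a y - 1) * V y ^ (p + 1))
    + 1 / (q + 1) * ((b y - 1) * U y ^ (q + 1)))) x = _
  rw [pd_mul' c ((t1.const_mul _).fun_add (t2.const_mul _)), pd_coord, if_pos rfl, one_mul,
    pd_add' (t1.const_mul _) (t2.const_mul _), pd_const_mul _ t1, pd_const_mul _ t2,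
    pd_mul' ha1 hVr, pd_mul' hb1 hUr, e1, e2, ea, eb]
  simp only [add_sub_cancel_right]
  field_simp

include ha hb hU hV hUp hVp in
lemma sum_pd_Fw (hp : p + 1 ≠ 0) (hq : q + 1 ≠ 0) (x : Euc n) {A B : ℝ}
    (e1 : ∑ i, pd i (pd i U) x = -(a x * V x ^ p)) (e2 : ∑ i, pd i (pd i V) x = -(b x * U x ^ q))
    (hA : ∑ i, x i * pd i a x = A * a x) (hB : ∑ i, x i * pd i b x = B * b x)
    (hsum : a1 + a2 = (n : ℝ) - 2) :
    ∑ i, pd i (Fw a b U V p q a1 a2 i) x =
      (((n : ℝ) + A) / (p + 1) - a1) * (a x * V x ^ (p + 1))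
        + (((n : ℝ) + B) / (q + 1) - a2) * (b x * U x ^ (q + 1)) := by
  have hG : ∀ i, pd i (Fw a b U V p q a1 a2 i) x
      = pd i (Ff U V p q a1 a2 i) x + pd i (Gw a b U V p q i) x := fun i => by
    rw [Fw_eq]
    exact pd_add' ((contDiff_Ff hU hV hUp hVp a1 a2 i).differentiable one_ne_zero x)
      ((contDiff_Gw ha hb hU hV hUp hVp i).differentiable one_ne_zero x) i
  simp only [hG, pd_Ff hU hV hUp hVp a1 a2 hp hq, pd_Gw ha hb hU hV hUp hVp hp hq]
  simp only [Finset.sum_add_distrib, Finset.sum_sub_distrib, mul_add, Finset.mul_sum]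
  simp only [← Finset.mul_sum, ← Finset.sum_mul, Finset.sum_const, Finset.card_univ,
    Fintype.card_fin, nsmul_eq_mul]
  have cU : ∑ i, x i * ∑ j, pd i (pd j U) x * pd j V x
      = ∑ i, pd i V x * ∑ j, x j * pd i (pd j U) x := by
    simp only [Finset.mul_sum]
    rw [Finset.sum_comm]
    exact Finset.sum_congr rfl fun i _ => Finset.sum_congr rfl fun j _ => by
      rw [pd_symm hU j i]; ring
  have cV : ∑ i, x i * ∑ j, pd j U x * pd i (pd j V) x
      = ∑ i, pd i U x * ∑ j, x j * pd i (pd j V) x := by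
    simp only [Finset.mul_sum]
    rw [Finset.sum_comm]
    exact Finset.sum_congr rfl fun i _ => Finset.sum_congr rfl fun j _ => by
      rw [pd_symm hV j i]; ring
  have hT : ∑ i, pd i V x * pd i U x = ∑ i, pd i U x * pd i V x :=
    Finset.sum_congr rfl fun i _ => mul_comm _ _
  have hSV : ∑ i, x i * (V x ^ p * pd i V x) = V x ^ p * ∑ j, x j * pd j V x := by
    rw [Finset.mul_sum]; exact Finset.sum_congr rfl fun i _ => by ring
  have hSU : ∑ i, x i * (U x ^ q * pd i U x) = U x ^ q * ∑ j, x j * pd j U x := by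
    rw [Finset.mul_sum]; exact Finset.sum_congr rfl fun i _ => by ring
  have hSa : ∑ i, x i * (1 / (p + 1) * V x ^ (p + 1) * pd i a x)
      = 1 / (p + 1) * V x ^ (p + 1) * (A * a x) := by
    rw [← hA, Finset.mul_sum]; exact Finset.sum_congr rfl fun i _ => by ring
  have hSb : ∑ i, x i * (1 / (q + 1) * U x ^ (q + 1) * pd i b x)
      = 1 / (q + 1) * U x ^ (q + 1) * (B * b x) := by
    rw [← hB, Finset.mul_sum]; exact Finset.sum_congr rfl fun i _ => by ring
  have hTa : ∑ i, x i * ((a x - 1) * (V x ^ p * pd i V x))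
      = (a x - 1) * (V x ^ p * ∑ j, x j * pd j V x) := by
    rw [Finset.mul_sum, Finset.mul_sum]; exact Finset.sum_congr rfl fun i _ => by ring
  have hTb : ∑ i, x i * ((b x - 1) * (U x ^ q * pd i U x))
      = (b x - 1) * (U x ^ q * ∑ j, x j * pd j U x) := by
    rw [Finset.mul_sum, Finset.mul_sum]; exact Finset.sum_congr rfl fun i _ => by ring
  rw [e1, e2, cU, cV, hT, hSV, hSU, hSa, hSb, hTa, hTb, Real.rpow_add_one (hVp x).ne' p,
    Real.rpow_add_one (hUp x).ne' q]
  linear_combination (∑ i, pd i U x * pd i V x) * hsum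

include hUp hVp in
lemma abs_Fw_le (hp : 0 ≤ p) (hq : 0 ≤ q) (i : Fin n) (x : Euc n) (ha0 : 0 ≤ a x)
    (hb0 : 0 ≤ b x) :
    |Fw a b U V p q a1 a2 i x| ≤ (3 * n + 1 + |a1| + |a2|) * Hw a b U V p q x := by
  have hc : ∀ j, |x j| ≤ ‖x‖ := fun j => by
    simpa [Real.norm_eq_abs] using PiLp.norm_apply_le x j
  set A := ‖fderiv ℝ U x‖
  set B := ‖fderiv ℝ V x‖
  have hA : 0 ≤ A := norm_nonneg _
  have hB : 0 ≤ B := norm_nonneg _
  have hx := norm_nonneg x
  have hs : ∀ (f : Fin n → ℝ) (c : ℝ), (∀ j, |f j| ≤ c) → |∑ j, f j| ≤ n * c := fun f c h =>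
    (Finset.abs_sum_le_sum_abs _ _).trans
      ((Finset.sum_le_card_nsmul _ _ c fun j _ => h j).trans (by simp))
  have b1 : |pd i U x * ∑ j, x j * pd j V x| ≤ A * (n * (‖x‖ * B)) := by
    rw [abs_mul]
    exact mul_le_mul (abs_pd_le i U x) (hs _ _ fun j => by
      rw [abs_mul]; exact mul_le_mul (hc j) (abs_pd_le j V x) (abs_nonneg _) hx) (abs_nonneg _) hA
  have b2 : |pd i V x * ∑ j, x j * pd j U x| ≤ B * (n * (‖x‖ * A)) := by
    rw [abs_mul]
    exact mul_le_mul (abs_pd_le i V x) (hs _ _ fun j => by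
      rw [abs_mul]; exact mul_le_mul (hc j) (abs_pd_le j U x) (abs_nonneg _) hx) (abs_nonneg _) hB
  have b3 : |x i * ∑ j, pd j U x * pd j V x| ≤ ‖x‖ * (n * (A * B)) := by
    rw [abs_mul]
    exact mul_le_mul (hc i) (hs _ _ fun j => by
      rw [abs_mul]
      exact mul_le_mul (abs_pd_le j U x) (abs_pd_le j V x) (abs_nonneg _) hA) (abs_nonneg _) hx
  have hv' : 0 ≤ a x * V x ^ (p + 1) := mul_nonneg ha0 (Real.rpow_pos_of_pos (hVp x) _).le
  have hu' : 0 ≤ b x * U x ^ (q + 1) := mul_nonneg hb0 (Real.rpow_pos_of_pos (hUp x) _).le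
  have b4 : |x i * (1 / (p + 1) * (a x * V x ^ (p + 1)) + 1 / (q + 1) * (b x * U x ^ (q + 1)))|
      ≤ ‖x‖ * (a x * V x ^ (p + 1) + b x * U x ^ (q + 1)) := by
    rw [abs_mul]
    refine mul_le_mul (hc i) ?_ (abs_nonneg _) hx
    rw [abs_of_nonneg (by positivity)]
    have h1 : 1 / (p + 1) ≤ 1 := by rw [div_le_one (by linarith)]; linarith
    have h2 : 1 / (q + 1) ≤ 1 := by rw [div_le_one (by linarith)]; linarith
    exact add_le_add (mul_le_of_le_one_left hv' h1) (mul_le_of_le_one_left hu' h2)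
  have b5 : |a1 * (V x * pd i U x)| ≤ |a1| * (V x * A) := by
    rw [abs_mul, abs_mul, abs_of_pos (hVp x)]
    exact mul_le_mul_of_nonneg_left
      (mul_le_mul_of_nonneg_left (abs_pd_le i U x) (hVp x).le) (abs_nonneg _)
  have b6 : |a2 * (U x * pd i V x)| ≤ |a2| * (U x * B) := by
    rw [abs_mul, abs_mul, abs_of_pos (hUp x)]
    exact mul_le_mul_of_nonneg_left
      (mul_le_mul_of_nonneg_left (abs_pd_le i V x) (hUp x).le) (abs_nonneg _)
  have p1 : 0 ≤ ‖x‖ * (A * B) := by positivity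
  have p2 : 0 ≤ ‖x‖ * (a x * V x ^ (p + 1) + b x * U x ^ (q + 1)) :=
    mul_nonneg hx (add_nonneg hv' hu')
  have p3 : 0 ≤ V x * A := mul_nonneg (hVp x).le hA
  have p4 : 0 ≤ U x * B := mul_nonneg (hUp x).le hB
  have h12 := abs_add_le (pd i U x * ∑ j, x j * pd j V x) (pd i V x * ∑ j, x j * pd j U x)
  unfold Fw Hw
  refine (abs_add_le _ _).trans ((add_le_add ((abs_add_le _ _).trans (add_le_add
    ((abs_add_le _ _).trans (add_le_add ((abs_sub _ _).trans (add_le_add h12 le_rfl)) le_rfl))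
    le_rfl)) le_rfl).trans ?_)
  nlinarith [abs_nonneg a1, abs_nonneg a2, (Nat.cast_nonneg n : (0 : ℝ) ≤ n)]

end Field

/-- `x · ∇|x|^A = A |x|^A` off the origin. -/
lemma radial_deriv {A : ℝ} {x : Euc n} (hx : x ≠ 0) :
    ∑ i, x i * pd i (fun y : Euc n => ‖y‖ ^ A) x = A * ‖x‖ ^ A := by
  have hr : 0 < ‖x‖ := norm_pos_iff.2 hx
  have e : (fun y : Euc n => ‖y‖ ^ A) = fun y => (‖y‖ ^ 2) ^ (A / 2) := funext fun y => by
    rw [← Real.rpow_two, ← Real.rpow_mul (norm_nonneg y)]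
    congr 1; ring
  have h := ((hasStrictFDerivAt_norm_sq x).hasFDerivAt.rpow_const (p := A / 2)
    (Or.inl (by positivity))).fderiv
  have hp : ∀ i, pd i (fun y : Euc n => ‖y‖ ^ A) x
      = A * (‖x‖ ^ 2) ^ (A / 2 - 1) * x i := fun i => by
    rw [e]
    simp only [pd, h]
    simp [ev, EuclideanSpace.inner_single_right]
    ring
  calc ∑ i, x i * pd i (fun y : Euc n => ‖y‖ ^ A) x
      = A * (‖x‖ ^ 2) ^ (A / 2 - 1) * ∑ i, x i ^ 2 := by
        rw [Finset.mul_sum]; exact Finset.sum_congr rfl fun i _ => by rw [hp]; ring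
    _ = A * ((‖x‖ ^ 2) ^ (A / 2 - 1) * (‖x‖ ^ 2) ^ (1 : ℝ)) := by
        rw [Real.rpow_one, EuclideanSpace.real_norm_sq_eq x]; ring
    _ = A * ‖x‖ ^ A := by
        rw [← Real.rpow_add (by positivity), sub_add_cancel, ← Real.rpow_two,
          ← Real.rpow_mul hr.le]
        congr 2; ring

lemma contDiffOn_weight (A : ℝ) :
    ContDiffOn ℝ 2 (fun y : Euc n => ‖y‖ ^ A) {y | y ≠ 0} := fun y hy =>
  (ContDiffAt.rpow_const_of_ne (contDiffAt_norm ℝ hy) (norm_ne_zero_iff.2 hy)).contDiffWithinAt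

/-- The weighted potential density. -/
def Wd (A B p q : ℝ) (u v : Euc n → ℝ) (x : Euc n) : ℝ :=
  ‖x‖ ^ A * v x ^ (p + 1) + ‖x‖ ^ B * u x ^ (q + 1)

/-- The size of the field of a solution. -/
def Hs (A B p q : ℝ) (u v : Euc n → ℝ) : Euc n → ℝ :=
  Hw (fun y => ‖y‖ ^ A) (fun y => ‖y‖ ^ B) u v p q

lemma Hs_le {A B p q : ℝ} {u v : Euc n → ℝ} (hup : ∀ x, 0 < u x) (hvp : ∀ x, 0 < v x)
    {x : Euc n} {Du Dv E U V : ℝ} (h1 : ‖fderiv ℝ u x‖ ≤ Du) (h2 : ‖fderiv ℝ v x‖ ≤ Dv)
    (h3 : Wd A B p q u v x ≤ E) (h4 : u x ≤ U) (h5 : v x ≤ V) :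
    Hs A B p q u v x ≤ ‖x‖ * (Du * Dv + E) + V * Du + U * Dv := by
  have hU : 0 ≤ Du := (norm_nonneg _).trans h1
  refine add_le_add (add_le_add (mul_le_mul_of_nonneg_left (add_le_add
    (mul_le_mul h1 h2 (norm_nonneg _) hU) h3) (norm_nonneg _)) ?_) ?_
  · exact mul_le_mul h5 h1 (norm_nonneg _) ((hvp x).le.trans h5)
  · exact mul_le_mul h4 h2 (norm_nonneg _) ((hup x).le.trans h4)

/-- The identity against a cut-off vanishing near the origin. -/
lemma identity_bound_w {A B p q κ a1 a2 : ℝ} (hp : 0 < p) (hq : 0 < q)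
    (ha : a1 + a2 = (n : ℝ) - 2)
    (h1 : ((n : ℝ) + A) / (p + 1) - a1 = κ) (h2 : ((n : ℝ) + B) / (q + 1) - a2 = κ)
    {u v : Euc n → ℝ} (hs : IsWeightedSolution A B p q u v) {ψ : Euc n → ℝ}
    (hψ : ContDiff ℝ 1 ψ) (hψc : HasCompactSupport ψ) (h0 : (0 : Euc n) ∉ tsupport ψ) :
    Integrable (fun x => ‖fderiv ℝ ψ x‖ * Hs A B p q u v x) ∧
    Integrable (fun x => ψ x * Wd A B p q u v x) ∧
    |κ * ∫ x, ψ x * Wd A B p q u v x|
      ≤ n * (3 * n + 1 + |a1| + |a2|) * ∫ x, ‖fderiv ℝ ψ x‖ * Hs A B p q u v x := by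
  obtain ⟨huc, hvc, hu2, hv2, hup, hvp, heq⟩ := hs
  obtain ⟨δ, hδ, hball⟩ := Metric.isOpen_iff.1 (isClosed_tsupport ψ).isOpen_compl 0 h0
  have hfar : ∀ x ∈ tsupport ψ, 3 / 4 * δ < ‖x‖ := by
    intro x hx
    by_contra h
    exact hball (by simp only [Metric.mem_ball, dist_zero_right]; linarith) hx
  set U := glue δ u
  set V := glue δ v
  set a := glue δ (fun y : Euc n => ‖y‖ ^ A)
  set b := glue δ (fun y : Euc n => ‖y‖ ^ B)
  have hU : ContDiff ℝ 2 U := contDiff_glue hδ hu2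
  have hV : ContDiff ℝ 2 V := contDiff_glue hδ hv2
  have hUp : ∀ x, 0 < U x := glue_pos hup
  have hVp : ∀ x, 0 < V x := glue_pos hvp
  have ha1 : ContDiff ℝ 1 a := (contDiff_glue hδ (contDiffOn_weight A)).of_le one_le_two
  have hb1 : ContDiff ℝ 1 b := (contDiff_glue hδ (contDiffOn_weight B)).of_le one_le_two
  have loc : ∀ x ∈ tsupport ψ,
      (U x = u x ∧ fderiv ℝ U x = fderiv ℝ u x ∧ ∑ i, pd i (pd i U) x = Δ u x) ∧
      (V x = v x ∧ fderiv ℝ V x = fderiv ℝ v x ∧ ∑ i, pd i (pd i V) x = Δ v x) ∧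
      (a x = ‖x‖ ^ A ∧ b x = ‖x‖ ^ B) := fun x hx =>
    ⟨glue_local hδ hu2 (hfar x hx), glue_local hδ hv2 (hfar x hx),
      (glue_local hδ (contDiffOn_weight A) (hfar x hx)).1,
      (glue_local hδ (contDiffOn_weight B) (hfar x hx)).1⟩
  set H := Hw a b U V p q
  have eqH : ∀ x, ‖fderiv ℝ ψ x‖ * Hs A B p q u v x = ‖fderiv ℝ ψ x‖ * H x := by
    intro x
    by_cases hx : x ∈ tsupport ψ
    · obtain ⟨⟨a', b', -⟩, ⟨c', d', -⟩, e', f'⟩ := loc x hx
      simp only [H, Hs, Hw, a', b', c', d', e', f']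
    · simp [fderiv_eq_zero_of_notMem hx]
  have hHc : Continuous H := by
    have c1 := (hU.continuous_fderiv two_ne_zero).norm
    have c2 := (hV.continuous_fderiv two_ne_zero).norm
    exact ((continuous_norm.mul ((c1.mul c2).add ((ha1.continuous.mul (hV.continuous.rpow_const
      fun x => Or.inl (hVp x).ne')).add (hb1.continuous.mul (hU.continuous.rpow_const fun x =>
      Or.inl (hUp x).ne'))))).add (hV.continuous.mul c1)).add (hU.continuous.mul c2)
  have hint : Integrable (fun x => ‖fderiv ℝ ψ x‖ * H x) :=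
    (((hψ.continuous_fderiv one_ne_zero).norm).mul hHc).integrable_of_hasCompactSupport
      ((hψc.fderiv ℝ).norm.mul_right)
  set W : Euc n → ℝ := fun x => a x * V x ^ (p + 1) + b x * U x ^ (q + 1) with hW
  have eqW : ∀ x, ψ x * Wd A B p q u v x = ψ x * W x := by
    intro x
    by_cases hx : x ∈ tsupport ψ
    · obtain ⟨⟨a', -, -⟩, ⟨c', -, -⟩, e', f'⟩ := loc x hx
      simp only [hW, Wd, a', c', e', f']
    · simp [image_eq_zero_of_notMem_tsupport hx]
  have hWi : Integrable (fun x => ψ x * W x) :=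
    (hψ.continuous.mul ((ha1.continuous.mul (hV.continuous.rpow_const fun x =>
      Or.inl (hVp x).ne')).add (hb1.continuous.mul (hU.continuous.rpow_const fun x =>
      Or.inl (hUp x).ne')))).integrable_of_hasCompactSupport hψc.mul_right
  refine ⟨hint.congr (Eventually.of_forall fun x => (eqH x).symm),
    hWi.congr (Eventually.of_forall fun x => (eqW x).symm), ?_⟩
  simp only [eqH, eqW]
  set F := Fw a b U V p q a1 a2
  have hF : ∀ i, ContDiff ℝ 1 (F i) := contDiff_Fw ha1 hb1 hU hV hUp hVp a1 a2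
  have i1 : ∀ i, Integrable fun x => ψ x * pd i (F i) x := fun i =>
    (hψ.continuous.mul (continuous_pd (hF i) i)).integrable_of_hasCompactSupport hψc.mul_right
  have i2 : ∀ i, Integrable fun x => pd i ψ x * F i x := fun i =>
    ((continuous_pd hψ i).mul (hF i).continuous).integrable_of_hasCompactSupport
      (hasCompactSupport_pd hψc i).mul_right
  have hkey : κ * ∫ x, ψ x * W x = -∑ i, ∫ x, pd i ψ x * F i x := by
    rw [← Finset.sum_neg_distrib, ← integral_const_mul,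
      ← Finset.sum_congr rfl fun i _ => integral_pd_mul hψ hψc (hF i) i,
      ← integral_finsetSum _ fun i _ => i1 i]
    refine integral_congr_ae (Eventually.of_forall fun x => ?_)
    simp only [← Finset.mul_sum]
    by_cases hx : x ∈ tsupport ψ
    · obtain ⟨⟨a', -, b'⟩, ⟨c', -, d'⟩, e', f'⟩ := loc x hx
      have hx0 : x ≠ 0 := fun h => h0 (h ▸ hx)
      obtain ⟨e1, e2⟩ := heq x hx0
      have hpd : ∀ (C : ℝ) (i : Fin n),
          pd i (glue δ fun y : Euc n => ‖y‖ ^ C) x = pd i (fun y : Euc n => ‖y‖ ^ C) x :=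
        fun C i => by simp only [pd, (glue_local hδ (contDiffOn_weight C) (hfar x hx)).2.1]
      simp only [F]
      rw [sum_pd_Fw ha1 hb1 hU hV hUp hVp a1 a2 (by linarith) (by linarith) x (A := A) (B := B)
        (by rw [b', c', e']; linarith) (by rw [d', a', f']; linarith)
        (by simp only [a, hpd]; rw [radial_deriv hx0, ← e'])
        (by simp only [b, hpd]; rw [radial_deriv hx0, ← f']) ha, h1, h2]
      simp only [hW]
      ring
    · simp [image_eq_zero_of_notMem_tsupport hx]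
  have hb' : ∀ i, |∫ x, pd i ψ x * F i x|
      ≤ (3 * n + 1 + |a1| + |a2|) * ∫ x, ‖fderiv ℝ ψ x‖ * H x := by
    intro i
    rw [← integral_const_mul]
    refine abs_integral_le_integral_abs.trans (integral_mono (i2 i).abs (hint.const_mul _)
      fun x => ?_)
    by_cases hx : x ∈ tsupport ψ
    · obtain ⟨-, -, e', f'⟩ := loc x hx
      rw [abs_mul, mul_left_comm]
      exact mul_le_mul (abs_pd_le i ψ x) (abs_Fw_le hUp hVp a1 a2 hp.le hq.le i x
        (e' ▸ Real.rpow_nonneg (norm_nonneg x) _) (f' ▸ Real.rpow_nonneg (norm_nonneg x) _))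
        (abs_nonneg _) (norm_nonneg _)
    · simp [pd, fderiv_eq_zero_of_notMem hx]
  rw [hkey, abs_neg]
  refine (Finset.abs_sum_le_sum_abs _ _).trans
    ((Finset.sum_le_card_nsmul _ _ _ fun i _ => hb' i).trans (le_of_eq ?_))
  simp [mul_assoc]

/-- The exponent identity behind subcriticality. -/
lemma expo_sum {A B p q : ℝ} (hp : 0 < p) (hq : 0 < q) (hpq : 1 < p * q) :
    (expo A B p q + expo B A q p - ((n : ℝ) - 2)) * (p * q - 1) =
      (p + 1) * (q + 1) *
        (((n : ℝ) + A) / (p + 1) + ((n : ℝ) + B) / (q + 1) - ((n : ℝ) - 2)) := by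
  have hd : p * q - 1 ≠ 0 := by linarith
  have h1 := div_mul_cancel₀ (2 + A + p * (2 + B)) hd
  have h2 := div_mul_cancel₀ (2 + B + q * (2 + A)) hd
  have h3 := div_mul_cancel₀ ((n : ℝ) + A) (show p + 1 ≠ 0 by linarith)
  have h4 := div_mul_cancel₀ ((n : ℝ) + B) (show q + 1 ≠ 0 by linarith)
  simp only [expo, mul_comm q p]
  linear_combination h1 + h2 - (q + 1) * h3 - (p + 1) * h4

/-- Near the origin the field is at most of order `1/|x|`. -/
lemma near_bound (hn : 3 ≤ n) {A B p q : ℝ} (hp : 0 < p) (hq : 0 < q) (hA : -2 < A) (hB : -2 < B)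
    {u v : Euc n → ℝ} (hs : IsWeightedSolution A B p q u v) :
    ∃ K : ℝ, 0 ≤ K ∧ ∀ x : Euc n, x ≠ 0 → ‖x‖ ≤ 1 / 2 → Hs A B p q u v x * ‖x‖ ≤ K := by
  obtain ⟨G, hG0, hG⟩ := grad_local hn
  obtain ⟨huc, hvc, hu2, hv2, hup, hvp, heq⟩ := hs
  obtain ⟨M0, hM0⟩ := (isCompact_closedBall (0 : Euc n) 1).exists_bound_of_continuousOn
    (huc.add hvc).continuousOn
  set M := max M0 1 with hM
  have hM1 : 1 ≤ M := le_max_right _ _
  have hb : ∀ z : Euc n, ‖z‖ ≤ 1 → u z ≤ M ∧ v z ≤ M := fun z hz => by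
    have := hM0 z (by simpa using hz)
    simp only [Pi.add_apply, Real.norm_eq_abs] at this
    rw [abs_of_pos (add_pos (hup z) (hvp z))] at this
    constructor <;> linarith [hup z, hvp z, le_max_left M0 1]
  set D := G * (M + 4 * M ^ p + 4 * M ^ q) with hD
  have hD0 : 0 ≤ D := by positivity
  refine ⟨D * D + (M ^ (p + 1) + M ^ (q + 1)) + M * D + M * D, by positivity, fun x hx hx2 => ?_⟩
  have hr : 0 < ‖x‖ := norm_pos_iff.2 hx
  have grad : ∀ {w z : Euc n → ℝ} {C r : ℝ}, ContDiffOn ℝ 2 w {y | y ≠ 0} → -2 < C → 0 < r →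
      (∀ y, y ≠ 0 → -(Δ w y) = ‖y‖ ^ C * z y ^ r) → (∀ y, 0 < w y) → (∀ y, 0 < z y) →
      (∀ y, ‖y‖ ≤ 1 → w y ≤ M ∧ z y ≤ M) → 4 * M ^ r ≤ 4 * M ^ p + 4 * M ^ q →
      ‖fderiv ℝ w x‖ * ‖x‖ ≤ D := by
    intro w z C r hw hC hr' he hwp hzp hbd hle
    rw [hD]
    refine (hG w x (M + (4 * M ^ p + 4 * M ^ q)) hw hx fun y hy => ?_).trans (le_of_eq (by ring))
    have h1 : ‖x‖ ≤ ‖y‖ + ‖y - x‖ := norm_le_norm_add_norm_sub y x
    have hy1 : ‖y‖ ≤ 1 := by linarith [norm_le_norm_add_norm_sub' y x]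
    have hy0 : 0 < ‖y‖ := by linarith
    have hp4 : 0 ≤ 4 * M ^ p + 4 * M ^ q := by positivity
    refine ⟨by rw [abs_of_pos (hwp y)]; linarith [(hbd y hy1).1], ?_⟩
    rw [← abs_neg, he y (norm_pos_iff.1 hy0), abs_of_nonneg (mul_nonneg (by positivity)
      (Real.rpow_nonneg (hzp y).le _))]
    calc ‖y‖ ^ C * z y ^ r * ‖x‖ ^ 2 ≤ ‖y‖ ^ C * M ^ r * (2 * ‖y‖) ^ 2 := by
          gcongr
          · exact (hzp y).le
          · exact (hbd y hy1).2
          · linarith
      _ = 4 * M ^ r * ‖y‖ ^ (C + 2) := by rw [Real.rpow_add hy0, Real.rpow_two]; ring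
      _ ≤ 4 * M ^ r * 1 := by
          gcongr
          exact Real.rpow_le_one hy0.le hy1 (by linarith)
      _ ≤ M + (4 * M ^ p + 4 * M ^ q) := by linarith
  have hu1 := grad hu2 hA hp (fun y hy => (heq y hy).1) hup hvp hb
    (le_add_of_nonneg_right (by positivity))
  have hv1 := grad hv2 hB hq (fun y hy => (heq y hy).2) hvp hup
    (fun y hy => (hb y hy).symm) (le_add_of_nonneg_left (by positivity))
  have hx1 : ‖x‖ ≤ 1 := by linarith
  have hW : Wd A B p q u v x * ‖x‖ ^ 2 ≤ M ^ (p + 1) + M ^ (q + 1) := by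
    have one : ∀ {C r : ℝ} {z : ℝ}, -2 < C → 0 < r → 0 < z → z ≤ M →
        ‖x‖ ^ C * z ^ r * ‖x‖ ^ 2 ≤ M ^ r := fun {C r z} hC hr' hz hzM => by
      calc ‖x‖ ^ C * z ^ r * ‖x‖ ^ 2 = z ^ r * ‖x‖ ^ (C + 2) := by
            rw [Real.rpow_add hr, Real.rpow_two]; ring
        _ ≤ M ^ r * 1 := mul_le_mul (Real.rpow_le_rpow hz.le hzM hr'.le)
            (Real.rpow_le_one hr.le hx1 (by linarith)) (by positivity) (by positivity)
        _ = M ^ r := mul_one _
    rw [Wd, add_mul]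
    exact add_le_add (one hA (by linarith) (hvp x) (hb x hx1).2)
      (one hB (by linarith) (hup x) (hb x hx1).1)
  have h := Hs_le (A := A) (B := B) (p := p) (q := q) hup hvp ((le_div_iff₀ hr).2 hu1)
    ((le_div_iff₀ hr).2 hv1) ((le_div_iff₀ (pow_pos hr 2)).2 hW) (hb x hx1).1 (hb x hx1).2
  refine (mul_le_mul_of_nonneg_right h hr.le).trans (le_of_eq ?_)
  field_simp

/-- Far away the field is at most of order `|x|^(-α-β-1)`. -/
lemma far_bound (hn : 3 ≤ n) {A B p q : ℝ} (hp : 0 < p) (hq : 0 < q) (hpq : 1 < p * q)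
    (hA : -2 < A) (hB : -2 < B)
    (hLE : ¬ ∃ u v : Euc n → ℝ, IsPositiveEntireSolution p q u v)
    {u v : Euc n → ℝ} (hs : IsWeightedSolution A B p q u v) :
    ∃ K : ℝ, 0 ≤ K ∧ ∀ x : Euc n, x ≠ 0 →
      Hs A B p q u v x ≤ K * ‖x‖ ^ (-(expo A B p q + expo B A q p) - 1) := by
  obtain ⟨Cu, hCu, hu⟩ := decay_grad (A := A) (B := B) hn hp hq hpq hA hB hLE
  obtain ⟨Cv, hCv, hv⟩ := decay_grad (A := B) (B := A) hn hq hp (by linarith) hB hA
    fun ⟨a, b, ha, hb, hc, hd, hf, hg, h⟩ =>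
      hLE ⟨b, a, hb, ha, hd, hc, hg, hf, fun x hx => (h x hx).symm⟩
  obtain ⟨-, -, -, -, hup, hvp, -⟩ := id hs
  set α := expo A B p q with hα
  set β := expo B A q p with hβ
  refine ⟨Cu * Cv + (Cv ^ (p + 1) + Cu ^ (q + 1)) + Cv * Cu + Cu * Cv, by positivity,
    fun x hx => ?_⟩
  have hr : 0 < ‖x‖ := norm_pos_iff.2 hx
  obtain ⟨a1, a2⟩ := hu u v hs x hx
  obtain ⟨b1, b2⟩ := hv v u hs.swap x hx
  have e1 : β * p = α + 2 + A := expo_spec hpq.ne'
  have e2 : α * q = β + 2 + B := expo_spec (by rw [mul_comm]; exact hpq.ne')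
  have m : ∀ a b c : ℝ, ‖x‖ ^ a * ‖x‖ ^ b = ‖x‖ ^ c ↔ ‖x‖ ^ (a + b) = ‖x‖ ^ c := fun a b c => by
    rw [Real.rpow_add hr]
  have hW : Wd A B p q u v x
      ≤ (Cv ^ (p + 1) + Cu ^ (q + 1)) * ‖x‖ ^ (-(α + β) - 2) := by
    rw [Wd, add_mul]
    refine add_le_add ?_ ?_
    · refine (mul_le_mul_of_nonneg_left (Real.rpow_le_rpow (hvp x).le b1 (by linarith))
        (by positivity)).trans (le_of_eq ?_)
      rw [Real.mul_rpow hCv (by positivity), ← Real.rpow_mul hr.le, mul_left_comm,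
        (m _ _ _).2 (congrArg _ (show A + -β * (p + 1) = -(α + β) - 2 by linarith))]
    · refine (mul_le_mul_of_nonneg_left (Real.rpow_le_rpow (hup x).le a1 (by linarith))
        (by positivity)).trans (le_of_eq ?_)
      rw [Real.mul_rpow hCu (by positivity), ← Real.rpow_mul hr.le, mul_left_comm,
        (m _ _ _).2 (congrArg _ (show B + -α * (q + 1) = -(α + β) - 2 by linarith))]
  refine (Hs_le hup hvp a2 b2 hW a1 b1).trans (le_of_eq ?_)
  have r1 : ‖x‖ * (‖x‖ ^ (-α - 1) * ‖x‖ ^ (-β - 1)) = ‖x‖ ^ (-(α + β) - 1) := by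
    conv_lhs => arg 1; rw [← Real.rpow_one ‖x‖]
    rw [← Real.rpow_add hr, ← Real.rpow_add hr]
    congr 1; ring
  have r2 : ‖x‖ * ‖x‖ ^ (-(α + β) - 2) = ‖x‖ ^ (-(α + β) - 1) := by
    conv_lhs => arg 1; rw [← Real.rpow_one ‖x‖]
    rw [← Real.rpow_add hr]
    congr 1; ring
  have r3 : ‖x‖ ^ (-β) * ‖x‖ ^ (-α - 1) = ‖x‖ ^ (-(α + β) - 1) :=
    (m _ _ _).2 (congrArg _ (by ring))
  have r4 : ‖x‖ ^ (-α) * ‖x‖ ^ (-β - 1) = ‖x‖ ^ (-(α + β) - 1) :=
    (m _ _ _).2 (congrArg _ (by ring))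
  linear_combination (Cu * Cv) * r1 + (Cv ^ (p + 1) + Cu ^ (q + 1)) * r2 + (Cv * Cu) * r3
    + (Cu * Cv) * r4

lemma norm_fderiv_cut_mul {L : ℝ} (hL : ∀ y, |deriv Real.smoothTransition y| ≤ L) (s t o o' : ℝ)
    (x : Euc n) :
    ‖fderiv ℝ (fun y => radial s o y * radial t o' y) x‖
      ≤ L * (2 * |s| * ‖x‖) + L * (2 * |t| * ‖x‖) := by
  have d : ∀ a b : ℝ, DifferentiableAt ℝ (radial (n := n) a b) x := fun a b =>
    (contDiff_radial (m := 1) a b).differentiable one_ne_zero x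
  rw [fderiv_fun_mul (d s o) (d t o'), add_comm]
  refine (norm_add_le _ _).trans ?_
  rw [norm_smul, norm_smul]
  refine add_le_add ((mul_le_of_le_one_left (norm_nonneg _) ?_).trans (norm_fderiv_radial hL s o x))
    ((mul_le_of_le_one_left (norm_nonneg _) ?_).trans (norm_fderiv_radial hL t o' x))
  · rw [Real.norm_eq_abs, abs_of_nonneg (radial_mem _ _ x).1]; exact (radial_mem _ _ x).2
  · rw [Real.norm_eq_abs, abs_of_nonneg (radial_mem _ _ x).1]; exact (radial_mem _ _ x).2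

/-- **Weighted nonexistence from nonexistence for the Lane–Emden system.** -/
theorem no_weighted_solution (hn : 3 ≤ n) {A B p q : ℝ} (hp : 0 < p) (hq : 0 < q)
    (hpq : 1 < p * q) (hA : -2 < A) (hB : -2 < B)
    (hsub : (n : ℝ) - 2 < ((n : ℝ) + A) / (p + 1) + ((n : ℝ) + B) / (q + 1))
    (hLE : ¬ ∃ u v : Euc n → ℝ, IsPositiveEntireSolution p q u v) :
    ¬ ∃ u v : Euc n → ℝ, IsWeightedSolution A B p q u v := by
  rintro ⟨u, v, hs⟩
  obtain ⟨L, hL0, hL, -⟩ := exists_deriv_bound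
  obtain ⟨K0, hK0, hnear⟩ := near_bound hn hp hq hA hB hs
  obtain ⟨K1, hK1, hfar⟩ := far_bound hn hp hq hpq hA hB hLE hs
  obtain ⟨huc, hvc, hu2, hv2, hup, hvp, -⟩ := id hs
  set e := expo A B p q + expo B A q p - ((n : ℝ) - 2) with he
  have he0 : 0 < e := pos_of_mul_pos_left
    (by rw [he, expo_sum hp hq hpq]; exact mul_pos (by positivity) (by linarith))
    (by linarith : (0:ℝ) ≤ p * q - 1)
  set κ := (((n : ℝ) + A) / (p + 1) + ((n : ℝ) + B) / (q + 1) - ((n : ℝ) - 2)) / 2 with hκ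
  have hκ0 : 0 < κ := by rw [hκ]; linarith
  set a1 := ((n : ℝ) + A) / (p + 1) - κ with ha1
  set a2 := ((n : ℝ) + B) / (q + 1) - κ with ha2
  set S : Set (Euc n) := {x | 1 ≤ ‖x‖ ∧ ‖x‖ ≤ 2}
  have hSc : IsCompact S := (isCompact_closedBall (0 : Euc n) 2).of_isClosed_subset
    (isClosed_le continuous_const continuous_norm |>.inter
      (isClosed_le continuous_norm continuous_const))
    fun x hx => by simpa using hx.2
  have hW0 : ∀ x, x ≠ 0 → 0 < Wd A B p q u v x := fun x hx =>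
    add_pos (mul_pos (Real.rpow_pos_of_pos (norm_pos_iff.2 hx) _)
      (Real.rpow_pos_of_pos (hvp x) _))
      (mul_pos (Real.rpow_pos_of_pos (norm_pos_iff.2 hx) _) (Real.rpow_pos_of_pos (hup x) _))
  have hS0 : ∀ x ∈ S, x ≠ 0 := fun x hx h => by
    have := hx.1; rw [h, norm_zero] at this; linarith
  have hWS : IntegrableOn (Wd A B p q u v) S := by
    refine ContinuousOn.integrableOn_compact hSc (ContinuousOn.add ?_ ?_)
    · exact ((continuous_norm.continuousOn).rpow_const fun x hx =>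
        Or.inl (norm_ne_zero_iff.2 (hS0 x hx))).mul
        (hvc.continuousOn.rpow_const fun x _ => Or.inl (hvp x).ne')
    · exact ((continuous_norm.continuousOn).rpow_const fun x hx =>
        Or.inl (norm_ne_zero_iff.2 (hS0 x hx))).mul
        (huc.continuousOn.rpow_const fun x _ => Or.inl (hup x).ne')
  set I := ∫ x in S, Wd A B p q u v x with hI
  have hI0 : 0 < I := by
    rw [hI, setIntegral_pos_iff_support_of_nonneg_ae
      ((ae_restrict_mem hSc.measurableSet).mono fun x hx => (hW0 x (hS0 x hx)).le) hWS]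
    have hn0 : 0 < n := by omega
    refine lt_of_lt_of_le (Metric.measure_ball_pos volume ((3 / 2 : ℝ) • ev ⟨0, hn0⟩)
      (by norm_num : (0:ℝ) < 1 / 4)) (measure_mono fun y hy => ?_)
    have hy' : y ∈ S := by
      rw [Metric.mem_ball, dist_eq_norm] at hy
      have hc : ‖(3 / 2 : ℝ) • ev (n := n) ⟨0, hn0⟩‖ = 3 / 2 := by
        rw [norm_smul, norm_ev]; norm_num
      constructor <;> linarith [norm_le_norm_add_norm_sub' y ((3 / 2 : ℝ) • ev (n := n) ⟨0, hn0⟩),
        norm_le_norm_add_norm_sub y ((3 / 2 : ℝ) • ev (n := n) ⟨0, hn0⟩)]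
    exact ⟨(hW0 y (hS0 y hy')).ne', hy'⟩
  set V1 := (volume : Measure (Euc n)).real (Metric.ball 0 1)
  set c := (n : ℝ) * (3 * n + 1 + |a1| + |a2|)
  have hvol : ∀ r : ℝ, 0 < r → (volume : Measure (Euc n)).real (Metric.closedBall 0 r)
      = r ^ n * V1 := fun r hr => by
    rw [Measure.addHaar_real_closedBall volume (0 : Euc n) hr.le, finrank_euclideanSpace_fin]
  have main : ∀ k : ℕ, 4 ≤ k → κ * I ≤ c * (4 * L * K0 * 2 ^ n * V1 * (1 / (k : ℝ)) ^ (n - 2)
      + 4 * L * K1 * 2 ^ n * V1 * (k : ℝ) ^ (-e)) := by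
    intro k hk
    set R : ℝ := (k : ℝ) with hRd
    set ε : ℝ := 1 / R with hεd
    have hR : 4 ≤ R := by rw [hRd]; exact_mod_cast hk
    have hε : 0 < ε := by positivity
    have hε4 : ε ≤ 1 / 4 := one_div_le_one_div_of_le (by norm_num) hR
    set χ0 : Euc n → ℝ := radial (1 / ε ^ 2) (-1) with hχ0
    set χ1 : Euc n → ℝ := radial (-(1 / R ^ 2)) 2 with hχ1
    set ψ : Euc n → ℝ := fun x => χ0 x * χ1 x with hψd
    have hψ : ContDiff ℝ 1 ψ := (contDiff_radial _ _).mul (contDiff_radial _ _)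
    have z0 : ∀ x : Euc n, ‖x‖ ≤ ε → χ0 x = 0 := fun x hx => by
      refine Real.smoothTransition.zero_of_nonpos ?_
      have : 1 / ε ^ 2 * ‖x‖ ^ 2 ≤ 1 := by
        rw [div_mul_eq_mul_div, div_le_one (by positivity), one_mul]
        exact pow_le_pow_left₀ (norm_nonneg x) hx 2
      linarith
    have o0 : ∀ x : Euc n, 2 * ε ≤ ‖x‖ → χ0 x = 1 := fun x hx => by
      refine Real.smoothTransition.one_of_one_le ?_
      have : 4 ≤ 1 / ε ^ 2 * ‖x‖ ^ 2 := by
        rw [div_mul_eq_mul_div, le_div_iff₀ (by positivity)]; nlinarith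
      linarith
    have z1 : ∀ x : Euc n, 2 * R ≤ ‖x‖ → χ1 x = 0 := fun x hx => by
      refine Real.smoothTransition.zero_of_nonpos ?_
      have : 4 ≤ 1 / R ^ 2 * ‖x‖ ^ 2 := by
        rw [div_mul_eq_mul_div, le_div_iff₀ (by positivity)]; nlinarith
      linarith
    have o1 : ∀ x : Euc n, ‖x‖ ≤ R → χ1 x = 1 := fun x hx => by
      refine Real.smoothTransition.one_of_one_le ?_
      have : 1 / R ^ 2 * ‖x‖ ^ 2 ≤ 1 := by
        rw [div_mul_eq_mul_div, div_le_one (by positivity), one_mul]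
        exact pow_le_pow_left₀ (norm_nonneg x) hx 2
      linarith
    have hts : tsupport ψ ⊆ {x | ε ≤ ‖x‖ ∧ ‖x‖ ≤ 2 * R} := by
      refine closure_minimal (fun x hx => ?_) (isClosed_le continuous_const continuous_norm |>.inter
        (isClosed_le continuous_norm continuous_const))
      constructor
      · by_contra h; exact hx (by simp [hψd, z0 x (le_of_not_ge h)])
      · by_contra h; exact hx (by simp [hψd, z1 x (le_of_not_ge h)])
    have hψc : HasCompactSupport ψ := (isCompact_closedBall (0 : Euc n) (2 * R)).of_isClosed_subset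
      (isClosed_tsupport ψ) fun x hx => by simpa using (hts hx).2
    have h0 : (0 : Euc n) ∉ tsupport ψ := fun h => by
      have := (hts h).1; rw [norm_zero] at this; linarith
    obtain ⟨hHi, hWi, hid⟩ := identity_bound_w (κ := κ) (a1 := a1) (a2 := a2) hp hq
      (by rw [ha1, ha2, hκ]; ring) (by rw [ha1]; ring) (by rw [ha2]; ring) hs hψ hψc h0
    have hlow : I ≤ ∫ x, ψ x * Wd A B p q u v x := by
      rw [hI, ← integral_indicator hSc.measurableSet]
      refine integral_mono (hWS.integrable_indicator hSc.measurableSet) hWi fun x => ?_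
      by_cases hx : x ∈ S
      · rw [indicator_of_mem hx]
        simp [hψd, o0 x (by linarith [hx.1]), o1 x (by linarith [hx.2])]
      · rw [indicator_of_notMem hx]
        by_cases hx0 : x = 0
        · simp [hψd, z0 x (by rw [hx0, norm_zero]; exact hε.le)]
        · exact mul_nonneg (mul_nonneg (radial_mem _ _ x).1 (radial_mem _ _ x).1) (hW0 x hx0).le
    set T0 := 4 * L * K0 * (1 / ε) ^ 2 with hT0
    set T1 := 4 * L * K1 * R ^ (-(expo A B p q + expo B A q p) - 2) with hT1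
    have hT0n : 0 ≤ T0 := by positivity
    have hT1n : 0 ≤ T1 := by positivity
    have hpt : ∀ x, ‖fderiv ℝ ψ x‖ * Hs A B p q u v x
        ≤ (Metric.closedBall (0 : Euc n) (2 * ε)).indicator (fun _ => T0) x
          + (Metric.closedBall (0 : Euc n) (2 * R)).indicator (fun _ => T1) x := by
      intro x
      have hn0 : ∀ (r t : ℝ) (_ : 0 ≤ t),
          0 ≤ (Metric.closedBall (0 : Euc n) r).indicator (fun _ => t) x :=
        fun r t ht => indicator_nonneg (fun _ _ => ht) x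
      have hrad : ‖fderiv ℝ ψ x‖ ≤ L * (2 * (1 / ε ^ 2) * ‖x‖) + L * (2 * (1 / R ^ 2) * ‖x‖) := by
        have h := norm_fderiv_cut_mul hL (1 / ε ^ 2) (-(1 / R ^ 2)) (-1) 2 x
        rwa [abs_neg, abs_of_pos (by positivity : (0:ℝ) < 1 / ε ^ 2),
          abs_of_pos (by positivity : (0:ℝ) < 1 / R ^ 2)] at h
      by_cases hz : fderiv ℝ ψ x = 0
      · rw [hz, norm_zero, zero_mul]
        exact add_nonneg (hn0 _ _ hT0n) (hn0 _ _ hT1n)
      have hmem : x ∈ tsupport ψ := support_fderiv_subset ℝ hz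
      obtain ⟨hlo, hhi⟩ := hts hmem
      have hx0 : x ≠ 0 := fun h => h0 (h ▸ hmem)
      have hr : 0 < ‖x‖ := norm_pos_iff.2 hx0
      have hH0 : 0 ≤ Hs A B p q u v x :=
        add_nonneg (add_nonneg (mul_nonneg hr.le (add_nonneg
          (mul_nonneg (norm_nonneg _) (norm_nonneg _)) (add_nonneg
          (mul_nonneg (by positivity) (Real.rpow_nonneg (hvp x).le _))
          (mul_nonneg (by positivity) (Real.rpow_nonneg (hup x).le _)))))
          (mul_nonneg (hvp x).le (norm_nonneg _))) (mul_nonneg (hup x).le (norm_nonneg _))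
      rcases le_or_gt ‖x‖ (2 * ε) with h | h
      · rw [indicator_of_mem (by simpa using h)]
        refine le_trans ?_ (le_add_of_nonneg_right (hn0 _ _ hT1n))
        refine (mul_le_mul_of_nonneg_right hrad hH0).trans ?_
        have hn1 := hnear x hx0 (by linarith)
        have hle : 1 / R ^ 2 ≤ 1 / ε ^ 2 := one_div_le_one_div_of_le (by positivity)
          (pow_le_pow_left₀ hε.le (by linarith) 2)
        calc (L * (2 * (1 / ε ^ 2) * ‖x‖) + L * (2 * (1 / R ^ 2) * ‖x‖)) * Hs A B p q u v x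
            = 2 * L * (1 / ε ^ 2 + 1 / R ^ 2) * (Hs A B p q u v x * ‖x‖) := by ring
          _ ≤ 2 * L * (1 / ε ^ 2 + 1 / ε ^ 2) * K0 := by gcongr
          _ = T0 := by rw [hT0]; field_simp; ring
      · have hge : R ≤ ‖x‖ := by
          by_contra hlt
          rw [not_le] at hlt
          refine hz ?_
          have hev : ψ =ᶠ[𝓝 x] fun _ => (1 : ℝ) := by
            filter_upwards [((isOpen_lt continuous_const continuous_norm).inter
              (isOpen_lt continuous_norm continuous_const)).mem_nhds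
              (show 2 * ε < ‖x‖ ∧ ‖x‖ < R from ⟨h, hlt⟩)] with y hy
            simp [hψd, o0 y (le_of_lt hy.1), o1 y (le_of_lt hy.2)]
          simp [hev.fderiv_eq]
        have hev0 : χ0 =ᶠ[𝓝 x] fun _ => (1 : ℝ) := mem_of_superset
          ((isOpen_lt continuous_const continuous_norm).mem_nhds h)
          fun y (hy : 2 * ε < ‖y‖) => o0 y hy.le
        have hd1 : ‖fderiv ℝ ψ x‖ ≤ L * (2 * (1 / R ^ 2) * ‖x‖) := by
          have : ψ =ᶠ[𝓝 x] χ1 := hev0.mono fun y hy => by simp [hψd, hy]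
          rw [this.fderiv_eq]
          refine (norm_fderiv_radial hL _ _ x).trans (le_of_eq ?_)
          rw [abs_neg, abs_of_pos (by positivity)]
        rw [indicator_of_mem (show x ∈ Metric.closedBall (0 : Euc n) (2 * R) by simpa using hhi)]
        refine le_trans ?_ (le_add_of_nonneg_left (hn0 _ _ hT0n))
        have hs' : 0 < expo A B p q + expo B A q p := by
          have : (3 : ℝ) ≤ n := by exact_mod_cast hn
          linarith
        refine (mul_le_mul hd1 (hfar x hx0) hH0 (by positivity)).trans ?_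
        calc L * (2 * (1 / R ^ 2) * ‖x‖) * (K1 * ‖x‖ ^ (-(expo A B p q + expo B A q p) - 1))
            = 2 * L * K1 * (1 / R ^ 2) * ‖x‖ ^ (-(expo A B p q + expo B A q p)) := by
              rw [Real.rpow_sub hr, Real.rpow_one]; field_simp
          _ ≤ 2 * L * K1 * (1 / R ^ 2) * R ^ (-(expo A B p q + expo B A q p)) := by
              exact mul_le_mul_of_nonneg_left
                (Real.rpow_le_rpow_of_nonpos (by linarith) hge (by linarith)) (by positivity)
          _ = 2 * L * K1 * R ^ (-(expo A B p q + expo B A q p) - 2) := by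
              rw [Real.rpow_sub (by linarith : (0:ℝ) < R), Real.rpow_two]; ring
          _ ≤ T1 := by
              rw [hT1]; gcongr; norm_num
    have i3 : ∀ r t : ℝ,
        Integrable ((Metric.closedBall (0 : Euc n) r).indicator fun _ => t) := fun r t =>
      (integrableOn_const (isCompact_closedBall _ _).measure_lt_top.ne).integrable_indicator
        measurableSet_closedBall
    have hint : ∫ x, ‖fderiv ℝ ψ x‖ * Hs A B p q u v x
        ≤ (2 * ε) ^ n * V1 * T0 + (2 * R) ^ n * V1 * T1 := by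
      refine (integral_mono hHi ((i3 _ _).add (i3 _ _)) hpt).trans (le_of_eq ?_)
      simp only [Pi.add_apply]
      rw [integral_add (i3 _ _) (i3 _ _), integral_indicator measurableSet_closedBall,
        integral_indicator measurableSet_closedBall, setIntegral_const, setIntegral_const,
        smul_eq_mul, smul_eq_mul, hvol _ (by positivity), hvol _ (by positivity)]
    refine (mul_le_mul_of_nonneg_left hlow hκ0.le).trans ((le_abs_self _).trans
      (hid.trans (mul_le_mul_of_nonneg_left (hint.trans (le_of_eq ?_)) (by positivity))))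
    obtain ⟨m, hm⟩ : ∃ m, n = m + 2 := ⟨n - 2, by omega⟩
    have e1 : (2 * ε) ^ n * V1 * T0 = 4 * L * K0 * 2 ^ n * V1 * ε ^ (n - 2) := by
      rw [hT0, hm, Nat.add_sub_cancel, mul_pow, pow_add ε m 2]
      field_simp
    have hR0 : 0 < R := by linarith
    have e2 : R ^ n * R ^ (-(expo A B p q + expo B A q p) - 2) = R ^ (-e) := by
      rw [← Real.rpow_natCast R n, ← Real.rpow_add hR0, he]
      congr 1; ring
    rw [e1, hT1, mul_pow, ← e2]
    ring
  have hlim : Tendsto (fun k : ℕ => c * (4 * L * K0 * 2 ^ n * V1 * (1 / (k : ℝ)) ^ (n - 2)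
      + 4 * L * K1 * 2 ^ n * V1 * (k : ℝ) ^ (-e))) atTop
      (𝓝 (c * (4 * L * K0 * 2 ^ n * V1 * 0 + 4 * L * K1 * 2 ^ n * V1 * 0))) := by
    refine ((Tendsto.const_mul _ ?_).add (Tendsto.const_mul _ ?_)).const_mul c
    · have := (tendsto_one_div_atTop_nhds_zero_nat (𝕜 := ℝ)).pow (n - 2)
      rwa [zero_pow (by omega : n - 2 ≠ 0)] at this
    · exact (tendsto_rpow_neg_atTop he0).comp tendsto_natCast_atTop_atTop
  simp only [mul_zero, add_zero] at hlim
  have := ge_of_tendsto hlim ((eventually_ge_atTop 4).mono fun k hk => main k hk)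
  nlinarith

end Vale.Agent.P100W
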