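import Vale.Agent.P100T.Full
import Vale.Agent.P100W.Pohozaev
import Vale.Agent.P100W.Easy

/-!
The Hénon–Lane–Emden conjecture in dimension `n ≥ 5` whenever the exponents are also subcritical
for the Lane–Emden system, in particular for all `A, B ≤ 0`; and the elementary cases for `n ≥ 3`.
-/

noncomputable section

namespace Vale.Agent.P100W

open Vale.Agent.P100

/-- `A ≤ -2`, `B ≤ -2` or `p q ≤ 1`: no solution, `n ≥ 3`. -/
theorem no_solution_elementary {n : ℕ} (hn : 3 ≤ n) {A B p q : ℝ} (hp : 0 < p) (hq : 0 < q)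
    (h : A ≤ -2 ∨ B ≤ -2 ∨ p * q ≤ 1) :
    ¬ ∃ u v : Euc n → ℝ, IsWeightedSolution A B p q u v := by
  rcases le_or_gt A (-2) with hA | hA
  · exact no_solution_weight hn hp hA
  rcases le_or_gt B (-2) with hB | hB
  · rintro ⟨u, v, hs⟩
    exact no_solution_weight hn hq hB ⟨v, u, hs.swap⟩
  rcases h with h | h | h
  · exact absurd h (not_le.2 hA)
  · exact absurd h (not_le.2 hB)
  · exact no_solution_sublinear_w hn hp hq hA hB h

/-- The weighted conjecture when the exponents are subcritical for the unweighted system too. -/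
theorem no_solution_weighted {n : ℕ} (hn : 5 ≤ n) {A B p q : ℝ} (hp : 0 < p) (hq : 0 < q)
    (hsub : (n : ℝ) - 2 < ((n : ℝ) + A) / (p + 1) + ((n : ℝ) + B) / (q + 1))
    (hLE : ((n : ℝ) - 2) / n < 1 / (p + 1) + 1 / (q + 1)) :
    ¬ ∃ u v : Euc n → ℝ, IsWeightedSolution A B p q u v := by
  by_cases h : A ≤ -2 ∨ B ≤ -2 ∨ p * q ≤ 1
  · exact no_solution_elementary (by omega) hp hq h
  push Not at h
  exact no_weighted_solution (by omega) hp hq h.2.2 h.1 h.2.1 hsub
    (P100T.no_solution_full hn hp hq hLE)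

/-- The weighted conjecture in full for nonpositive weights. -/
theorem no_solution_nonpos {n : ℕ} (hn : 5 ≤ n) {A B p q : ℝ} (hp : 0 < p) (hq : 0 < q)
    (hA : A ≤ 0) (hB : B ≤ 0)
    (hsub : (n : ℝ) - 2 < ((n : ℝ) + A) / (p + 1) + ((n : ℝ) + B) / (q + 1)) :
    ¬ ∃ u v : Euc n → ℝ, IsWeightedSolution A B p q u v := by
  refine no_solution_weighted hn hp hq hsub ?_
  have hn0 : (0 : ℝ) < n := by exact_mod_cast (show 0 < n by omega)
  have h1 : ((n : ℝ) + A) / (p + 1) ≤ n / (p + 1) :=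
    div_le_div_of_nonneg_right (by linarith) (by linarith)
  have h2 : ((n : ℝ) + B) / (q + 1) ≤ n / (q + 1) :=
    div_le_div_of_nonneg_right (by linarith) (by linarith)
  rw [div_lt_iff₀ hn0]
  calc (n : ℝ) - 2 < n / (p + 1) + n / (q + 1) := by linarith
    _ = (1 / (p + 1) + 1 / (q + 1)) * n := by ring

/-- Zero weights give the Lane–Emden system. -/
lemma weighted_zero {n : ℕ} {p q : ℝ} {u v : Euc n → ℝ} :
    IsWeightedSolution 0 0 p q u v ↔ IsPositiveEntireSolution p q u v := by
  simp [IsWeightedSolution, IsPositiveEntireSolution]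

end Vale.Agent.P100W
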