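import Vale.Agent.P100W.Spheres
import Vale.Agent.P100W.Main

/-!
The continuation in the radius and the nonexistence theorem: no positive entire solution when
both decay exponents exceed `(n - 2) / 2`, for arbitrary weights.
-/

open Filter Topology Laplacian Set
open scoped ContDiff

noncomputable section

namespace Vale.Agent.P100W

open Vale.Agent.P100 Vale.Agent.P100C

variable {n : ℕ} {a b A B p q : ℝ} {u v f : Euc n → ℝ}

/-- The comparisons in all small spheres give monotonicity along the ray. -/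
lemma ray_le {x : Euc n} (hx : x ≠ 0) {t : ℝ} (ht : 0 < t) (ht1 : t ≤ 1)
    (h : Below a (√t * ‖x‖) f) : t ^ a * f (t • x) ≤ f x := by
  have hr : 0 < ‖x‖ := norm_pos_iff.2 hx
  have hs : 0 < √t := Real.sqrt_pos.2 ht
  have h1 := h x (mul_le_of_le_one_left hr.le (Real.sqrt_le_one.2 ht1))
  have e1 : (√t * ‖x‖ / ‖x‖) ^ (2 * a) = t ^ a := by
    rw [mul_div_cancel_right₀ _ hr.ne', Real.rpow_mul hs.le, Real.rpow_two, Real.sq_sqrt ht.le]
  have e2 : (√t * ‖x‖) ^ 2 * ‖x‖ ^ (-2 : ℝ) = t := by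
    rw [mul_pow, Real.sq_sqrt ht.le, Real.rpow_neg hr.le, Real.rpow_two, mul_assoc,
      mul_inv_cancel₀ (by positivity), mul_one]
  rwa [refl, refl_coef (by positivity), e1, inv2, e2] at h1

/-- The comparisons up to radius `L` make `grow` nonnegative up to that radius. -/
lemma grow_nonneg (hf : ContDiffOn ℝ 2 f {x | x ≠ 0}) {L : ℝ}
    (h : ∀ m, 0 < m → m ≤ L → Below a m f) {y : Euc n} (hy : y ≠ 0) (hyL : ‖y‖ ≤ L) :
    0 ≤ grow a f y := by
  have hd := hasDerivAt_ray (a := a) hf hy one_pos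
  rw [Real.one_rpow, one_mul, one_smul] at hd
  refine ge_of_tendsto hd.tendsto_slope_zero_left ?_
  filter_upwards [self_mem_nhdsWithin, mem_nhdsWithin_of_mem_nhds
    (Ioi_mem_nhds (show (-1 : ℝ) < 0 by norm_num))] with t (t0 : t < 0) (t1 : -1 < t)
  have hr : 0 < ‖y‖ := norm_pos_iff.2 hy
  have h1 := ray_le hy (t := 1 + t) (by linarith) (by linarith) (h _ (mul_pos
    (Real.sqrt_pos.2 (by linarith)) hr) ((mul_le_of_le_one_left hr.le
      (Real.sqrt_le_one.2 (by linarith))).trans hyL))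
  simp only [one_smul, Real.one_rpow, one_mul, smul_eq_mul]
  exact mul_nonneg_of_nonpos_of_nonpos (inv_nonpos.2 t0.le) (by linarith)

lemma continuousAt_grow (hf : ContDiffOn ℝ 2 f {x | x ≠ 0}) {y : Euc n} (hy : y ≠ 0) :
    ContinuousAt (grow a f) y :=
  have hc := hf.contDiffAt (isOpen_ne.mem_nhds hy)
  ((hc.continuousAt_fderiv two_ne_zero).clm_apply continuousAt_id).add
    (continuousAt_const.mul hc.continuousAt)

/-- Comparison in slightly larger spheres. -/
lemma below_extend (hn : 3 ≤ n) (hA : -2 < A) (hp : 0 < p) (hu : Super u) (hvc : Continuous v)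
    (hvp : ∀ x, 0 < v x) (heq : ∀ x, x ≠ 0 → -(Δ u x) = ‖x‖ ^ A * v x ^ p)
    (ha : (n : ℝ) - 2 < 2 * a) (hμ : 0 < 2 + A + a - b * p) {l : ℝ} (hl : 0 < l)
    (hP : ∀ m, 0 < m → m ≤ l → Below a m u) (hQ : ∀ m, 0 < m → m ≤ l → Below b m v) :
    ∀ᶠ m in 𝓝 l, Below a m u := by
  have hn' : (3 : ℝ) ≤ n := by exact_mod_cast hn
  obtain ⟨huc, hu2, -, -⟩ := id hu
  have hst : ∀ m, 0 < m → m ≤ l → (∀ x : Euc n, m < ‖x‖ → refl a m u x < u x) ∧
      ∀ x : Euc n, ‖x‖ = m → 0 < grow a u x := fun m hm hml =>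
    strict_step hn hp hu hvp heq ha hμ hm (hP m hm hml) (hQ m hm hml) fun y hy hym =>
      grow_nonneg hu2 hP hy (hym.trans hml)
  obtain ⟨r0, hr0, hG0⟩ := grow_pos_near hn hA hp hu hvc hvp heq (show 0 < a by linarith)
  set U : Set (Euc n) := ({y | y ≠ 0} ∩ grow a u ⁻¹' Ioi 0) ∪ Metric.ball 0 r0
  have hU : IsOpen U :=
    (ContinuousOn.isOpen_inter_preimage
      (fun y hy => (continuousAt_grow hu2 hy).continuousWithinAt) isOpen_ne isOpen_Ioi).union
      Metric.isOpen_ball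
  have hsub : Metric.closedBall (0 : Euc n) l ⊆ U := by
    intro y hy
    rw [mem_closedBall_zero_iff] at hy
    rcases eq_or_ne y 0 with rfl | hy0
    · exact Or.inr (Metric.mem_ball_self hr0)
    · exact Or.inl ⟨hy0, (hst ‖y‖ (norm_pos_iff.2 hy0) hy).2 y rfl⟩
  obtain ⟨δ, hδ, hδU⟩ := (isCompact_closedBall (0 : Euc n) l).exists_cthickening_subset_open
    hU hsub
  rw [cthickening_closedBall hδ.le hl.le] at hδU
  have hG : ∀ y : Euc n, y ≠ 0 → ‖y‖ ≤ δ + l → 0 < grow a u y := fun y hy hyr => by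
    rcases hδU (mem_closedBall_zero_iff.2 hyr) with h | h
    · exact h.2
    · exact hG0 y hy (mem_ball_zero_iff.1 h).le
  obtain ⟨M, c, hM, hc, hfar⟩ := below_far hn hu ha (l + 1) hl
  set d := a - ((n : ℝ) - 2) / 2 with hd
  obtain ⟨R, hR1, hR2⟩ : ∃ R : ℝ, δ + l ≤ R ∧ (l + 1) ^ (2 * a) * M ≤ c * R ^ d :=
    ((eventually_ge_atTop (δ + l)).and (((tendsto_rpow_atTop (show 0 < d by linarith)
      ).const_mul_atTop hc).eventually (eventually_ge_atTop _))).exists
  set K : Set (Euc n) := {y | δ + l ≤ ‖y‖ ∧ ‖y‖ ≤ R}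
  have hK : IsCompact K := (isCompact_closedBall (0 : Euc n) R).of_isClosed_subset
    (isClosed_le continuous_const continuous_norm |>.inter
      (isClosed_le continuous_norm continuous_const))
    fun y hy => by simpa using hy.2
  have hmid : ∀ᶠ m in 𝓝 l, ∀ x ∈ K, refl a m u x < u x :=
    hK.eventually_forall_of_forall_eventually fun x hx => by
      have hx1 : l < ‖x‖ := by linarith [hx.1]
      exact (continuousAt_refl hl huc (norm_pos_iff.1 (hl.trans hx1))).eventually_lt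
        (huc.comp continuous_snd).continuousAt ((hst l hl le_rfl).1 x hx1)
  filter_upwards [hmid, Ioo_mem_nhds hl (show l < min (δ + l) (l + 1) from
    lt_min (by linarith) (by linarith))] with m hm hm'
  intro x hx
  rcases le_or_gt ‖x‖ (δ + l) with h1 | h1
  · exact below_near hu2 hG hm'.1 hx h1
  rcases le_or_gt ‖x‖ R with h2 | h2
  · exact (hm x ⟨h1.le, h2⟩).le
  · have hm1 : m < l + 1 := hm'.2.trans_le (min_le_right _ _)
    refine (hfar m hm'.1 hm1.le x (by linarith) hx ?_).le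
    exact (mul_le_mul_of_nonneg_right (Real.rpow_le_rpow hm'.1.le hm1.le (by linarith))
      hM.le).trans (hR2.trans (mul_le_mul_of_nonneg_left
        (Real.rpow_le_rpow (by linarith) h2.le (by linarith)) hc.le))

/-- Comparison in small spheres. -/
lemma below_start (hn : 3 ≤ n) (hA : -2 < A) (hp : 0 < p) (hu : Super u) (hvc : Continuous v)
    (hvp : ∀ x, 0 < v x) (heq : ∀ x, x ≠ 0 → -(Δ u x) = ‖x‖ ^ A * v x ^ p)
    (ha : (n : ℝ) - 2 < 2 * a) : ∃ l : ℝ, 0 < l ∧ ∀ m, 0 < m → m ≤ l → Below a m u := by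
  have hn' : (3 : ℝ) ≤ n := by exact_mod_cast hn
  obtain ⟨r0, hr0, hG⟩ := grow_pos_near hn hA hp hu hvc hvp heq (show 0 < a by linarith)
  obtain ⟨M, c, hM, hc, hfar⟩ := below_far hn hu ha r0 hr0
  set d := a - ((n : ℝ) - 2) / 2 with hd
  have t : Tendsto (fun l : ℝ => l ^ (2 * a) * M) (𝓝[>] 0) (𝓝 0) := by
    have h := ((Real.continuous_rpow_const (show (0 : ℝ) ≤ 2 * a by linarith)).tendsto
      0).mul_const M
    rw [Real.zero_rpow (by linarith), zero_mul] at h
    exact h.mono_left nhdsWithin_le_nhds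
  obtain ⟨l, ⟨h1, h2⟩, hl⟩ := (((t.eventually (eventually_le_nhds
    (mul_pos hc (Real.rpow_pos_of_pos hr0 d)))).and (mem_nhdsWithin_of_mem_nhds
      (Iio_mem_nhds hr0))).and self_mem_nhdsWithin).exists
  refine ⟨l, hl, fun m hm hml x hx => ?_⟩
  rcases le_or_gt ‖x‖ r0 with h3 | h3
  · exact below_near hu.2.1 hG hm hx h3
  · refine (hfar m hm (hml.trans (le_of_lt h2)) x h3.le hx ?_).le
    exact (mul_le_mul_of_nonneg_right (Real.rpow_le_rpow hm.le hml (by linarith)) hM.le).trans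
      (h1.trans (mul_le_mul_of_nonneg_left (Real.rpow_le_rpow hr0.le h3.le (by linarith)) hc.le))

/-- The comparison holds in every sphere centred at the origin. -/
lemma below_all (hn : 3 ≤ n) (hA : -2 < A) (hB : -2 < B) (hp : 0 < p) (hq : 0 < q)
    (hs : IsWeightedSolution A B p q u v) (ha : (n : ℝ) - 2 < 2 * a) (hb : (n : ℝ) - 2 < 2 * b)
    (hμ : 0 < 2 + A + a - b * p) (hν : 0 < 2 + B + b - a * q) :
    ∀ l : ℝ, 0 < l → Below a l u ∧ Below b l v := by
  obtain ⟨hu, hv⟩ := hs.super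
  obtain ⟨huc, hvc, -, -, hup, hvp, heq⟩ := id hs
  have e1 := fun x hx => (heq x hx).1
  have e2 := fun x hx => (heq x hx).2
  by_contra hcon
  push Not at hcon
  obtain ⟨L, hL, hbad⟩ := hcon
  set S : Set ℝ := {l | 0 < l ∧ ∀ m, 0 < m → m ≤ l → Below a m u ∧ Below b m v}
  obtain ⟨lu, hlu, hPu⟩ := below_start hn hA hp hu hvc hvp e1 ha
  obtain ⟨lv, hlv, hPv⟩ := below_start hn hB hq hv huc hup e2 hb
  have h0 : min lu lv ∈ S := ⟨lt_min hlu hlv, fun m hm hml =>
    ⟨hPu m hm (hml.trans (min_le_left _ _)), hPv m hm (hml.trans (min_le_right _ _))⟩⟩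
  have hbdd : BddAbove S := ⟨L, fun s hs => le_of_not_gt fun h =>
    hbad (hs.2 L hL h.le).1 (hs.2 L hL h.le).2⟩
  set T := sSup S
  have hT : 0 < T := (lt_min hlu hlv).trans_le (le_csSup hbdd h0)
  have hlt : ∀ m, 0 < m → m < T → Below a m u ∧ Below b m v := fun m hm hmT => by
    obtain ⟨s, hs, hms⟩ := exists_lt_of_lt_csSup ⟨_, h0⟩ hmT
    exact hs.2 m hm hms.le
  have hlim : ∀ (f : Euc n → ℝ) (e : ℝ), Continuous f →
      (∀ m, 0 < m → m < T → Below e m f) → Below e T f := by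
    intro f e hf hbelow x hx
    have hx0 : x ≠ 0 := norm_pos_iff.1 (hT.trans_le hx)
    have hc : ContinuousAt (fun m => refl e m f x) T :=
      (continuousAt_refl hT hf hx0).comp_of_eq (f := fun m : ℝ => (m, x)) (by fun_prop) rfl
    refine le_of_tendsto (x := 𝓝[<] T) (hc.tendsto.mono_left nhdsWithin_le_nhds) ?_
    filter_upwards [Ioo_mem_nhdsLT hT] with m hm
    exact hbelow m hm.1 hm.2 x (hm.2.le.trans hx)
  have hTS : ∀ m, 0 < m → m ≤ T → Below a m u ∧ Below b m v := fun m hm hmT => by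
    rcases hmT.eq_or_lt with rfl | h
    · exact ⟨hlim u a huc fun m h1 h2 => (hlt m h1 h2).1,
        hlim v b hvc fun m h1 h2 => (hlt m h1 h2).2⟩
    · exact hlt m hm h
  obtain ⟨δ, hδ, hev⟩ := Metric.eventually_nhds_iff.1
    ((below_extend hn hA hp hu hvc hvp e1 ha hμ hT (fun m h1 h2 => (hTS m h1 h2).1)
      fun m h1 h2 => (hTS m h1 h2).2).and
    (below_extend hn hB hq hv huc hup e2 hb hν hT (fun m h1 h2 => (hTS m h1 h2).2)
      fun m h1 h2 => (hTS m h1 h2).1))
  have : T + δ / 2 ∈ S := ⟨by linarith, fun m hm hmT => by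
    rcases le_or_gt m T with h | h
    · exact hTS m hm h
    · exact hev (by rw [Real.dist_eq, abs_of_pos (by linarith)]; linarith)⟩
  linarith [le_csSup hbdd this]

/-- Growth of `r^a u` along rays contradicts the decay forced by the system. -/
lemma false_of_rays (hn : 3 ≤ n) (hp : 0 < p) (hq : 0 < q) (hpq : 1 < p * q)
    (hs : IsWeightedSolution A B p q u v) (hγ : a * (p * q - 1) < 2 + A + p * (2 + B))
    (hray : ∀ x : Euc n, x ≠ 0 → ∀ t : ℝ, 0 < t → t ≤ 1 → t ^ a * u (t • x) ≤ u x) : False := by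
  obtain ⟨hu, hv⟩ := hs.super
  obtain ⟨-, -, -, -, hup, hvp, heq⟩ := id hs
  obtain ⟨c1, hc1, hstep1⟩ := step_bound (A := A) hn hp
  obtain ⟨c2, hc2, hstep2⟩ := step_bound (A := B) hn hq
  have hn0 : 0 < n := by omega
  obtain ⟨z0, hz0, hm0⟩ := exists_sphere_min hn0 hu.1 zero_le_one
  set γ := A + 2 + (B + 2) * p with hγ'
  set T := ((4 / 9 : ℝ) ^ a) ^ (p * q) with hT
  set c := c1 * (c2 ^ p * ((3 / 2 : ℝ) ^ (B + 2)) ^ p) * T
  have hc0 : 0 < c := by positivity
  have key : ∀ r : ℝ, 1 ≤ r → c * r ^ γ ≤ r ^ (a * (p * q - 1)) * u z0 ^ (1 - p * q) := by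
    intro r hr
    have hr0 : 0 < r := by linarith
    obtain ⟨z1, hz1, hm1⟩ := exists_sphere_min hn0 hu.1 hr0.le
    obtain ⟨z2, hz2, hm2⟩ := exists_sphere_min hn0 hv.1 (r := 3 / 2 * r) (by linarith)
    obtain ⟨z3, hz3, hm3⟩ := exists_sphere_min hn0 hu.1 (r := 3 / 2 * (3 / 2 * r)) (by linarith)
    have ne0 : ∀ {z : Euc n} {s : ℝ}, 0 < s → ‖z‖ = s → z ≠ 0 := fun hs hz h => by
      rw [h, norm_zero] at hz; linarith
    have h1 := hstep1 u v hu hv (fun y hy => (heq y hy).1) z1 0 (v z2) (ne0 hr0 hz1) (hvp _)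
      fun z hz => ⟨(hup z).le, hm2 z (by rw [hz, hz1])⟩
    have h2 := hstep2 v u hv hu (fun y hy => (heq y hy).2) z2 0 (u z3)
      (ne0 (by linarith) hz2) (hup _) fun z hz => ⟨(hvp z).le, hm3 z (by rw [hz, hz2])⟩
    rw [zero_add, hz1] at h1
    rw [zero_add, hz2] at h2
    set X := u z1
    have hX : 0 < X := hup _
    have h3 : (4 / 9 : ℝ) ^ a * X ≤ u z3 := by
      refine le_trans (mul_le_mul_of_nonneg_left (hm1 _ ?_) (by positivity))
        (hray z3 (ne0 (by linarith) hz3) (4 / 9) (by norm_num) (by norm_num))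
      rw [norm_smul, hz3, Real.norm_of_nonneg (by norm_num)]; ring
    have h4 : r ^ (-a) * u z0 ≤ X := by
      have := hray z1 (ne0 hr0 hz1) r⁻¹ (inv_pos.2 hr0) (inv_le_one_of_one_le₀ hr)
      rw [Real.inv_rpow hr0.le, ← Real.rpow_neg hr0.le] at this
      refine le_trans (mul_le_mul_of_nonneg_left (hm0 _ ?_) (by positivity)) this
      rw [norm_smul, hz1, norm_inv, Real.norm_of_nonneg hr0.le, inv_mul_cancel₀ hr0.ne']
    have e2 : (c2 * (3 / 2 * r) ^ (B + 2) * u z3 ^ q) ^ p ≤ v z2 ^ p :=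
      Real.rpow_le_rpow (mul_nonneg (by positivity) (Real.rpow_nonneg (hup _).le _)) h2 hp.le
    have e3 : T * X ^ (p * q) ≤ (u z3 ^ q) ^ p := by
      rw [← Real.rpow_mul (hup _).le, mul_comm q p, hT, ← Real.mul_rpow (by positivity) hX.le]
      exact Real.rpow_le_rpow (by positivity) h3 (by positivity)
    rw [Real.mul_rpow (by positivity) (Real.rpow_nonneg (hup _).le _),
      Real.mul_rpow hc2.le (by positivity), Real.mul_rpow (by norm_num) hr0.le,
      Real.mul_rpow (by positivity) (by positivity), ← Real.rpow_mul hr0.le] at e2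
    have e4 : c * r ^ γ * X ^ (p * q) ≤ X := by
      refine le_trans (le_of_eq ?_) ((mul_le_mul_of_nonneg_left
        ((mul_le_mul_of_nonneg_left e3 (by positivity)).trans e2)
        (mul_nonneg hc1.le (Real.rpow_nonneg hr0.le _))).trans h1)
      simp only [c, hγ', Real.rpow_add hr0]
      ring
    rw [← le_div_iff₀ (Real.rpow_pos_of_pos hX _)] at e4
    refine e4.trans ?_
    calc X / X ^ (p * q) = X ^ (1 - p * q) := by rw [Real.rpow_sub hX, Real.rpow_one]
      _ ≤ (r ^ (-a) * u z0) ^ (1 - p * q) :=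
          Real.rpow_le_rpow_of_nonpos (mul_pos (Real.rpow_pos_of_pos hr0 _) (hup _)) h4
            (by linarith)
      _ = _ := by
          rw [Real.mul_rpow (by positivity) (hup _).le, ← Real.rpow_mul hr0.le]
          congr 2; ring
  obtain ⟨r, h1, h2⟩ := ((eventually_ge_atTop (1 : ℝ)).and
    (((tendsto_rpow_atTop (show 0 < γ - a * (p * q - 1) by rw [hγ']; linarith)).const_mul_atTop
      hc0).eventually (eventually_gt_atTop (u z0 ^ (1 - p * q))))).exists
  have hr0 : 0 < r := by linarith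
  have := key r h1
  rw [Real.rpow_sub hr0, mul_div_assoc', lt_div_iff₀ (by positivity)] at h2
  linarith

/-- No solution when both decay exponents exceed `(n - 2) / 2`. -/
theorem no_solution_both (hn : 3 ≤ n) (hA : -2 < A) (hB : -2 < B) (hp : 0 < p) (hq : 0 < q)
    (hpq : 1 < p * q) (hα : (n : ℝ) - 2 < 2 * expo A B p q)
    (hβ : (n : ℝ) - 2 < 2 * expo B A q p) :
    ¬ ∃ u v : Euc n → ℝ, IsWeightedSolution A B p q u v := by
  rintro ⟨u, v, hs⟩
  have a1 := expo_spec (A := A) (B := B) hpq.ne'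
  have a2 : expo A B p q * q = expo B A q p + 2 + B := expo_spec (by rw [mul_comm]; exact hpq.ne')
  set α := expo A B p q with hαdef
  set β := expo B A q p
  set k := (1 / p + q) / 2 with hk
  have hk1 : k * p = (1 + p * q) / 2 := by rw [hk]; field_simp
  have hk0 : 0 < k := by positivity
  have hk2 : k < q := by nlinarith
  obtain ⟨t, ht, hta, htb⟩ : ∃ t : ℝ, 0 < t ∧ (n : ℝ) - 2 < 2 * (α - t) ∧
      (n : ℝ) - 2 < 2 * (β - k * t) := by
    refine ⟨min ((2 * α - ((n : ℝ) - 2)) / 4) ((2 * β - ((n : ℝ) - 2)) / (4 * k)),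
      lt_min (by linarith) (div_pos (by linarith) (by positivity)), ?_, ?_⟩
    · linarith [min_le_left ((2 * α - ((n : ℝ) - 2)) / 4) ((2 * β - ((n : ℝ) - 2)) / (4 * k))]
    · have := mul_le_mul_of_nonneg_left
        (min_le_right ((2 * α - ((n : ℝ) - 2)) / 4) ((2 * β - ((n : ℝ) - 2)) / (4 * k))) hk0.le
      have e : k * ((2 * β - ((n : ℝ) - 2)) / (4 * k)) = (2 * β - ((n : ℝ) - 2)) / 4 := by
        field_simp
      linarith
  have hμ : 0 < 2 + A + (α - t) - (β - k * t) * p := by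
    have : 0 < t * (k * p - 1) := mul_pos ht (by linarith)
    linarith
  have hν : 0 < 2 + B + (β - k * t) - (α - t) * q := by
    have : 0 < t * (q - k) := mul_pos ht (by linarith)
    linarith
  refine false_of_rays (a := α - t) hn hp hq hpq hs ?_ fun x hx t' ht' ht1 =>
    ray_le hx ht' ht1 (below_all hn hA hB hp hq hs hta htb hμ hν _
      (mul_pos (Real.sqrt_pos.2 ht') (norm_pos_iff.2 hx))).1
  have e : α * (p * q - 1) = 2 + A + p * (2 + B) := by
    rw [hαdef, expo, div_mul_cancel₀ _ (by linarith)]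
  have : 0 < t * (p * q - 1) := mul_pos ht (by linarith)
  linarith

/-- The same with the hypotheses written out, for arbitrary weights. -/
theorem no_solution_decay (hn : 3 ≤ n) (hp : 0 < p) (hq : 0 < q)
    (hu : ((n : ℝ) - 2) * (p * q - 1) < 2 * (2 + A + p * (2 + B)))
    (hv : ((n : ℝ) - 2) * (p * q - 1) < 2 * (2 + B + q * (2 + A))) :
    ¬ ∃ u v : Euc n → ℝ, IsWeightedSolution A B p q u v := by
  by_cases h : A ≤ -2 ∨ B ≤ -2 ∨ p * q ≤ 1
  · exact no_solution_elementary hn hp hq h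
  push Not at h
  refine no_solution_both hn h.1 h.2.1 hp hq h.2.2 ?_ ?_
  · rw [expo, ← mul_div_assoc, lt_div_iff₀ (by linarith)]; exact hu
  · rw [expo, mul_comm q p, ← mul_div_assoc, lt_div_iff₀ (by linarith)]; linarith

end Vale.Agent.P100W
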