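import Vale.Agent.P100C.Main

/-!
The Hénon–Lane–Emden system, its exponents and its scaling.
-/

open Filter Topology Laplacian
open scoped ContDiff

noncomputable section

namespace Vale.Agent.P100W

open Vale.Agent.P100 Vale.Agent.P100C

variable {n : ℕ}

/-- Positive entire solutions of `-Δ u = |x|^A v^p`, `-Δ v = |x|^B u^q`. -/
def IsWeightedSolution (A B p q : ℝ) (u v : Euc n → ℝ) : Prop :=
  Continuous u ∧ Continuous v ∧ ContDiffOn ℝ 2 u {x | x ≠ 0} ∧ ContDiffOn ℝ 2 v {x | x ≠ 0} ∧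
    (∀ x, 0 < u x) ∧ (∀ x, 0 < v x) ∧
    ∀ x, x ≠ 0 → -(Δ u x) = ‖x‖ ^ A * v x ^ p ∧ -(Δ v x) = ‖x‖ ^ B * u x ^ q

lemma IsWeightedSolution.swap {A B p q : ℝ} {u v : Euc n → ℝ}
    (h : IsWeightedSolution A B p q u v) : IsWeightedSolution B A q p v u := by
  obtain ⟨a, b, c, d, e, f, g⟩ := h
  exact ⟨b, a, d, c, f, e, fun x hx => (g x hx).symm⟩

/-- The decay exponent of `u`; that of `v` is `expo B A q p`. -/
def expo (A B p q : ℝ) : ℝ := (2 + A + p * (2 + B)) / (p * q - 1)

lemma expo_spec {A B p q : ℝ} (hpq : p * q ≠ 1) :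
    expo B A q p * p = expo A B p q + 2 + A := by
  have : p * q - 1 ≠ 0 := sub_ne_zero.2 hpq
  rw [expo, expo, show q * p - 1 = p * q - 1 by ring, div_mul_eq_mul_div,
    div_eq_iff this]
  linear_combination -(div_mul_cancel₀ (2 + A + p * (2 + B)) this)

lemma expo_pos {A B p q : ℝ} (hA : -2 < A) (hB : -2 < B) (hp : 0 < p) (hpq : 1 < p * q) :
    0 < expo A B p q := by
  have : 0 < p * (2 + B) := mul_pos hp (by linarith)
  exact div_pos (by linarith) (by linarith)

lemma pd_translate {f : Euc n → ℝ} (z x : Euc n) (i : Fin n) :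
    pd i (fun y => f (z + y)) x = pd i f (z + x) := by
  simp [pd, fderiv_comp_add_left]

lemma laplacian_affine {f : Euc n → ℝ} {c l : ℝ} {z x : Euc n}
    (hf : ContDiffAt ℝ 2 f (z + l • x)) :
    Δ (fun y => c * f (z + l • y)) x = c * l ^ 2 * Δ f (z + l • x) := by
  have hg : ContDiffAt ℝ 2 (fun y => f (z + y)) (l • x) :=
    hf.comp (l • x) (contDiffAt_const.add contDiffAt_id)
  rw [laplacian_scale (f := fun y => f (z + y)) hg]
  congr 1
  rw [laplacian_eq_sum hg, laplacian_eq_sum hf]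
  refine Finset.sum_congr rfl fun i _ => ?_
  rw [show pd i (fun y => f (z + y)) = fun y => pd i f (z + y) from
    funext fun y => pd_translate z y i, pd_translate]

lemma fderiv_affine {f : Euc n → ℝ} {l : ℝ} (z x : Euc n) :
    fderiv ℝ (fun y => f (z + l • y)) x = l • fderiv ℝ f (z + l • x) := by
  rw [← fderiv_comp_add_left (f := f) z]
  exact fderiv_comp_smul (f := fun w => f (z + w)) l

/-- The scaled pair is again a solution. -/
theorem IsWeightedSolution.scaled {A B p q : ℝ} {u v : Euc n → ℝ}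
    (hs : IsWeightedSolution A B p q u v) (hpq : p * q ≠ 1) {R : ℝ} (hR : 0 < R) :
    IsWeightedSolution A B p q (fun x => R ^ expo A B p q * u (R • x))
      (fun x => R ^ expo B A q p * v (R • x)) := by
  obtain ⟨huc, hvc, hu2, hv2, hup, hvp, heq⟩ := hs
  have hmap : Set.MapsTo (fun x : Euc n => R • x) {x | x ≠ 0} {x | x ≠ 0} :=
    fun x hx => smul_ne_zero hR.ne' hx
  have hsm : ContDiff ℝ 2 (fun x : Euc n => R • x) := contDiff_const_smul R
  refine ⟨continuous_const.mul (huc.comp (continuous_const_smul R)),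
    continuous_const.mul (hvc.comp (continuous_const_smul R)),
    contDiffOn_const.mul (hu2.comp hsm.contDiffOn hmap),
    contDiffOn_const.mul (hv2.comp hsm.contDiffOn hmap),
    fun x => mul_pos (Real.rpow_pos_of_pos hR _) (hup _),
    fun x => mul_pos (Real.rpow_pos_of_pos hR _) (hvp _), fun x hx => ?_⟩
  have hx' : R • x ≠ 0 := hmap hx
  obtain ⟨e1, e2⟩ := heq _ hx'
  have hn : ‖R • x‖ = R * ‖x‖ := by rw [norm_smul, Real.norm_of_nonneg hR.le]
  rw [hn, Real.mul_rpow hR.le (norm_nonneg _)] at e1 e2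
  have a1 := expo_spec (A := A) (B := B) hpq
  have a2 : expo A B p q * q = expo B A q p + 2 + B := expo_spec (by rwa [mul_comm] at hpq)
  rw [laplacian_scale (hu2.contDiffAt (isOpen_ne.mem_nhds hx')),
    laplacian_scale (hv2.contDiffAt (isOpen_ne.mem_nhds hx')),
    Real.mul_rpow (by positivity) (hvp _).le, Real.mul_rpow (by positivity) (hup _).le,
    ← Real.rpow_mul hR.le, ← Real.rpow_mul hR.le, a1, a2, Real.rpow_add hR, Real.rpow_add hR,
    Real.rpow_add hR, Real.rpow_add hR, Real.rpow_two]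
  constructor
  · linear_combination R ^ expo A B p q * R ^ 2 * e1
  · linear_combination R ^ expo B A q p * R ^ 2 * e2

end Vale.Agent.P100W
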