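import Vale.Agent.P100W.Limit
import Vale.Agent.P100W.Def

/-!
Universal decay of solutions of the weighted system when the Lane–Emden system with the same
exponents has no positive entire solution: `u ≤ C |x|^(-α)`, `|Du| ≤ C |x|^(-α-1)`.
-/

open MeasureTheory Filter Topology Laplacian Set
open scoped ContDiff

noncomputable section

namespace Vale.Agent.P100W

open Vale.Agent.P100 Vale.Agent.P100C

variable {n : ℕ}

/-- Gradient at `x ≠ 0` from the size of the function and of its Laplacian near `x`. -/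
theorem grad_local (hn : 3 ≤ n) : ∃ C : ℝ, 0 ≤ C ∧ ∀ (u : Euc n → ℝ) (x : Euc n) (M : ℝ),
    ContDiffOn ℝ 2 u {z | z ≠ 0} → x ≠ 0 →
    (∀ z, ‖z - x‖ ≤ ‖x‖ / 2 → |u z| ≤ M ∧ |Δ u z| * ‖x‖ ^ 2 ≤ M) →
    ‖fderiv ℝ u x‖ * ‖x‖ ≤ C * M := by
  obtain ⟨C, hC, hb⟩ := sup_bound hn 0 le_rfl
  refine ⟨32 * C, by positivity, fun u x M hu hx hM => ?_⟩
  have hr : 0 < ‖x‖ := norm_pos_iff.2 hx
  set δ := ‖x‖ / 2 with hδd
  have hδ : 0 < δ := by positivity
  set l := ‖x‖ / 32 with hl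
  have hg := contDiff_glue hδ hu
  set w : Euc n → ℝ := fun y => glue δ u (x + l • y) with hw
  have hw2 : ContDiff ℝ 2 w := hg.comp (contDiff_const.add (contDiff_const_smul l))
  have hfar : ∀ y ∈ Metric.closedBall (0 : Euc n) (2 * 0 + 3),
      ‖x + l • y - x‖ ≤ ‖x‖ / 2 ∧ 3 / 4 * δ < ‖x + l • y‖ := by
    intro y hy
    rw [Metric.mem_closedBall, dist_zero_right] at hy
    have h1 : ‖l • y‖ ≤ 3 * l := by
      rw [norm_smul, Real.norm_of_nonneg (by positivity), mul_comm]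
      exact mul_le_mul_of_nonneg_right (by linarith) (by positivity)
    refine ⟨by rw [add_sub_cancel_left]; linarith, ?_⟩
    have h2 : ‖x‖ ≤ ‖x + l • y‖ + ‖l • y‖ := norm_le_add_norm_add x (l • y)
    linarith
  have h := hb w M hw2 (fun y hy => ?_) 0 (by simp)
  · obtain ⟨-, h2⟩ := h
    have hxx : 3 / 4 * δ < ‖x‖ := by linarith
    rw [hw, fderiv_affine, smul_zero, add_zero, norm_smul, Real.norm_of_nonneg (by positivity),
      (glue_local hδ hu hxx).2.1] at h2
    rw [hl] at h2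
    linarith
  · obtain ⟨h1, h2⟩ := hfar y hy
    obtain ⟨ha, hb'⟩ := hM _ h1
    refine ⟨by simp only [hw]; rw [(glue_local hδ hu h2).1]; exact ha, ?_⟩
    rw [show w = fun y => 1 * glue δ u (x + l • y) by simp [hw],
      laplacian_affine hg.contDiffAt, laplacian_eq_sum hg.contDiffAt, (glue_local hδ hu h2).2.2,
      one_mul, abs_mul, abs_of_nonneg (sq_nonneg l), mul_comm]
    refine le_trans (mul_le_mul_of_nonneg_left ?_ (abs_nonneg _)) hb'
    exact pow_le_pow_left₀ (by positivity) (by linarith) 2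

/-- The scale-invariant size of a pair of values at the Lane–Emden exponents. -/
def size (a b U V : ℝ) : ℝ := U ^ (1 / a) + V ^ (1 / b)

lemma le_of_size_le {a b U V m : ℝ} (ha : 0 < a) (hb : 0 < b) (hU : 0 < U) (hV : 0 < V)
    (h : size a b U V ≤ m) : U ≤ m ^ a ∧ V ≤ m ^ b := by
  have h1 : 0 ≤ U ^ (1 / a) := Real.rpow_nonneg hU.le _
  have h2 : 0 ≤ V ^ (1 / b) := Real.rpow_nonneg hV.le _
  simp only [size] at h
  constructor
  · have := Real.rpow_le_rpow h1 (show U ^ (1 / a) ≤ m by linarith) ha.le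
    rwa [← Real.rpow_mul hU.le, one_div_mul_cancel ha.ne', Real.rpow_one] at this
  · have := Real.rpow_le_rpow h2 (show V ^ (1 / b) ≤ m by linarith) hb.le
    rwa [← Real.rpow_mul hV.le, one_div_mul_cancel hb.ne', Real.rpow_one] at this

lemma tendsto_coeff {A : ℝ} {z : ℕ → Euc n} {l : ℕ → ℝ} {z₀ : Euc n} (hz₀ : z₀ ≠ 0)
    (hz : Tendsto z atTop (𝓝 z₀)) (hl : Tendsto l atTop (𝓝 0)) (R : ℝ) :
    TendstoUniformlyOn (fun k x => ‖z k + l k • x‖ ^ A) (fun _ => ‖z₀‖ ^ A) atTop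
      (Metric.closedBall 0 R) := by
  rw [Metric.tendstoUniformlyOn_iff]
  intro e he
  obtain ⟨d, hd, hdd⟩ := Metric.continuousAt_iff.1
    ((continuous_norm.continuousAt (x := z₀)).rpow_const (p := A) (Or.inl (by simpa using hz₀)))
    e he
  have h1 : Tendsto (fun k => dist (z k) z₀ + |l k| * |R|) atTop (𝓝 0) := by
    simpa using (tendsto_iff_dist_tendsto_zero.1 hz).add (hl.abs.mul_const |R|)
  filter_upwards [h1.eventually (gt_mem_nhds hd)] with k hk x hx
  rw [dist_comm]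
  refine hdd ?_
  rw [Metric.mem_closedBall, dist_zero_right] at hx
  rw [dist_eq_norm] at hk ⊢
  refine lt_of_le_of_lt ?_ hk
  rw [show z k + l k • x - z₀ = (z k - z₀) + l k • x by abel]
  refine (norm_add_le _ _).trans (add_le_add le_rfl ?_)
  rw [norm_smul, Real.norm_eq_abs]
  exact mul_le_mul_of_nonneg_left (hx.trans (le_abs_self R)) (abs_nonneg _)

/-- Universal bound at the unit sphere from nonexistence for the Lane–Emden system. -/
theorem unit_bound (hn : 3 ≤ n) {p q A B : ℝ} (hp : 0 < p) (hq : 0 < q) (hpq : 1 < p * q)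
    (hLE : ¬ ∃ u v : Euc n → ℝ, IsPositiveEntireSolution p q u v) :
    ∃ C : ℝ, ∀ (e : Euc n) (U V : Euc n → ℝ), ‖e‖ = 1 →
      ContDiffOn ℝ 2 U (Metric.ball e (1 / 2)) → ContDiffOn ℝ 2 V (Metric.ball e (1 / 2)) →
      (∀ y ∈ Metric.ball e (1 / 2), 0 < U y ∧ 0 < V y ∧
        -(Δ U y) = ‖y‖ ^ A * V y ^ p ∧ -(Δ V y) = ‖y‖ ^ B * U y ^ q) → U e ≤ C ∧ V e ≤ C := by
  by_contra hC
  push Not at hC
  choose e U V he hU hV hsol hbig using fun k : ℕ => hC k
  have hd : 0 < p * q - 1 := by linarith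
  set a := 2 * (p + 1) / (p * q - 1) with hadef
  set b := 2 * (q + 1) / (p * q - 1) with hbdef
  have ha : 0 < a := div_pos (by linarith) hd
  have hb : 0 < b := div_pos (by linarith) hd
  have ab : b * p = a + 2 := by
    rw [hadef, hbdef, div_mul_eq_mul_div, div_eq_iff hd.ne']
    linear_combination -(div_mul_cancel₀ (2 * (p + 1)) hd.ne')
  have ba : a * q = b + 2 := by
    rw [hadef, hbdef, div_mul_eq_mul_div, div_eq_iff hd.ne']
    linear_combination -(div_mul_cancel₀ (2 * (q + 1)) hd.ne')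
  set N : ℕ → Euc n → ℝ := fun k y => size a b (U k y) (V k y) with hN
  set g : ℕ → Euc n → ℝ := fun k y => N k y * (1 / 4 - dist y (e k)) with hg
  have hin : ∀ k, Metric.closedBall (e k) (1 / 4) ⊆ Metric.ball (e k) (1 / 2) := fun k =>
    Metric.closedBall_subset_ball (by norm_num)
  have hmax : ∀ k, ∃ z ∈ Metric.closedBall (e k) (1 / 4),
      IsMaxOn (g k) (Metric.closedBall (e k) (1 / 4)) z := fun k => by
    refine (isCompact_closedBall _ _).exists_isMaxOn (Metric.nonempty_closedBall.2 (by norm_num)) ?_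
    refine ContinuousOn.mul (ContinuousOn.add ?_ ?_) (by fun_prop)
    · exact ((hU k).continuousOn.mono (hin k)).rpow_const fun y hy =>
        Or.inl (hsol k y (hin k hy)).1.ne'
    · exact ((hV k).continuousOn.mono (hin k)).rpow_const fun y hy =>
        Or.inl (hsol k y (hin k hy)).2.1.ne'
  choose z hz hzmax using hmax
  have hee : ∀ k, e k ∈ Metric.ball (e k) (1 / 2) := fun k => Metric.mem_ball_self (by norm_num)
  have hNe : Tendsto (fun k => N k (e k)) atTop atTop := by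
    refine tendsto_atTop_mono' atTop ?_
      (tendsto_atTop.2 fun m => (((tendsto_rpow_atTop (one_div_pos.2 ha)).comp
        tendsto_natCast_atTop_atTop).eventually_ge_atTop m).and
          (((tendsto_rpow_atTop (one_div_pos.2 hb)).comp
        tendsto_natCast_atTop_atTop).eventually_ge_atTop m) |>.mono fun k hk => le_min hk.1 hk.2
        : Tendsto (fun k : ℕ => min ((k : ℝ) ^ (1 / a)) ((k : ℝ) ^ (1 / b))) atTop atTop)
    refine Eventually.of_forall fun k => ?_
    obtain ⟨h1, h2, -, -⟩ := hsol k (e k) (hee k)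
    have p1 : 0 ≤ U k (e k) ^ (1 / a) := Real.rpow_nonneg h1.le _
    have p2 : 0 ≤ V k (e k) ^ (1 / b) := Real.rpow_nonneg h2.le _
    simp only [hN, size]
    by_cases hk : U k (e k) ≤ k
    · have := Real.rpow_le_rpow (Nat.cast_nonneg k) (hbig k hk).le (one_div_pos.2 hb).le
      exact (min_le_right _ _).trans (by linarith)
    · have := Real.rpow_le_rpow (Nat.cast_nonneg k) (not_le.1 hk).le (one_div_pos.2 ha).le
      exact (min_le_left _ _).trans (by linarith)
  have hNpos : ∀ k, ∀ y ∈ Metric.ball (e k) (1 / 2), 0 < N k y := fun k y hy =>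
    add_pos (Real.rpow_pos_of_pos (hsol k y hy).1 _) (Real.rpow_pos_of_pos (hsol k y hy).2.1 _)
  set d : ℕ → ℝ := fun k => (1 / 4 - dist (z k) (e k)) / 2 with hddef
  have key : ∀ k, 0 < d k ∧ N k (e k) ≤ N k (z k) ∧ N k (e k) / 8 ≤ d k * N k (z k) := by
    intro k
    have h := hzmax k (Metric.mem_closedBall_self (by norm_num : (0:ℝ) ≤ 1 / 4))
    simp only [hg, mem_setOf_eq, dist_self, sub_zero] at h
    have hp1 := hNpos k (e k) (hee k)
    have hp2 := hNpos k (z k) (hin k (hz k))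
    have hd2 : 1 / 4 - dist (z k) (e k) ≤ 1 / 4 := by linarith [dist_nonneg (x := z k) (y := e k)]
    have hd1 : 0 < 1 / 4 - dist (z k) (e k) := by nlinarith
    refine ⟨by simp only [hddef]; linarith, ?_, by simp only [hddef]; linarith⟩
    nlinarith
  obtain ⟨z₀, -, φ, hφ, hz₀⟩ := (isCompact_closedBall (0 : Euc n) 2).tendsto_subseq (x := z)
    fun k => by
      have := hz k
      rw [Metric.mem_closedBall, dist_eq_norm] at this
      simp only [Metric.mem_closedBall, dist_zero_right]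
      linarith [norm_le_norm_add_norm_sub' (z k) (e k), he k]
  have hz₀' : z₀ ≠ 0 := by
    intro h
    have := le_of_tendsto_of_tendsto' tendsto_const_nhds hz₀.norm
      (fun k => show (3 : ℝ) / 4 ≤ ‖(z ∘ φ) k‖ by
        have := hz (φ k)
        rw [Metric.mem_closedBall, dist_eq_norm] at this
        simp only [Function.comp_apply]
        linarith [norm_le_norm_add_norm_sub (z (φ k)) (e (φ k)), he (φ k)])
    rw [h, norm_zero] at this
    linarith
  set l : ℕ → ℝ := fun k => 1 / N (φ k) (z (φ k)) with hl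
  have hlpos : ∀ k, 0 < l k := fun k => one_div_pos.2 (hNpos _ _ (hin _ (hz _)))
  have hNz : Tendsto (fun k => N (φ k) (z (φ k))) atTop atTop :=
    tendsto_atTop_mono (fun k => (key (φ k)).2.1) (hNe.comp hφ.tendsto_atTop)
  have hl0 : Tendsto l atTop (𝓝 0) := by
    simp only [hl, one_div]
    exact hNz.inv_tendsto_atTop
  set ρ : ℕ → ℝ := fun k => d (φ k) * N (φ k) (z (φ k)) with hρ
  have hρt : Tendsto ρ atTop atTop :=
    tendsto_atTop_mono (fun k => (key (φ k)).2.2)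
      ((hNe.comp hφ.tendsto_atTop).atTop_div_const (by norm_num))
  have hloc : ∀ k, ∀ x ∈ Metric.ball (0 : Euc n) (ρ k),
      z (φ k) + l k • x ∈ Metric.ball (e (φ k)) (1 / 2) ∧
      size a b (U (φ k) (z (φ k) + l k • x)) (V (φ k) (z (φ k) + l k • x)) ≤ 2 / l k := by
    intro k x hx
    rw [Metric.mem_ball, dist_zero_right] at hx
    set y := z (φ k) + l k • x with hy
    obtain ⟨hdp, -, -⟩ := key (φ k)
    have hzp := hNpos _ _ (hin _ (hz (φ k)))
    have hyd : dist y (z (φ k)) < d (φ k) := by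
      rw [dist_eq_norm, hy, add_sub_cancel_left, norm_smul, Real.norm_of_nonneg (hlpos k).le, hl,
        div_mul_eq_mul_div, one_mul, div_lt_iff₀ hzp]
      exact hx
    have hye := dist_triangle y (z (φ k)) (e (φ k))
    simp only [hddef] at hdp hyd
    have hmem : y ∈ Metric.closedBall (e (φ k)) (1 / 4) := by
      rw [Metric.mem_closedBall]; linarith
    refine ⟨hin _ hmem, ?_⟩
    have h : g (φ k) y ≤ g (φ k) (z (φ k)) := hzmax (φ k) hmem
    simp only [hg] at h
    have hyp := hNpos _ _ (hin _ hmem)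
    simp only [hl, one_div, div_inv_eq_mul]
    change N (φ k) y ≤ _
    by_contra hlt
    rw [not_le] at hlt
    have h5 : 0 < 1 / 4 - dist y (e (φ k)) - (1 / 4 - dist (z (φ k)) (e (φ k))) / 2 := by linarith
    nlinarith [mul_lt_mul_of_pos_right hlt hdp, mul_pos hyp h5]
  refine hLE (exists_solution_of_blowup hn hp hq hpq.ne' hρt
    (U := fun k x => l k ^ a * U (φ k) (z (φ k) + l k • x))
    (V := fun k x => l k ^ b * V (φ k) (z (φ k) + l k • x))
    (a := fun k x => ‖z (φ k) + l k • x‖ ^ A) (b := fun k x => ‖z (φ k) + l k • x‖ ^ B)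
    (K := max (2 ^ a) (2 ^ b)) (c₁ := min ((1 / 2) ^ a) ((1 / 2) ^ b))
    (a₀ := ‖z₀‖ ^ A) (b₀ := ‖z₀‖ ^ B) (Real.rpow_pos_of_pos (norm_pos_iff.2 hz₀') _)
    (Real.rpow_pos_of_pos (norm_pos_iff.2 hz₀') _) (fun k => ?_) (fun k => ?_) (fun k x hx => ?_)
    (fun k x hx => ?_) (fun R => tendsto_coeff hz₀' hz₀ hl0 R)
    (fun R => tendsto_coeff hz₀' hz₀ hl0 R) (by positivity) (Eventually.of_forall fun k => ?_))
  · exact contDiffOn_const.mul ((hU (φ k)).comp
      (contDiff_const.add (contDiff_const_smul (l k))).contDiffOn fun x hx => (hloc k x hx).1)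
  · exact contDiffOn_const.mul ((hV (φ k)).comp
      (contDiff_const.add (contDiff_const_smul (l k))).contDiffOn fun x hx => (hloc k x hx).1)
  · obtain ⟨hm, hsz⟩ := hloc k x hx
    obtain ⟨h1, h2, -, -⟩ := hsol (φ k) _ hm
    obtain ⟨hu, hv⟩ := le_of_size_le ha hb h1 h2 hsz
    have hlp := hlpos k
    refine ⟨mul_pos (Real.rpow_pos_of_pos hlp _) h1, ?_,
      mul_pos (Real.rpow_pos_of_pos hlp _) h2, ?_⟩
    · refine le_trans (mul_le_mul_of_nonneg_left hu (Real.rpow_nonneg hlp.le _)) ?_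
      rw [← Real.mul_rpow hlp.le (by positivity), mul_div_cancel₀ _ hlp.ne']
      exact le_max_left _ _
    · refine le_trans (mul_le_mul_of_nonneg_left hv (Real.rpow_nonneg hlp.le _)) ?_
      rw [← Real.mul_rpow hlp.le (by positivity), mul_div_cancel₀ _ hlp.ne']
      exact le_max_right _ _
  · obtain ⟨hm, -⟩ := hloc k x hx
    obtain ⟨h1, h2, e1, e2⟩ := hsol (φ k) _ hm
    have hlp := hlpos k
    rw [laplacian_affine ((hU (φ k)).contDiffAt (Metric.isOpen_ball.mem_nhds hm)),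
      laplacian_affine ((hV (φ k)).contDiffAt (Metric.isOpen_ball.mem_nhds hm)),
      Real.mul_rpow (Real.rpow_nonneg hlp.le _) h2.le,
      Real.mul_rpow (Real.rpow_nonneg hlp.le _) h1.le, ← Real.rpow_mul hlp.le,
      ← Real.rpow_mul hlp.le, ab, ba, Real.rpow_add hlp, Real.rpow_add hlp, Real.rpow_two]
    constructor
    · linear_combination l k ^ a * l k ^ 2 * e1
    · linear_combination l k ^ b * l k ^ 2 * e2
  · simp only [smul_zero, add_zero]
    obtain ⟨h1, h2, -, -⟩ := hsol (φ k) _ (hin _ (hz (φ k)))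
    have hlp := hlpos k
    have hsum : (l k ^ a * U (φ k) (z (φ k))) ^ (1 / a)
        + (l k ^ b * V (φ k) (z (φ k))) ^ (1 / b) = 1 := by
      rw [Real.mul_rpow (Real.rpow_nonneg hlp.le _) h1.le,
        Real.mul_rpow (Real.rpow_nonneg hlp.le _) h2.le, ← Real.rpow_mul hlp.le,
        ← Real.rpow_mul hlp.le, mul_one_div_cancel ha.ne', mul_one_div_cancel hb.ne',
        Real.rpow_one, ← mul_add, hl]
      exact one_div_mul_cancel (hNpos _ _ (hin _ (hz _))).ne'
    set X := l k ^ a * U (φ k) (z (φ k))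
    set Y := l k ^ b * V (φ k) (z (φ k))
    have hX : 0 < X := mul_pos (Real.rpow_pos_of_pos hlp _) h1
    have hY : 0 < Y := mul_pos (Real.rpow_pos_of_pos hlp _) h2
    rcases le_or_gt (1 / 2) (X ^ (1 / a)) with h | h
    · have := Real.rpow_le_rpow (by norm_num) h ha.le
      rw [← Real.rpow_mul hX.le, one_div_mul_cancel ha.ne', Real.rpow_one] at this
      exact (min_le_left _ _).trans (by linarith)
    · have := Real.rpow_le_rpow (by norm_num) (show 1 / 2 ≤ Y ^ (1 / b) by linarith) hb.le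
      rw [← Real.rpow_mul hY.le, one_div_mul_cancel hb.ne', Real.rpow_one] at this
      exact (min_le_right _ _).trans (by linarith)

/-- Universal decay of the values. -/
theorem decay (hn : 3 ≤ n) {p q A B : ℝ} (hp : 0 < p) (hq : 0 < q) (hpq : 1 < p * q)
    (hLE : ¬ ∃ u v : Euc n → ℝ, IsPositiveEntireSolution p q u v) :
    ∃ C : ℝ, 0 ≤ C ∧ ∀ u v : Euc n → ℝ, IsWeightedSolution A B p q u v → ∀ x, x ≠ 0 →
      u x ≤ C * ‖x‖ ^ (-expo A B p q) ∧ v x ≤ C * ‖x‖ ^ (-expo B A q p) := by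
  obtain ⟨C, hC⟩ := unit_bound (A := A) (B := B) hn hp hq hpq hLE
  refine ⟨max C 0, le_max_right _ _, fun u v hs x hx => ?_⟩
  have hr : 0 < ‖x‖ := norm_pos_iff.2 hx
  obtain ⟨-, -, hu2, hv2, hup, hvp, heq⟩ := hs.scaled hpq.ne' hr
  set e : Euc n := ‖x‖⁻¹ • x with he
  have hen : ‖e‖ = 1 := by
    rw [he, norm_smul, norm_inv, norm_norm, inv_mul_cancel₀ hr.ne']
  have hne : ∀ y ∈ Metric.ball e (1 / 2), y ≠ 0 := fun y hy h => by
    rw [h, Metric.mem_ball, dist_zero_left, hen] at hy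
    norm_num at hy
  obtain ⟨h1, h2⟩ := hC e _ _ hen (hu2.mono hne) (hv2.mono hne)
    fun y hy => ⟨hup y, hvp y, heq y (hne y hy)⟩
  simp only [he, smul_inv_smul₀ hr.ne'] at h1 h2
  rw [Real.rpow_neg hr.le, Real.rpow_neg hr.le, ← div_eq_mul_inv, ← div_eq_mul_inv,
    le_div_iff₀ (Real.rpow_pos_of_pos hr _), le_div_iff₀ (Real.rpow_pos_of_pos hr _)]
  exact ⟨by linarith [le_max_left C 0], by linarith [le_max_left C 0]⟩

/-- Universal decay of the gradient of the first component. -/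
theorem decay_grad (hn : 3 ≤ n) {p q A B : ℝ} (hp : 0 < p) (hq : 0 < q) (hpq : 1 < p * q)
    (hA : -2 < A) (hB : -2 < B)
    (hLE : ¬ ∃ u v : Euc n → ℝ, IsPositiveEntireSolution p q u v) :
    ∃ C : ℝ, 0 ≤ C ∧ ∀ u v : Euc n → ℝ, IsWeightedSolution A B p q u v → ∀ x, x ≠ 0 →
      u x ≤ C * ‖x‖ ^ (-expo A B p q) ∧ ‖fderiv ℝ u x‖ ≤ C * ‖x‖ ^ (-expo A B p q - 1) := by
  obtain ⟨C, hC0, hC⟩ := decay (A := A) (B := B) hn hp hq hpq hLE
  obtain ⟨G, hG0, hG⟩ := grad_local hn
  set α := expo A B p q with hα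
  set β := expo B A q p with hβ
  have hα0 : 0 < α := expo_pos hA hB hp hpq
  have hβ0 : 0 < β := expo_pos hB hA hq (by linarith)
  set F := ((1 / 2 : ℝ) ^ A + (2 : ℝ) ^ A) with hF
  have hF0 : 0 < F := add_pos (Real.rpow_pos_of_pos (by norm_num) _) (Real.rpow_pos_of_pos two_pos _)
  set K := C * (2 : ℝ) ^ α + F * (C * (2 : ℝ) ^ β) ^ p with hK
  refine ⟨C + G * K, by positivity, fun u v hs x hx => ?_⟩
  have hr : 0 < ‖x‖ := norm_pos_iff.2 hx
  have hGK : 0 ≤ G * K := by positivity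
  refine ⟨(hC u v hs x hx).1.trans (mul_le_mul_of_nonneg_right (by linarith) (by positivity)), ?_⟩
  obtain ⟨-, -, hu2, -, hup, hvp, heq⟩ := id hs
  have h := hG u x (K * ‖x‖ ^ (-α)) hu2 hx fun z hz => ?_
  · rw [Real.rpow_sub hr, Real.rpow_one, ← mul_div_assoc, le_div_iff₀ hr]
    have : 0 ≤ C * ‖x‖ ^ (-α) := by positivity
    linarith
  have hz2 : ‖x‖ / 2 ≤ ‖z‖ ∧ ‖z‖ ≤ 2 * ‖x‖ := by
    have h1 : ‖x‖ ≤ ‖z‖ + ‖z - x‖ := norm_le_norm_add_norm_sub z x
    constructor <;> linarith [norm_le_norm_add_norm_sub' z x]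
  have hz0 : z ≠ 0 := fun h => by rw [h, norm_zero] at hz2; linarith
  obtain ⟨b1, b2⟩ := hC u v hs z hz0
  have hmono : ∀ γ : ℝ, 0 < γ → ‖z‖ ^ (-γ) ≤ (2 : ℝ) ^ γ * ‖x‖ ^ (-γ) := fun γ hγ => by
    refine (Real.rpow_le_rpow_of_nonpos (by positivity) hz2.1 (by linarith)).trans (le_of_eq ?_)
    rw [Real.div_rpow hr.le zero_le_two, Real.rpow_neg zero_le_two, div_inv_eq_mul, mul_comm]
  have hu1 : u z ≤ C * (2 : ℝ) ^ α * ‖x‖ ^ (-α) := by
    rw [mul_assoc]; exact b1.trans (mul_le_mul_of_nonneg_left (hmono α hα0) hC0)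
  have hv1 : v z ≤ C * (2 : ℝ) ^ β * ‖x‖ ^ (-β) := by
    rw [mul_assoc]; exact b2.trans (mul_le_mul_of_nonneg_left (hmono β hβ0) hC0)
  have hzA : ‖z‖ ^ A ≤ F * ‖x‖ ^ A := by
    rw [hF, add_mul, ← Real.mul_rpow (by norm_num) hr.le, ← Real.mul_rpow zero_le_two hr.le]
    rcases le_or_gt 0 A with h | h
    · exact (Real.rpow_le_rpow (norm_nonneg z) hz2.2 h).trans
        (le_add_of_nonneg_left (by positivity))
    · exact (Real.rpow_le_rpow_of_nonpos (by positivity) (by linarith) h.le).trans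
        (le_add_of_nonneg_right (by positivity))
  have hpow : ‖x‖ ^ A * (‖x‖ ^ (-β)) ^ p * ‖x‖ ^ 2 = ‖x‖ ^ (-α) := by
    rw [← Real.rpow_mul hr.le, ← Real.rpow_two, ← Real.rpow_add hr, ← Real.rpow_add hr]
    congr 1
    linarith [expo_spec (A := A) (B := B) hpq.ne']
  have hlap : |Δ u z| * ‖x‖ ^ 2 ≤ F * (C * (2 : ℝ) ^ β) ^ p * ‖x‖ ^ (-α) := by
    rw [← abs_neg, (heq z hz0).1, abs_of_nonneg (mul_nonneg (by positivity)
      (Real.rpow_nonneg (hvp z).le _))]
    have h3 := Real.rpow_le_rpow (hvp z).le hv1 hp.le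
    rw [Real.mul_rpow (by positivity) (by positivity)] at h3
    refine (mul_le_mul_of_nonneg_right (mul_le_mul hzA h3 (Real.rpow_nonneg (hvp z).le _)
      (by positivity)) (sq_nonneg _)).trans (le_of_eq ?_)
    rw [← hpow]
    ring
  have hxa : 0 ≤ ‖x‖ ^ (-α) := Real.rpow_nonneg hr.le _
  have h4 : 0 ≤ F * (C * (2 : ℝ) ^ β) ^ p := by positivity
  have h5 : 0 ≤ C * (2 : ℝ) ^ α := by positivity
  rw [abs_of_pos (hup z), hK, add_mul]
  exact ⟨hu1.trans (le_add_of_nonneg_right (by positivity)),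
    hlap.trans (le_add_of_nonneg_left (by positivity))⟩

end Vale.Agent.P100W
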