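import Vale.Agent.P100W.Easy

/-!
The Laplacian of a weighted inversion `x ↦ (λ²/|x|²)^a f(λ² x/|x|²)`.
-/

open Filter Topology Laplacian Set
open scoped ContDiff

noncomputable section

namespace Vale.Agent.P100W

open Vale.Agent.P100 Vale.Agent.P100C

variable {n : ℕ}

/-- inversion in the sphere of radius `l` -/
def inv2 (l : ℝ) (z : Euc n) : Euc n := (l ^ 2 * ‖z‖ ^ (-2 : ℝ)) • z

/-- reflection of a function, of weight `a` -/
def refl (a l : ℝ) (f : Euc n → ℝ) (z : Euc n) : ℝ :=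
  (l ^ (2 * a) * ‖z‖ ^ (-(2 * a))) * f (inv2 l z)

/-- the logarithmic radial derivative of `r^a f` -/
def grow (a : ℝ) (f : Euc n → ℝ) (y : Euc n) : ℝ := fderiv ℝ f y y + a * f y

lemma pd_eq_of_eventually {f g : Euc n → ℝ} {x : Euc n} (h : f =ᶠ[𝓝 x] g) (i : Fin n) :
    pd i f x = pd i g x := by simp only [pd, h.fderiv_eq]

lemma differentiableAt_pd {f : Euc n → ℝ} {x : Euc n} (hf : ContDiffAt ℝ 2 f x) (i : Fin n) :
    DifferentiableAt ℝ (pd i f) x :=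
  (((hf.fderiv_right (m := 1) (by norm_num)).differentiableAt one_ne_zero).clm_apply
    (differentiableAt_const _))

lemma apply_eq_sum (f : Euc n → ℝ) (x w : Euc n) : fderiv ℝ f x w = ∑ i, w i * pd i f x := by
  conv_lhs => rw [← (EuclideanSpace.basisFun (Fin n) ℝ).sum_repr w]
  simp [pd, ev, EuclideanSpace.basisFun_apply]

lemma laplacian_mul {f g : Euc n → ℝ} {x : Euc n} (hf : ContDiffAt ℝ 2 f x)
    (hg : ContDiffAt ℝ 2 g x) :
    Δ (fun y => f y * g y) x =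
      Δ f x * g x + 2 * ∑ i, pd i f x * pd i g x + f x * Δ g x := by
  rw [laplacian_eq_sum (hf.mul hg), laplacian_eq_sum hf, laplacian_eq_sum hg, Finset.sum_mul,
    Finset.mul_sum, Finset.mul_sum, ← Finset.sum_add_distrib, ← Finset.sum_add_distrib]
  refine Finset.sum_congr rfl fun i _ => ?_
  have hev : pd i (fun y => f y * g y) =ᶠ[𝓝 x] fun y => pd i f y * g y + f y * pd i g y := by
    filter_upwards [hf.eventually (by simp), hg.eventually (by simp)] with y h1 h2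
    exact pd_mul' (h1.differentiableAt two_ne_zero) (h2.differentiableAt two_ne_zero) i
  have d1 := (differentiableAt_pd hf i).fun_mul (hg.differentiableAt two_ne_zero)
  have d2 := (hf.differentiableAt two_ne_zero).fun_mul (differentiableAt_pd hg i)
  rw [pd_eq_of_eventually hev, pd_add' d1 d2,
    pd_mul' (differentiableAt_pd hf i) (hg.differentiableAt two_ne_zero),
    pd_mul' (hf.differentiableAt two_ne_zero) (differentiableAt_pd hg i)]
  ring

lemma contDiffAt_inv2 (l : ℝ) {z : Euc n} (hz : z ≠ 0) : ContDiffAt ℝ 2 (inv2 l) z :=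
  (contDiffAt_const.mul (contDiffAt_pow _ hz)).smul contDiffAt_id

lemma pd_comp_inv2 {f : Euc n → ℝ} (l : ℝ) {z : Euc n} (hz : z ≠ 0)
    (hf : DifferentiableAt ℝ f (inv2 l z)) (i : Fin n) :
    pd i (fun w => f (inv2 l w)) z = l ^ 2 * ‖z‖ ^ (-2 : ℝ) * pd i f (inv2 l z)
      + l ^ 2 * (-2 * (‖z‖ ^ ((-2 : ℝ) - 2) * z i)) * fderiv ℝ f (inv2 l z) z := by
  have hK : DifferentiableAt ℝ (fun w : Euc n => l ^ 2 * ‖w‖ ^ (-2 : ℝ)) z :=
    ((contDiffAt_pow _ hz).differentiableAt two_ne_zero).const_mul _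
  have hI := hK.hasFDerivAt.fun_smul (hasFDerivAt_id z)
  have h := (hf.hasFDerivAt.comp z hI).fderiv
  simp only [Function.comp_def, id_eq] at h
  have hk : fderiv ℝ (fun w : Euc n => l ^ 2 * ‖w‖ ^ (-2 : ℝ)) z (ev i)
      = l ^ 2 * (-2 * (‖z‖ ^ ((-2 : ℝ) - 2) * z i)) := by
    change pd i (fun w : Euc n => l ^ 2 * ‖w‖ ^ (-2 : ℝ)) z = _
    rw [pd_const_mul _ ((contDiffAt_pow _ hz).differentiableAt two_ne_zero), pd_pow _ hz]
  change fderiv ℝ (fun w => f (inv2 l w)) z (ev i) = _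
  rw [h]
  simp only [ContinuousLinearMap.comp_apply, add_apply, smul_apply,
    ContinuousLinearMap.id_apply, ContinuousLinearMap.smulRight_apply, map_add, map_smul,
    smul_eq_mul, hk, pd]

theorem laplacian_comp_inv2 {f : Euc n → ℝ} (l : ℝ) {x : Euc n} (hx : x ≠ 0)
    (hf : ContDiffAt ℝ 2 f (inv2 l x)) :
    Δ (fun w => f (inv2 l w)) x = l ^ 4 * ‖x‖ ^ (-4 : ℝ) * Δ f (inv2 l x)
      - 2 * ((n : ℝ) - 2) * l ^ 2 * ‖x‖ ^ (-4 : ℝ) * fderiv ℝ f (inv2 l x) x := by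
  have hr : 0 < ‖x‖ := norm_pos_iff.2 hx
  have hcd : ContDiffAt ℝ 2 (fun w => f (inv2 l w)) x :=
    ContDiffAt.comp x hf (contDiffAt_inv2 l hx)
  rw [laplacian_eq_sum hcd, laplacian_eq_sum hf]
  set K : Euc n → ℝ := fun z => l ^ 2 * ‖z‖ ^ (-2 : ℝ) with hK
  set k : Fin n → Euc n → ℝ := fun i z => l ^ 2 * (-2 * (‖z‖ ^ ((-2 : ℝ) - 2) * z i)) with hk
  set S : Euc n → ℝ := fun z => ∑ j, z j * pd j f (inv2 l z) with hS
  set y := inv2 l x with hy
  have dz : ∀ j, DifferentiableAt ℝ (fun z : Euc n => z j) x := fun j =>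
    (contDiff_coord (k := 1) j).differentiable one_ne_zero x
  have dP : ∀ j, DifferentiableAt ℝ (fun z => pd j f (inv2 l z)) x := fun j =>
    DifferentiableAt.comp (f := inv2 l) x (differentiableAt_pd hf j)
      ((contDiffAt_inv2 l hx).differentiableAt two_ne_zero)
  have dS : DifferentiableAt ℝ S x := DifferentiableAt.fun_sum fun j _ => (dz j).fun_mul (dP j)
  have d4 : DifferentiableAt ℝ (fun w : Euc n => ‖w‖ ^ ((-2 : ℝ) - 2)) x :=
    (contDiffAt_pow _ hx).differentiableAt two_ne_zero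
  have d2 : DifferentiableAt ℝ (fun w : Euc n => ‖w‖ ^ (-2 : ℝ)) x :=
    (contDiffAt_pow _ hx).differentiableAt two_ne_zero
  have dk : ∀ i, DifferentiableAt ℝ (k i) x := fun i =>
    (((d4.fun_mul (dz i)).const_mul (-2 : ℝ)).const_mul (l ^ 2))
  set H : Fin n → Fin n → ℝ := fun i j => pd i (pd j f) y
  have hP : ∀ i j, pd i (fun z => pd j f (inv2 l z)) x
      = K x * H i j + k i x * ∑ m, x m * H m j := fun i j => by
    rw [pd_comp_inv2 l hx (differentiableAt_pd hf j), apply_eq_sum]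
  have hS' : ∀ i, pd i S x = pd i f y + ∑ j, x j * (K x * H i j + k i x * ∑ m, x m * H m j) := by
    intro i
    simp only [hS]
    rw [pd_fun_sum (fun j => (dz j).fun_mul (dP j))]
    rw [Finset.sum_congr rfl fun j _ => pd_mul' (dz j) (dP j) i]
    simp [hP, pd_coord, Finset.sum_add_distrib, hy]
  have hev : ∀ i, pd i (fun w => f (inv2 l w)) =ᶠ[𝓝 x]
      fun z => K z * pd i f (inv2 l z) + k i z * S z := by
    intro i
    filter_upwards [(contDiffAt_inv2 l hx).continuousAt.eventually (hf.eventually (by simp)),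
      isOpen_ne.mem_nhds hx] with z h1 h2
    rw [pd_comp_inv2 l h2 (h1.differentiableAt two_ne_zero), apply_eq_sum]
  have hdk : ∀ i, pd i (k i) x = l ^ 2 * (-2 * ((-4 * (‖x‖ ^ ((-2 : ℝ) - 2 - 2) * x i)) * x i
      + ‖x‖ ^ ((-2 : ℝ) - 2))) := by
    intro i
    simp only [hk]
    rw [pd_const_mul (l ^ 2) ((d4.fun_mul (dz i)).const_mul (-2 : ℝ)),
      pd_const_mul (-2 : ℝ) (d4.fun_mul (dz i)), pd_mul' d4 (dz i), pd_pow _ hx, pd_coord,
      if_pos rfl, mul_one]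
    norm_num
  have hdK : ∀ i, pd i K x = k i x := fun i => by
    simp only [hK, hk]
    rw [pd_const_mul _ d2, pd_pow _ hx]
  have hterm : ∀ i, pd i (pd i fun w => f (inv2 l w)) x =
      (k i x * pd i f y + K x * (K x * H i i + k i x * ∑ m, x m * H m i)) +
      (pd i (k i) x * S x +
        k i x * (pd i f y + ∑ j, x j * (K x * H i j + k i x * ∑ m, x m * H m j))) := by
    intro i
    have dK : DifferentiableAt ℝ K x := d2.const_mul (l ^ 2)
    rw [pd_eq_of_eventually (hev i), pd_add' (dK.fun_mul (dP i)) ((dk i).fun_mul dS),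
      pd_mul' dK (dP i), pd_mul' (dk i) dS, hP, hS', hdK]
  simp only [hterm]
  -- collect
  set c : ℝ := l ^ 2 * (-2 * ‖x‖ ^ ((-2 : ℝ) - 2)) with hc
  set Q : ℝ := ∑ j, x j * ∑ m, x m * H m j with hQ
  have hkc : ∀ i, k i x = c * x i := fun i => by simp only [hk, hc]; ring
  have hsq : ∑ i, x i * x i = ‖x‖ ^ 2 := by
    rw [EuclideanSpace.real_norm_sq_eq]; simp [pow_two]
  have hSx : S x = fderiv ℝ f y x := by simp only [hS, apply_eq_sum, hy]
  have hQ' : ∑ i, x i * ∑ j, x j * H i j = Q := by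
    simp only [hQ, Finset.mul_sum]
    rw [Finset.sum_comm]
    exact Finset.sum_congr rfl fun _ _ => Finset.sum_congr rfl fun _ _ => by ring
  have e1 : ∑ i, k i x * pd i f y = c * S x := by
    simp only [hkc, hSx, apply_eq_sum, Finset.mul_sum]
    exact Finset.sum_congr rfl fun _ _ => by ring
  have e2 : ∑ i, K x * (K x * H i i + k i x * ∑ m, x m * H m i)
      = K x * K x * (∑ i, H i i) + K x * c * Q := by
    simp only [hkc, hQ, mul_add, Finset.sum_add_distrib, Finset.mul_sum]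
    congr 1
    · exact Finset.sum_congr rfl fun _ _ => by ring
    · exact Finset.sum_congr rfl fun _ _ => Finset.sum_congr rfl fun _ _ => by ring
  have e3 : ∑ i, pd i (k i) x =
      l ^ 2 * (-2 * ((-4 * ‖x‖ ^ ((-2 : ℝ) - 2 - 2)) * ‖x‖ ^ 2 + n * ‖x‖ ^ ((-2 : ℝ) - 2))) := by
    simp only [hdk, ← Finset.mul_sum, Finset.sum_add_distrib, Finset.sum_const, Finset.card_univ,
      Fintype.card_fin, nsmul_eq_mul]
    rw [← hsq, Finset.mul_sum (a := -4 * ‖x‖ ^ ((-2 : ℝ) - 2 - 2))]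
    congr 2
    congr 1
    exact Finset.sum_congr rfl fun _ _ => by ring
  have e4 : ∑ i, k i x * (pd i f y + ∑ j, x j * (K x * H i j + k i x * ∑ m, x m * H m j))
      = c * S x + (c * K x * Q + c * c * ‖x‖ ^ 2 * Q) := by
    have : ∀ i, k i x * (pd i f y + ∑ j, x j * (K x * H i j + k i x * ∑ m, x m * H m j))
        = k i x * pd i f y + (c * K x * (x i * ∑ j, x j * H i j) + c * c * (x i * x i) * Q) := by
      intro i
      have : ∑ j, x j * (K x * H i j + k i x * ∑ m, x m * H m j)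
          = K x * (∑ j, x j * H i j) + k i x * Q := by
        simp only [hQ, Finset.mul_sum, mul_add, Finset.sum_add_distrib]
        congr 1
        · exact Finset.sum_congr rfl fun _ _ => by ring
        · exact Finset.sum_congr rfl fun _ _ => Finset.sum_congr rfl fun _ _ => by ring
      rw [this, hkc]; ring
    simp only [this, Finset.sum_add_distrib, e1, ← Finset.mul_sum, ← Finset.sum_mul, hQ', hsq]
  rw [Finset.sum_add_distrib, Finset.sum_add_distrib, Finset.sum_add_distrib, ← Finset.sum_mul,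
    e1, e2, e3, e4, hSx]
  have p4 : ‖x‖ ^ ((-2 : ℝ) - 2) = ‖x‖ ^ (-4 : ℝ) := by norm_num
  have p6 : ‖x‖ ^ ((-2 : ℝ) - 2 - 2) * ‖x‖ ^ 2 = ‖x‖ ^ (-4 : ℝ) := by
    rw [← Real.rpow_two, ← Real.rpow_add hr]; norm_num
  have p2 : ‖x‖ ^ (-2 : ℝ) * ‖x‖ ^ (-2 : ℝ) = ‖x‖ ^ (-4 : ℝ) := by
    rw [← Real.rpow_add hr]; norm_num
  have p24 : ‖x‖ ^ (-4 : ℝ) * ‖x‖ ^ 2 = ‖x‖ ^ (-2 : ℝ) := by
    rw [← Real.rpow_two, ← Real.rpow_add hr]; norm_num
  simp only [hK, hc, p4]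
  linear_combination (l ^ 4 * (∑ i, H i i)) * p2 + (8 * l ^ 2 * fderiv ℝ f y x) * p6
    + (4 * l ^ 4 * ‖x‖ ^ (-4 : ℝ) * Q) * p24

theorem laplacian_refl {f : Euc n → ℝ} (a : ℝ) {l : ℝ} (hl : 0 < l) {x : Euc n} (hx : x ≠ 0)
    (hf : ContDiffAt ℝ 2 f (inv2 l x)) :
    Δ (refl a l f) x = (l ^ (2 * a) * ‖x‖ ^ (-(2 * a))) *
      (l ^ 4 * ‖x‖ ^ (-4 : ℝ) * Δ f (inv2 l x) +
        2 * (2 * a - ((n : ℝ) - 2)) * ‖x‖ ^ (-2 : ℝ) * grow a f (inv2 l x)) := by
  have hr : 0 < ‖x‖ := norm_pos_iff.2 hx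
  have hg : ContDiffAt ℝ 2 (fun w => f (inv2 l w)) x := ContDiffAt.comp x hf (contDiffAt_inv2 l hx)
  have hp : ContDiffAt ℝ 2 (fun w : Euc n => l ^ (2 * a) * ‖w‖ ^ (-(2 * a))) x :=
    contDiffAt_const.mul (contDiffAt_pow _ hx)
  unfold refl
  rw [laplacian_mul hp hg, laplacian_comp_inv2 l hx hf]
  have eL : Δ (fun w : Euc n => l ^ (2 * a) * ‖w‖ ^ (-(2 * a))) x =
      l ^ (2 * a) * (-(2 * a) * (-(2 * a) + n - 2) * ‖x‖ ^ (-(2 * a) - 2)) := by
    rw [show (fun w : Euc n => l ^ (2 * a) * ‖w‖ ^ (-(2 * a))) =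
      l ^ (2 * a) • fun w : Euc n => ‖w‖ ^ (-(2 * a)) from rfl,
      InnerProductSpace.laplacian_smul _ (contDiffAt_pow _ hx), smul_eq_mul, lap_pow _ hx]
  have ex : ∑ i, x i * pd i (fun w => f (inv2 l w)) x
      = -(fderiv ℝ f (inv2 l x) (inv2 l x)) := by
    simp only [pd_comp_inv2 l hx (hf.differentiableAt two_ne_zero), mul_add, Finset.sum_add_distrib]
    have h1 : ∑ i, x i * (l ^ 2 * ‖x‖ ^ (-2 : ℝ) * pd i f (inv2 l x))
        = l ^ 2 * ‖x‖ ^ (-2 : ℝ) * fderiv ℝ f (inv2 l x) x := by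
      rw [apply_eq_sum, Finset.mul_sum]; exact Finset.sum_congr rfl fun _ _ => by ring
    have h2 : ∑ i, x i * (l ^ 2 * (-2 * (‖x‖ ^ ((-2 : ℝ) - 2) * x i)) *
        fderiv ℝ f (inv2 l x) x)
        = -2 * l ^ 2 * (‖x‖ ^ ((-2 : ℝ) - 2) * ‖x‖ ^ 2) * fderiv ℝ f (inv2 l x) x := by
      rw [EuclideanSpace.real_norm_sq_eq x, Finset.mul_sum, Finset.mul_sum, Finset.sum_mul]
      exact Finset.sum_congr rfl fun _ _ => by ring
    have p : ‖x‖ ^ ((-2 : ℝ) - 2) * ‖x‖ ^ 2 = ‖x‖ ^ (-2 : ℝ) := by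
      rw [← Real.rpow_two, ← Real.rpow_add hr]; norm_num
    rw [h1, h2, p]
    have e : fderiv ℝ f (inv2 l x) (inv2 l x)
        = l ^ 2 * ‖x‖ ^ (-2 : ℝ) * fderiv ℝ f (inv2 l x) x := by
      conv_lhs => arg 2; rw [inv2]
      rw [map_smul, smul_eq_mul]
    rw [e]; ring
  have eC : ∑ i, pd i (fun w : Euc n => l ^ (2 * a) * ‖w‖ ^ (-(2 * a))) x *
      pd i (fun w => f (inv2 l w)) x
      = l ^ (2 * a) * (-(2 * a)) * ‖x‖ ^ (-(2 * a) - 2) *
        -(fderiv ℝ f (inv2 l x) (inv2 l x)) := by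
    rw [← ex, Finset.mul_sum]
    refine Finset.sum_congr rfl fun i _ => ?_
    rw [pd_const_mul _ ((contDiffAt_pow _ hx).differentiableAt two_ne_zero), pd_pow _ hx]
    ring
  have e : fderiv ℝ f (inv2 l x) (inv2 l x)
      = l ^ 2 * ‖x‖ ^ (-2 : ℝ) * fderiv ℝ f (inv2 l x) x := by
    conv_lhs => arg 2; rw [inv2]
    rw [map_smul, smul_eq_mul]
  have p : ‖x‖ ^ (-(2 * a) - 2) = ‖x‖ ^ (-(2 * a)) * ‖x‖ ^ (-2 : ℝ) := by
    rw [← Real.rpow_add hr]; ring_nf
  have p2 : ‖x‖ ^ (-2 : ℝ) * ‖x‖ ^ (-2 : ℝ) = ‖x‖ ^ (-4 : ℝ) := by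
    rw [← Real.rpow_add hr]; norm_num
  rw [eL, eC, grow, e, p, ← p2]
  ring

end Vale.Agent.P100W
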