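import Vale.Agent.P100W.Main

/-!
A positive entire solution of the Lane–Emden system extends to every higher dimension, so the
Liouville theorem in dimension five also serves the weighted system in dimensions three and four.
-/

open Filter Topology Laplacian
open scoped ContDiff

noncomputable section

namespace Vale.Agent.P100W

open Vale.Agent.P100 Vale.Agent.P100C

variable {n m : ℕ}

/-- coordinate projection -/
def coordProj (h : n ≤ m) : Euc m →L[ℝ] Euc n :=
  ((EuclideanSpace.equiv (Fin n) ℝ).symm : (Fin n → ℝ) →L[ℝ] Euc n).comp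
    (ContinuousLinearMap.pi fun i => EuclideanSpace.proj (Fin.castLE h i))

lemma coordProj_apply (h : n ≤ m) (y : Euc m) (i : Fin n) :
    coordProj h y i = y (Fin.castLE h i) := by
  simp [coordProj]

lemma coordProj_ev (h : n ≤ m) (i : Fin n) : coordProj h (ev (Fin.castLE h i)) = ev i := by
  ext j
  simp [coordProj_apply, ev, Fin.castLE_inj]

lemma coordProj_ev_zero (h : n ≤ m) {j : Fin m} (hj : ∀ i, Fin.castLE h i ≠ j) :
    coordProj h (ev j) = 0 := by
  ext i
  simp [coordProj_apply, ev, hj i]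

lemma laplacian_coordProj (h : n ≤ m) {f : Euc n → ℝ} (hf : ContDiff ℝ 2 f) (y : Euc m) :
    Δ (fun z => f (coordProj h z)) y = Δ f (coordProj h y) := by
  have hfd : ∀ {g : Euc n → ℝ}, ContDiff ℝ 1 g → ∀ (j : Fin m) (z : Euc m),
      pd j (fun w => g (coordProj h w)) z = fderiv ℝ g (coordProj h z) (coordProj h (ev j)) := by
    intro g hg j z
    have := ((hg.differentiable one_ne_zero (coordProj h z)).hasFDerivAt.comp z
      (coordProj h).hasFDerivAt).fderiv
    simp only [Function.comp_def] at this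
    rw [pd, this]
    rfl
  have hcd : ContDiff ℝ 2 fun z => f (coordProj h z) := hf.comp (coordProj h).contDiff
  rw [laplacian_eq_sum hcd.contDiffAt, laplacian_eq_sum hf.contDiffAt]
  symm
  refine Fintype.sum_of_injective (Fin.castLE h) (Fin.castLE_injective h) _ _ (fun j hj => ?_)
    fun i => ?_
  · have e : pd j (fun z => f (coordProj h z)) = fun _ => (0 : ℝ) := funext fun z => by
      rw [hfd (hf.of_le one_le_two), coordProj_ev_zero h fun i hi => hj ⟨i, hi⟩, map_zero]
    rw [e]
    simp [pd]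
  · have e : pd (Fin.castLE h i) (fun z => f (coordProj h z)) =
        fun z => pd i f (coordProj h z) :=
      funext fun z => by rw [hfd (hf.of_le one_le_two), coordProj_ev]; rfl
    rw [e, hfd (contDiff_pd hf i), coordProj_ev]
    rfl

/-- The origin is a removable singularity. -/
theorem classical_of_solution (hn : 3 ≤ n) {p q : ℝ} {u v : Euc n → ℝ}
    (hs : IsPositiveEntireSolution p q u v) :
    ContDiff ℝ 2 u ∧ ContDiff ℝ 2 v ∧ (∀ x, -(Δ u x) = v x ^ p) ∧ ∀ x, -(Δ v x) = u x ^ q := by
  obtain ⟨huc, hvc, hu2, hv2, hup, hvp, heq⟩ := hs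
  have hvpc : Continuous fun x => v x ^ p := hvc.rpow_const fun x => Or.inl (hvp x).ne'
  have huqc : Continuous fun x => u x ^ q := huc.rpow_const fun x => Or.inl (hup x).ne'
  have wu : WeakSol u (fun x => v x ^ p) := fun ψ hψ hψc =>
    weak_eq hn huc hvpc hu2 (fun x hx => (heq x hx).1) hψ hψc
  have wv : WeakSol v (fun x => u x ^ q) := fun ψ hψ hψc =>
    weak_eq hn hvc huqc hv2 (fun x hx => (heq x hx).2) hψ hψc
  have hu1 := contDiff_one_of_weakSol hn huc hvpc wu
  have hv1 := contDiff_one_of_weakSol hn hvc huqc wv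
  obtain ⟨cu, eu⟩ := contDiff_two_of_weakSol hn huc
    (hv1.rpow_const_of_ne fun x => (hvp x).ne') wu
  obtain ⟨cv, ev'⟩ := contDiff_two_of_weakSol hn hvc
    (hu1.rpow_const_of_ne fun x => (hup x).ne') wv
  exact ⟨cu, cv, eu, ev'⟩

/-- Nonexistence passes to lower dimensions. -/
theorem none_of_higher (hn : 3 ≤ n) (h : n ≤ m) {p q : ℝ}
    (hm : ¬ ∃ u v : Euc m → ℝ, IsPositiveEntireSolution p q u v) :
    ¬ ∃ u v : Euc n → ℝ, IsPositiveEntireSolution p q u v := by
  rintro ⟨u, v, hs⟩
  obtain ⟨cu, cv, eu, ev'⟩ := classical_of_solution hn hs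
  obtain ⟨huc, hvc, -, -, hup, hvp, -⟩ := hs
  exact hm ⟨fun y => u (coordProj h y), fun y => v (coordProj h y),
    huc.comp (coordProj h).continuous, hvc.comp (coordProj h).continuous,
    (cu.comp (coordProj h).contDiff).contDiffOn, (cv.comp (coordProj h).contDiff).contDiffOn,
    fun _ => hup _, fun _ => hvp _, fun y _ =>
      ⟨by rw [laplacian_coordProj h cu]; exact eu _,
        by rw [laplacian_coordProj h cv]; exact ev' _⟩⟩

/-- The weighted system in dimension `n ≥ 3`, exponents subcritical in dimension `m ≥ 5, n`. -/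
theorem no_solution_lifted (hn : 3 ≤ n) (hm : 5 ≤ m) (h : n ≤ m) {A B p q : ℝ} (hp : 0 < p)
    (hq : 0 < q) (hsub : (n : ℝ) - 2 < ((n : ℝ) + A) / (p + 1) + ((n : ℝ) + B) / (q + 1))
    (hLE : ((m : ℝ) - 2) / m < 1 / (p + 1) + 1 / (q + 1)) :
    ¬ ∃ u v : Euc n → ℝ, IsWeightedSolution A B p q u v := by
  by_cases he : A ≤ -2 ∨ B ≤ -2 ∨ p * q ≤ 1
  · exact no_solution_elementary hn hp hq he
  push Not at he
  exact no_weighted_solution hn hp hq he.2.2 he.1 he.2.1 hsub
    (none_of_higher hn h (P100T.no_solution_full hm hp hq hLE))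

end Vale.Agent.P100W
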