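import Vale.Agent.P100W.Regularity

/-!
Blow-up limit: uniformly bounded positive solutions on growing balls of
`-Δ U = a V^p`, `-Δ V = b U^q`, with coefficients tending to constants and `U 0 + V 0` bounded
below, give a positive entire solution of the Lane–Emden system.
-/

open MeasureTheory Filter Topology Laplacian Set
open scoped ContDiff

noncomputable section

namespace Vale.Agent.P100W

open Vale.Agent.P100 Vale.Agent.P100C

variable {n : ℕ}

/-- A bounded, locally equi-Lipschitz sequence has a locally uniformly convergent subsequence. -/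
lemma exists_subseq {w : ℕ → Euc n → ℝ} {K : ℝ} (hK : ∀ k x, |w k x| ≤ K)
    (hL : ∀ R : ℝ, 0 ≤ R → ∃ L, 0 ≤ L ∧ ∀ᶠ k in atTop, ∀ x ∈ Metric.closedBall (0 : Euc n) R,
      ∀ y ∈ Metric.closedBall (0 : Euc n) R, |w k x - w k y| ≤ L * ‖x - y‖) :
    ∃ φ : ℕ → ℕ, StrictMono φ ∧ ∃ g : Euc n → ℝ, Continuous g ∧
      ∀ R : ℝ, 0 ≤ R →
        TendstoUniformlyOn (fun k => w (φ k)) g atTop (Metric.closedBall (0 : Euc n) R) := by
  set D := TopologicalSpace.denseSeq (Euc n)
  have hD : DenseRange D := TopologicalSpace.denseRange_denseSeq _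
  obtain ⟨G, -, φ, hφ, hG⟩ := (isCompact_univ_pi fun _ : ℕ => isCompact_Icc (a := -K) (b := K))
    |>.tendsto_subseq (x := fun k j => w k (D j)) fun k j _ => abs_le.1 (hK k (D j))
  rw [tendsto_pi_nhds] at hG
  have hc : ∀ R : ℝ, 0 ≤ R →
      UniformCauchySeqOn (fun k => w (φ k)) atTop (Metric.closedBall (0 : Euc n) R) := by
    intro R hR
    obtain ⟨L, hL0, hLe⟩ := hL (R + 1) (by linarith)
    rw [Metric.uniformCauchySeqOn_iff]
    intro e he
    set d := min 1 (e / (4 * (L + 1))) with hd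
    have hd0 : 0 < d := lt_min one_pos (by positivity)
    obtain ⟨t, ht⟩ := (isCompact_closedBall (0 : Euc n) R).elim_finite_subcover
      (fun j => Metric.ball (D j) d) (fun j => Metric.isOpen_ball) fun x _ => by
        obtain ⟨j, hj⟩ := hD.exists_dist_lt x hd0
        exact mem_iUnion.2 ⟨j, hj⟩
    have hev : ∀ᶠ k in atTop, (∀ x ∈ Metric.closedBall (0 : Euc n) (R + 1),
        ∀ y ∈ Metric.closedBall (0 : Euc n) (R + 1), |w (φ k) x - w (φ k) y| ≤ L * ‖x - y‖) ∧
        ∀ j ∈ t, |w (φ k) (D j) - G j| < e / 4 := by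
      refine ((hφ.tendsto_atTop).eventually hLe).and ((Finset.eventually_all t).2 fun j _ => ?_)
      have := Metric.tendsto_nhds.1 (hG j) (e / 4) (by linarith)
      simpa [Real.dist_eq] using this
    obtain ⟨N, hN⟩ := eventually_atTop.1 hev
    refine ⟨N, fun a ha b hb x hx => ?_⟩
    obtain ⟨j, hj, hjx⟩ := mem_iUnion₂.1 (ht hx)
    rw [Metric.mem_ball, dist_eq_norm] at hjx
    rw [Metric.mem_closedBall, dist_zero_right] at hx
    have hx1 : x ∈ Metric.closedBall (0 : Euc n) (R + 1) := by simp; linarith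
    have hj1 : D j ∈ Metric.closedBall (0 : Euc n) (R + 1) := by
      simp only [Metric.mem_closedBall, dist_zero_right]
      linarith [norm_le_norm_add_norm_sub x (D j), min_le_left 1 (e / (4 * (L + 1))), hd]
    have hLd : L * ‖x - D j‖ < e / 4 := by
      refine (mul_le_mul_of_nonneg_left hjx.le hL0).trans_lt ?_
      refine (mul_le_mul_of_nonneg_left (min_le_right _ _) hL0).trans_lt ?_
      rw [← mul_div_assoc, div_lt_div_iff₀ (by positivity) (by norm_num)]
      nlinarith
    have h1 := (hN a ha).1 x hx1 (D j) hj1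
    have h2 := (hN b hb).1 x hx1 (D j) hj1
    have h3 := (hN a ha).2 j hj
    have h4 := (hN b hb).2 j hj
    rw [Real.dist_eq]
    rw [abs_le] at h1 h2
    rw [abs_lt] at h3 h4 ⊢
    constructor <;> linarith
  choose g hg using fun x : Euc n =>
    cauchySeq_tendsto_of_complete ((hc ‖x‖ (norm_nonneg x)).cauchySeq (x := x) (by simp))
  have hu : ∀ R : ℝ, 0 ≤ R →
      TendstoUniformlyOn (fun k => w (φ k)) g atTop (Metric.closedBall (0 : Euc n) R) :=
    fun R hR => (hc R hR).tendstoUniformlyOn_of_tendsto fun x _ => hg x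
  refine ⟨φ, hφ, g, continuous_iff_continuousAt.2 fun x => ?_, hu⟩
  obtain ⟨L, -, hLe⟩ := hL (‖x‖ + 1) (by positivity)
  have hlip : ∀ y ∈ Metric.closedBall (0 : Euc n) (‖x‖ + 1), dist (g y) (g x) ≤ L * dist y x :=
    fun y hy => by
      rw [Real.dist_eq, dist_eq_norm]
      exact le_of_tendsto (((hg y).sub (hg x)).abs)
        (((hφ.tendsto_atTop).eventually hLe).mono fun k hk => hk y hy x (by simp))
  refine continuousAt_of_locally_lipschitz one_pos L fun y hy => hlip y ?_
  rw [dist_eq_norm] at hy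
  simp only [Metric.mem_closedBall, dist_zero_right]
  linarith [norm_le_norm_add_norm_sub' y x]

/-- A cut-off which is `1` on the ball of radius `r`. -/
def cutR (r : ℝ) : Euc n → ℝ := radial (-(1 / r ^ 2)) 2

lemma cutR_one {r : ℝ} (hr : 0 < r) {y : Euc n} (hy : ‖y‖ ≤ r) : cutR r y = 1 := by
  refine Real.smoothTransition.one_of_one_le ?_
  have : 1 / r ^ 2 * ‖y‖ ^ 2 ≤ 1 := by
    rw [div_mul_eq_mul_div, one_mul, div_le_one (by positivity)]
    exact pow_le_pow_left₀ (norm_nonneg y) hy 2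
  linarith

lemma cutR_zero {r : ℝ} (hr : 0 < r) {y : Euc n} (hy : 2 * r ≤ ‖y‖) : cutR r y = 0 := by
  refine Real.smoothTransition.zero_of_nonpos ?_
  have : 2 ≤ 1 / r ^ 2 * ‖y‖ ^ 2 := by
    rw [div_mul_eq_mul_div, le_div_iff₀ (by positivity)]
    nlinarith
  linarith

lemma contDiff_cut_mul {r ρ : ℝ} (hr : 0 < r) (hρ : 2 * r < ρ) {U : Euc n → ℝ}
    (hU : ContDiffOn ℝ 2 U (Metric.ball 0 ρ)) : ContDiff ℝ 2 fun y => cutR r y * U y := by
  rw [contDiff_iff_contDiffAt]
  intro x
  by_cases hx : ‖x‖ < ρ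
  · exact (contDiff_radial _ _).contDiffAt.mul
      (hU.contDiffAt (Metric.isOpen_ball.mem_nhds (by simpa using hx)))
  · have : (fun y => cutR r y * U y) =ᶠ[𝓝 x] fun _ => (0 : ℝ) := by
      filter_upwards [(isOpen_lt continuous_const continuous_norm).mem_nhds
        (show 2 * r < ‖x‖ by linarith [not_lt.1 hx])] with y hy
      rw [cutR_zero hr hy.le, zero_mul]
    exact contDiffAt_const.congr_of_eventuallyEq this

lemma eventuallyEq_cut_mul {r : ℝ} (hr : 0 < r) (U : Euc n → ℝ) {x : Euc n} (hx : ‖x‖ < r) :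
    (fun y => cutR r y * U y) =ᶠ[𝓝 x] U :=
  mem_of_superset ((isOpen_lt continuous_norm continuous_const).mem_nhds hx)
    fun y (hy : ‖y‖ < r) => by simp [cutR_one hr hy.le]

/-- Weak form of the equation for functions solving it on a ball. -/
lemma weak_on_ball {r ρ : ℝ} (hr : 0 < r) (hρ : 2 * r < ρ) {U f : Euc n → ℝ}
    (hU : ContDiffOn ℝ 2 U (Metric.ball 0 ρ))
    (he : ∀ x ∈ Metric.ball (0 : Euc n) ρ, -(Δ U x) = f x)
    {ψ : Euc n → ℝ} (hψ : ContDiff ℝ 2 ψ) (hψc : HasCompactSupport ψ)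
    (hs : tsupport ψ ⊆ Metric.ball 0 r) :
    ∫ x, U x * ∑ i, pd i (pd i ψ) x = -∫ x, f x * ψ x := by
  have hg := contDiff_cut_mul hr hρ hU
  have h := integral_mul_lap hψ hψc hg
  have e1 : ∀ x, ψ x * (∑ i, pd i (pd i fun y => cutR r y * U y) x) = -(f x * ψ x) := fun x => by
    by_cases hx : x ∈ tsupport ψ
    · have hxr : ‖x‖ < r := by simpa using hs hx
      rw [← laplacian_eq_sum hg.contDiffAt,
        (InnerProductSpace.laplacian_congr_nhds (eventuallyEq_cut_mul hr U hxr)).eq_of_nhds,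
        ← he x (by simp; linarith)]
      ring
    · simp [image_eq_zero_of_notMem_tsupport hx]
  have e2 : ∀ x, (cutR r x * U x) * (∑ i, pd i (pd i ψ) x) = U x * ∑ i, pd i (pd i ψ) x := by
    intro x
    by_cases hx : x ∈ tsupport ψ
    · have hxr : ‖x‖ < r := by simpa using hs hx
      rw [cutR_one hr hxr.le, one_mul]
    · have h0 : ∀ i, pd i (pd i ψ) x = 0 := fun i => image_eq_zero_of_notMem_tsupport
        fun h => hx (tsupport_fderiv_apply_subset ℝ (ev i)
          (tsupport_fderiv_apply_subset ℝ (ev i) h))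
      simp [h0]
  simp only [e1, e2] at h
  rw [← h, integral_neg]

/-- Interior Lipschitz bound for a solution on a ball. -/
lemma lipschitz_on_ball (hn : 3 ≤ n) {R : ℝ} (hR : 0 ≤ R) : ∃ L, 0 ≤ L ∧
    ∀ (U f : Euc n → ℝ) (ρ e : ℝ), 4 * R + 8 < ρ → ContDiffOn ℝ 2 U (Metric.ball 0 ρ) →
      (∀ x ∈ Metric.ball (0 : Euc n) ρ, -(Δ U x) = f x ∧ |U x| ≤ e ∧ |f x| ≤ e) →
      ∀ x ∈ Metric.closedBall (0 : Euc n) R, ∀ y ∈ Metric.closedBall (0 : Euc n) R,
        |U x - U y| ≤ L * e * ‖x - y‖ := by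
  obtain ⟨C, hC, hb⟩ := sup_bound hn R hR
  refine ⟨C, hC, fun U f ρ e hρ hU he x hx y hy => ?_⟩
  have hr : 0 < 2 * R + 4 := by linarith
  set g : Euc n → ℝ := fun z => cutR (2 * R + 4) z * U z with hgdef
  have hg : ContDiff ℝ 2 g := contDiff_cut_mul hr (by linarith) hU
  have hloc : ∀ z ∈ Metric.closedBall (0 : Euc n) (2 * R + 3), |g z| ≤ e ∧ |Δ g z| ≤ e := by
    intro z hz
    rw [Metric.mem_closedBall, dist_zero_right] at hz
    obtain ⟨h1, h2, h3⟩ := he z (by simp; linarith)
    rw [(InnerProductSpace.laplacian_congr_nhds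
      (eventuallyEq_cut_mul hr U (x := z) (by linarith))).eq_of_nhds, ← abs_neg (Δ U z), h1]
    exact ⟨by simp only [hgdef, cutR_one hr (show ‖z‖ ≤ 2 * R + 4 by linarith), one_mul]; exact h2,
      h3⟩
  have h := (convex_closedBall (0 : Euc n) R).norm_image_sub_le_of_norm_fderiv_le
    (fun z _ => hg.differentiable two_ne_zero z) (fun z hz => (hb g e hg hloc z hz).2) hy hx
  simp only [Metric.mem_closedBall, dist_zero_right] at hx hy
  simpa [hgdef, cutR_one hr (show ‖x‖ ≤ 2 * R + 4 by linarith),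
    cutR_one hr (show ‖y‖ ≤ 2 * R + 4 by linarith)] using h

/-- A continuous nonnegative weak supersolution is positive or identically zero. -/
lemma eq_zero_of_zero {u f : Euc n → ℝ} (hu : Continuous u) (h0 : ∀ x, 0 ≤ u x)
    (hf : ∀ x, 0 ≤ f x) (h : WeakSol u f) {x₀ : Euc n} (hx : u x₀ = 0) : ∀ x, u x = 0 := by
  by_contra hne
  push Not at hne
  obtain ⟨y, hy⟩ := hne
  set L := ‖x₀‖ + ‖y‖ + 1 with hL
  have hL0 : 0 < L := by rw [hL]; positivity
  obtain ⟨c, hc, hmv⟩ := mean_value n L hL0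
  have h1 := hmv u hu h0 (fun s x => by
    rw [h _ (contDiff_tb s x) (hasCompactSupport_tb s x), neg_nonpos]
    exact integral_nonneg fun z => mul_nonneg (hf z) (ppow_nonneg _ _)) x₀
    (by simp [hL]; linarith [norm_nonneg x₀, norm_nonneg y])
  rw [hx] at h1
  have hpos : 0 < ∫ z in Metric.closedBall (0 : Euc n) L, u z := by
    rw [setIntegral_pos_iff_support_of_nonneg_ae (Eventually.of_forall h0)
      (hu.continuousOn.integrableOn_compact (isCompact_closedBall _ _))]
    refine lt_of_lt_of_le ((hu.isOpen_support.inter Metric.isOpen_ball).measure_pos volume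
      ⟨y, hy, ?_⟩) (measure_mono (inter_subset_inter_right _ Metric.ball_subset_closedBall))
    simp [hL]; linarith [norm_nonneg x₀]
  nlinarith

/-- Scaling of positive constant coefficients to `1`. -/
lemma exists_scaled {p q a b : ℝ} (hpq : p * q ≠ 1) (ha : 0 < a) (hb : 0 < b) :
    ∃ c d : ℝ, 0 < c ∧ 0 < d ∧ c * a = d ^ p ∧ d * b = c ^ q := by
  have hne : 1 - p * q ≠ 0 := sub_ne_zero.2 (Ne.symm hpq)
  set t := (-Real.log b - q * Real.log a) / (1 - p * q) with ht
  refine ⟨Real.exp (p * t - Real.log a), Real.exp t, Real.exp_pos _, Real.exp_pos _, ?_, ?_⟩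
  · rw [← Real.exp_mul, Real.exp_sub, Real.exp_log ha, div_mul_cancel₀ _ ha.ne', mul_comm]
  · conv_lhs => rw [← Real.exp_log hb, ← Real.exp_add]
    rw [← Real.exp_mul, Real.exp_eq_exp]
    have : t * (1 - p * q) = -Real.log b - q * Real.log a := div_mul_cancel₀ _ hne
    linarith

/-- **The blow-up limit.** -/
theorem exists_solution_of_blowup (hn : 3 ≤ n) {p q : ℝ} (hp : 0 < p) (hq : 0 < q)
    (hpq : p * q ≠ 1) {ρ : ℕ → ℝ} (hρ : Tendsto ρ atTop atTop) {U V a b : ℕ → Euc n → ℝ}
    {K c₁ a₀ b₀ : ℝ} (ha₀ : 0 < a₀) (hb₀ : 0 < b₀)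
    (hU : ∀ k, ContDiffOn ℝ 2 (U k) (Metric.ball 0 (ρ k)))
    (hV : ∀ k, ContDiffOn ℝ 2 (V k) (Metric.ball 0 (ρ k)))
    (hbd : ∀ k, ∀ x ∈ Metric.ball (0 : Euc n) (ρ k),
      0 < U k x ∧ U k x ≤ K ∧ 0 < V k x ∧ V k x ≤ K)
    (heq : ∀ k, ∀ x ∈ Metric.ball (0 : Euc n) (ρ k),
      -(Δ (U k) x) = a k x * V k x ^ p ∧ -(Δ (V k) x) = b k x * U k x ^ q)
    (ha : ∀ R : ℝ, TendstoUniformlyOn a (fun _ => a₀) atTop (Metric.closedBall 0 R))
    (hb : ∀ R : ℝ, TendstoUniformlyOn b (fun _ => b₀) atTop (Metric.closedBall 0 R))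
    (hc₁ : 0 < c₁) (hlow : ∀ᶠ k in atTop, c₁ ≤ U k 0 + V k 0) :
    ∃ u v : Euc n → ℝ, IsPositiveEntireSolution p q u v := by
  set w : ℕ → Euc n → ℝ := fun k => (Metric.ball 0 (ρ k)).indicator (U k) with hw
  set z : ℕ → Euc n → ℝ := fun k => (Metric.ball 0 (ρ k)).indicator (V k) with hz
  have hbw : ∀ k x, 0 ≤ w k x ∧ w k x ≤ max K 0 ∧ 0 ≤ z k x ∧ z k x ≤ max K 0 := by
    intro k x
    by_cases hx : x ∈ Metric.ball (0 : Euc n) (ρ k)
    · simp only [hw, hz, indicator_of_mem hx]
      obtain ⟨h1, h2, h3, h4⟩ := hbd k x hx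
      exact ⟨h1.le, h2.trans (le_max_left _ _), h3.le, h4.trans (le_max_left _ _)⟩
    · simp [hw, hz, indicator_of_notMem hx]
  have hin : ∀ R : ℝ, ∀ᶠ k in atTop, R < ρ k := fun R => hρ.eventually (eventually_gt_atTop R)
  have hwU : ∀ k x, x ∈ Metric.ball (0 : Euc n) (ρ k) → w k x = U k x ∧ z k x = V k x :=
    fun k x hx => ⟨indicator_of_mem hx _, indicator_of_mem hx _⟩
  set E := max (max K 0) (max ((a₀ + 1) * max K 0 ^ p) ((b₀ + 1) * max K 0 ^ q)) with hE
  have hlip : ∀ R : ℝ, 0 ≤ R → ∃ L, 0 ≤ L ∧ ∀ᶠ k in atTop,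
      ∀ x ∈ Metric.closedBall (0 : Euc n) R, ∀ y ∈ Metric.closedBall (0 : Euc n) R,
        |w k x - w k y| ≤ L * ‖x - y‖ ∧ |z k x - z k y| ≤ L * ‖x - y‖ := by
    intro R hR
    obtain ⟨L, hL, hlb⟩ := lipschitz_on_ball hn hR
    refine ⟨L * E, mul_nonneg hL (le_max_of_le_left (le_max_right _ _)), ?_⟩
    set R' := 4 * R + 9 with hR'
    filter_upwards [hin R', Metric.tendstoUniformlyOn_iff.1 (ha R') 1 one_pos,
      Metric.tendstoUniformlyOn_iff.1 (hb R') 1 one_pos] with k hk ha1 hb1 x hx y hy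
    have hsub : Metric.ball (0 : Euc n) R' ⊆ Metric.ball 0 (ρ k) :=
      Metric.ball_subset_ball hk.le
    have hd : ∀ s ∈ Metric.ball (0 : Euc n) R',
        |a k s * V k s ^ p| ≤ E ∧ |b k s * U k s ^ q| ≤ E := by
      intro s hs
      obtain ⟨h1, h2, h3, h4⟩ := hbd k s (hsub hs)
      have e1 := ha1 s (Metric.ball_subset_closedBall hs)
      have e2 := hb1 s (Metric.ball_subset_closedBall hs)
      rw [Real.dist_eq, abs_lt] at e1 e2
      constructor
      · refine le_max_of_le_right (le_max_of_le_left ?_)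
        rw [abs_mul, abs_of_nonneg (Real.rpow_nonneg h3.le p)]
        exact mul_le_mul (abs_le.2 ⟨by linarith, by linarith⟩)
          (Real.rpow_le_rpow h3.le (h4.trans (le_max_left _ _)) hp.le)
          (Real.rpow_nonneg h3.le _) (by linarith)
      · refine le_max_of_le_right (le_max_of_le_right ?_)
        rw [abs_mul, abs_of_nonneg (Real.rpow_nonneg h1.le q)]
        exact mul_le_mul (abs_le.2 ⟨by linarith, by linarith⟩)
          (Real.rpow_le_rpow h1.le (h2.trans (le_max_left _ _)) hq.le)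
          (Real.rpow_nonneg h1.le _) (by linarith)
    have hxy : x ∈ Metric.ball (0 : Euc n) (ρ k) ∧ y ∈ Metric.ball (0 : Euc n) (ρ k) := by
      simp only [Metric.mem_ball, Metric.mem_closedBall, dist_zero_right] at hx hy ⊢
      constructor <;> linarith
    rw [(hwU k x hxy.1).1, (hwU k x hxy.1).2, (hwU k y hxy.2).1, (hwU k y hxy.2).2]
    constructor
    · refine hlb (U k) (fun s => a k s * V k s ^ p) R' E (by linarith) ((hU k).mono hsub)
        (fun s hs => ⟨(heq k s (hsub hs)).1, ?_, (hd s hs).1⟩) x hx y hy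
      obtain ⟨h1, h2, -, -⟩ := hbd k s (hsub hs)
      rw [abs_of_pos h1]
      exact h2.trans ((le_max_left _ _).trans (le_max_left _ _))
    · refine hlb (V k) (fun s => b k s * U k s ^ q) R' E (by linarith) ((hV k).mono hsub)
        (fun s hs => ⟨(heq k s (hsub hs)).2, ?_, (hd s hs).2⟩) x hx y hy
      obtain ⟨-, -, h1, h2⟩ := hbd k s (hsub hs)
      rw [abs_of_pos h1]
      exact h2.trans ((le_max_left _ _).trans (le_max_left _ _))
  obtain ⟨φ, hφ, u, huc, hu⟩ := exists_subseq (w := w) (K := max K 0)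
    (fun k x => by rw [abs_of_nonneg (hbw k x).1]; exact (hbw k x).2.1) fun R hR => by
      obtain ⟨L, hL, h⟩ := hlip R hR
      exact ⟨L, hL, h.mono fun k hk x hx y hy => (hk x hx y hy).1⟩
  obtain ⟨φ', hφ', v, hvc, hv⟩ := exists_subseq (w := fun k => z (φ k)) (K := max K 0)
    (fun k x => by rw [abs_of_nonneg (hbw _ x).2.2.1]; exact (hbw _ x).2.2.2) fun R hR => by
      obtain ⟨L, hL, h⟩ := hlip R hR
      exact ⟨L, hL, ((hφ.tendsto_atTop).eventually h).mono fun k hk x hx y hy => (hk x hx y hy).2⟩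
  set ι : ℕ → ℕ := fun k => φ (φ' k) with hι
  have hιt : Tendsto ι atTop atTop := (hφ.comp hφ').tendsto_atTop
  have hu' : ∀ x, Tendsto (fun k => w (ι k) x) atTop (𝓝 (u x)) := fun x =>
    ((hu ‖x‖ (norm_nonneg x)).tendsto_at (by simp)).comp hφ'.tendsto_atTop
  have hv' : ∀ x, Tendsto (fun k => z (ι k) x) atTop (𝓝 (v x)) := fun x =>
    (hv ‖x‖ (norm_nonneg x)).tendsto_at (by simp)
  have hu0 : ∀ x, 0 ≤ u x := fun x =>
    ge_of_tendsto (hu' x) (Eventually.of_forall fun k => (hbw _ x).1)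
  have hv0 : ∀ x, 0 ≤ v x := fun x =>
    ge_of_tendsto (hv' x) (Eventually.of_forall fun k => (hbw _ x).2.2.1)
  have weak : ∀ {r c₀ : ℝ}, 0 < r → 0 < c₀ → ∀ {W Z : ℕ → Euc n → ℝ} {c : ℕ → Euc n → ℝ}
      {g h : Euc n → ℝ}, (∀ k, ContDiffOn ℝ 2 (W k) (Metric.ball 0 (ρ k))) →
      (∀ k, ∀ x ∈ Metric.ball (0 : Euc n) (ρ k), -(Δ (W k) x) = c k x * Z k x ^ r ∧
        0 < W k x ∧ W k x ≤ K ∧ 0 < Z k x ∧ Z k x ≤ K) →
      (∀ R : ℝ, TendstoUniformlyOn c (fun _ => c₀) atTop (Metric.closedBall 0 R)) →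
      (∀ x, Tendsto (fun k => (Metric.ball 0 (ρ (ι k))).indicator (W (ι k)) x) atTop (𝓝 (g x))) →
      (∀ x, Tendsto (fun k => (Metric.ball 0 (ρ (ι k))).indicator (Z (ι k)) x) atTop (𝓝 (h x))) →
      Continuous h → WeakSol g (fun x => c₀ * h x ^ r) := by
    intro r c₀ hr hc₀ W Z c g h hW hWe hc hg hh hhc ψ hψ hψc
    obtain ⟨S, hS⟩ := hψc.isCompact.isBounded.subset_ball 0
    set R := max S 1 with hR
    have hR1 : 0 < R := lt_of_lt_of_le one_pos (le_max_right _ _)
    have hsub : tsupport ψ ⊆ Metric.ball 0 R :=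
      hS.trans (Metric.ball_subset_ball (le_max_left _ _))
    have hev : ∀ᶠ k in atTop, 2 * R < ρ (ι k) ∧
        ∀ s ∈ Metric.closedBall (0 : Euc n) R, |c (ι k) s| ≤ c₀ + 1 := by
      refine (hιt.eventually (hin (2 * R))).and ((hιt.eventually
        (Metric.tendstoUniformlyOn_iff.1 (hc R) 1 one_pos)).mono fun k hk s hs => ?_)
      have := hk s hs
      rw [Real.dist_eq, abs_lt] at this
      exact abs_le.2 ⟨by linarith, by linarith⟩
    set W' := fun k => (Metric.ball 0 (ρ (ι k))).indicator (W (ι k))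
    set Z' := fun k => (Metric.ball 0 (ρ (ι k))).indicator (Z (ι k))
    set Q : Euc n → ℝ := fun x => ∑ i, pd i (pd i ψ) x with hQ
    have hQc : Continuous Q :=
      continuous_finsetSum _ fun i _ => continuous_pd (contDiff_pd hψ i) i
    have hQ0 : ∀ x, x ∉ tsupport ψ → Q x = 0 := fun x hx => by
      refine Finset.sum_eq_zero fun i _ => image_eq_zero_of_notMem_tsupport
        fun h => hx (tsupport_fderiv_apply_subset ℝ (ev i)
          (tsupport_fderiv_apply_subset ℝ (ev i) h))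
    have hball : ∀ k, 2 * R < ρ (ι k) → ∀ x ∈ tsupport ψ, x ∈ Metric.ball (0 : Euc n) (ρ (ι k)) :=
      fun k hk x hx => Metric.ball_subset_ball (by linarith) (hsub hx)
    have hid : ∀ᶠ k in atTop, ∫ x, W' k x * Q x
        = -∫ x, (tsupport ψ).indicator (fun x => c (ι k) x * Z' k x ^ r) x * ψ x := by
      filter_upwards [hev] with k ⟨hk, _⟩
      have hw := weak_on_ball hR1 hk (hW (ι k))
        (f := fun x => c (ι k) x * Z (ι k) x ^ r) (fun x hx => (hWe _ x hx).1) hψ hψc hsub
      refine (integral_congr_ae (Eventually.of_forall fun x => ?_)).trans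
        (hw.trans (congrArg Neg.neg (integral_congr_ae (Eventually.of_forall fun x => ?_))))
      · by_cases hx : x ∈ tsupport ψ
        · simp only [W', indicator_of_mem (hball k hk x hx), hQ]
        · rw [show (∑ i, pd i (pd i ψ) x) = 0 from hQ0 x hx, mul_zero, hQ0 x hx, mul_zero]
      · by_cases hx : x ∈ tsupport ψ
        · simp [Z', indicator_of_mem hx, indicator_of_mem (hball k hk x hx)]
        · simp [image_eq_zero_of_notMem_tsupport hx]
    have hl : Tendsto (fun k => ∫ x, W' k x * Q x) atTop (𝓝 (∫ x, g x * Q x)) := by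
      refine tendsto_integral_filter_of_dominated_convergence (fun x => max K 0 * |Q x|) ?_ ?_ ?_
        (Eventually.of_forall fun x => (hg x).mul_const _)
      · filter_upwards [hev] with k ⟨hk, _⟩
        have hm : AEStronglyMeasurable (W' k) volume :=
          (aestronglyMeasurable_indicator_iff measurableSet_ball).2
            ((hW _).continuousOn.aestronglyMeasurable measurableSet_ball)
        exact hm.mul hQc.aestronglyMeasurable
      · refine Eventually.of_forall fun k => Eventually.of_forall fun x => ?_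
        rw [Real.norm_eq_abs, abs_mul]
        refine mul_le_mul_of_nonneg_right ?_ (abs_nonneg _)
        by_cases hx : x ∈ Metric.ball (0 : Euc n) (ρ (ι k))
        · obtain ⟨-, h1, h2, -, -⟩ := hWe _ x hx
          simp only [W', indicator_of_mem hx, abs_of_pos h1]
          exact h2.trans (le_max_left _ _)
        · simp [W', indicator_of_notMem hx]
      · exact (hQc.abs.const_mul _).integrable_of_hasCompactSupport
          ((HasCompactSupport.intro hψc fun x hx => by simp [hQ0 x hx]).mul_left)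
    have hrt : Tendsto (fun k => -∫ x, (tsupport ψ).indicator
        (fun x => c (ι k) x * Z' k x ^ r) x * ψ x) atTop
        (𝓝 (-∫ x, c₀ * h x ^ r * ψ x)) := by
      refine (tendsto_integral_filter_of_dominated_convergence
        (fun x => (c₀ + 1) * max K 0 ^ r * |ψ x|) ?_ ?_ ?_ ?_).neg
      · filter_upwards [hev] with k ⟨hk, _⟩
        refine AEStronglyMeasurable.mul ((aestronglyMeasurable_indicator_iff
          (isClosed_tsupport _).measurableSet).2 ?_) hψ.continuous.aestronglyMeasurable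
        refine (ContinuousOn.congr (f := fun x => -(Δ (W (ι k)) x)) ?_
          fun x hx => ?_).aestronglyMeasurable (isClosed_tsupport _).measurableSet
        · have hg2 := contDiff_cut_mul hR1 hk (hW (ι k))
          have hc2 : ContinuousOn (fun x => ∑ i, pd i (pd i fun y => cutR R y * W (ι k) y) x)
              (tsupport ψ) := (continuous_finsetSum Finset.univ fun i _ =>
              continuous_pd (contDiff_pd hg2 i) i).continuousOn
          refine (hc2.congr fun x hx => ?_).neg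
          have hxr : ‖x‖ < R := by simpa using hsub hx
          rw [← (InnerProductSpace.laplacian_congr_nhds
            (eventuallyEq_cut_mul hR1 (W (ι k)) hxr)).eq_of_nhds, laplacian_eq_sum hg2.contDiffAt]
        · simp only [Z', indicator_of_mem (hball k hk x hx)]
          exact ((hWe _ x (hball k hk x hx)).1).symm
      · filter_upwards [hev] with k ⟨hk, hk1⟩
        refine Eventually.of_forall fun x => ?_
        rw [Real.norm_eq_abs, abs_mul]
        refine mul_le_mul_of_nonneg_right ?_ (abs_nonneg _)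
        by_cases hx : x ∈ tsupport ψ
        · obtain ⟨-, -, -, h1, h2⟩ := hWe _ x (hball k hk x hx)
          simp only [Z', indicator_of_mem hx, indicator_of_mem (hball k hk x hx), abs_mul,
            abs_of_nonneg (Real.rpow_nonneg h1.le r)]
          exact mul_le_mul (hk1 x (Metric.ball_subset_closedBall (hsub hx)))
            (Real.rpow_le_rpow h1.le (h2.trans (le_max_left _ _)) hr.le)
            (Real.rpow_nonneg h1.le _) (by linarith)
        · simp only [indicator_of_notMem hx, abs_zero]; positivity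
      · exact (hψ.continuous.abs.const_mul _).integrable_of_hasCompactSupport
          ((hψc.comp_left abs_zero).mul_left)
      · refine Eventually.of_forall fun x => ?_
        by_cases hx : x ∈ tsupport ψ
        · simp only [indicator_of_mem hx]
          refine ((Tendsto.comp ((hc R).tendsto_at (Metric.ball_subset_closedBall (hsub hx)))
            hιt).mul ?_).mul_const _
          exact (hh x).rpow_const (Or.inr hr.le)
        · simp [image_eq_zero_of_notMem_tsupport hx]
    exact tendsto_nhds_unique (hl.congr' hid) hrt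
  have hwu : WeakSol u (fun x => a₀ * v x ^ p) :=
    weak hp ha₀ hU (fun k x hx => ⟨(heq k x hx).1, hbd k x hx⟩) ha hu' hv' hvc
  have hwv : WeakSol v (fun x => b₀ * u x ^ q) :=
    weak hq hb₀ hV (fun k x hx => ⟨(heq k x hx).2, (hbd k x hx).2.2.1, (hbd k x hx).2.2.2,
      (hbd k x hx).1, (hbd k x hx).2.1⟩) hb hv' hu' huc
  have vanish : ∀ {g h : Euc n → ℝ} {c₀ r : ℝ}, 0 < c₀ → 0 < r → Continuous h → (∀ x, 0 ≤ h x) →
      WeakSol g (fun x => c₀ * h x ^ r) → (∀ x, g x = 0) → ∀ x, h x = 0 := by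
    intro g h c₀ r hc₀ hr hhc hh0 hw hg x
    by_contra hne
    have h1 := hw _ (contDiff_tb 1 x) (hasCompactSupport_tb 1 x)
    simp only [hg, zero_mul, integral_zero] at h1
    have hcont : Continuous fun z => c₀ * h z ^ r * tb 1 x z :=
      ((hhc.rpow_const fun _ => Or.inr hr.le).const_mul _).mul (contDiff_tb _ _).continuous
    have hpos : 0 < ∫ z, c₀ * h z ^ r * tb 1 x z := by
      refine hcont.integral_pos_of_hasCompactSupport_nonneg_nonzero
        (hasCompactSupport_tb _ _).mul_left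
        (fun z => mul_nonneg (mul_nonneg hc₀.le (Real.rpow_nonneg (hh0 z) _)) (ppow_nonneg _ _))
        (x := x) ?_
      have := Real.rpow_pos_of_pos (lt_of_le_of_ne (hh0 x) (Ne.symm hne)) r
      simp [tb, ppow]
      exact ⟨hc₀.ne', this.ne'⟩
    linarith
  have hsum : c₁ ≤ u 0 + v 0 := by
    refine ge_of_tendsto ((hu' 0).add (hv' 0)) ?_
    filter_upwards [hιt.eventually hlow, hιt.eventually (hin 0)] with k hk hk0
    rw [(hwU _ 0 (by simpa using hk0)).1, (hwU _ 0 (by simpa using hk0)).2]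
    exact hk
  have hfu : ∀ x, 0 ≤ a₀ * v x ^ p := fun x => mul_nonneg ha₀.le (Real.rpow_nonneg (hv0 x) _)
  have hfv : ∀ x, 0 ≤ b₀ * u x ^ q := fun x => mul_nonneg hb₀.le (Real.rpow_nonneg (hu0 x) _)
  have hup : ∀ x, 0 < u x := fun x => (hu0 x).lt_of_ne fun hx => by
    have h1 := eq_zero_of_zero huc hu0 hfu hwu hx.symm
    have h2 := vanish ha₀ hp hvc hv0 hwu h1
    linarith [h1 0, h2 0]
  have hvp : ∀ x, 0 < v x := fun x => (hv0 x).lt_of_ne fun hx => by
    have h1 := eq_zero_of_zero hvc hv0 hfv hwv hx.symm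
    have h2 := vanish hb₀ hq huc hu0 hwv h1
    linarith [h1 0, h2 0]
  have hu1 := contDiff_one_of_weakSol hn huc
    ((hvc.rpow_const fun _ => Or.inr hp.le).const_mul a₀) hwu
  have hv1 := contDiff_one_of_weakSol hn hvc
    ((huc.rpow_const fun _ => Or.inr hq.le).const_mul b₀) hwv
  obtain ⟨hu2, equ⟩ := contDiff_two_of_weakSol hn huc
    (contDiff_const.mul (hv1.rpow_const_of_ne fun x => (hvp x).ne')) hwu
  obtain ⟨hv2, eqv⟩ := contDiff_two_of_weakSol hn hvc
    (contDiff_const.mul (hu1.rpow_const_of_ne fun x => (hup x).ne')) hwv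
  obtain ⟨c, d, hc, hd, e1, e2⟩ := exists_scaled hpq ha₀ hb₀
  refine ⟨fun x => c * u x, fun x => d * v x, huc.const_mul c, hvc.const_mul d,
    (contDiff_const.mul hu2).contDiffOn, (contDiff_const.mul hv2).contDiffOn, fun x => mul_pos hc (hup x),
    fun x => mul_pos hd (hvp x), fun x _ => ?_⟩
  rw [Real.mul_rpow hd.le (hvp x).le, Real.mul_rpow hc.le (hup x).le, ← e1, ← e2, mul_assoc,
    mul_assoc, ← equ x, ← eqv x, show (fun x => c * u x) = c • u from rfl,
    show (fun x => d * v x) = d • v from rfl, InnerProductSpace.laplacian_smul c hu2.contDiffAt,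
    InnerProductSpace.laplacian_smul d hv2.contDiffAt]
  simp only [smul_eq_mul]
  constructor <;> ring

end Vale.Agent.P100W
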