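import Vale.Agent.P100W.Souplet

/-!
Nonpositive weights and the unweighted system in every dimension at least three.
-/

noncomputable section

namespace Vale.Agent.P100W

open Vale.Agent.P100

/-- In dimensions three and four nonpositive weights imply the feedback condition. -/
lemma souplet_cond_of_nonpos {N A B p q : ℝ} (hN : 3 ≤ N) (hN4 : N ≤ 4) (hp : 0 < p) (hq : 0 < q)
    (hpq : 1 < p * q) (hA : A ≤ 0) (hB : B ≤ 0)
    (hsub : N - 2 < (N + A) / (p + 1) + (N + B) / (q + 1)) :
    (N - 3) * (p * q - 1) < 2 * (max p q + 1) := by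
  have h : N - 2 < N / (p + 1) + N / (q + 1) :=
    hsub.trans_le (add_le_add (div_le_div_of_nonneg_right (by linarith) (by linarith))
      (div_le_div_of_nonneg_right (by linarith) (by linarith)))
  rw [div_add_div _ _ (by linarith) (by linarith), lt_div_iff₀ (by positivity)] at h
  have h1 : (N - 2) * (p * q - 1) < 4 * (max p q + 1) := by
    nlinarith [le_max_left p q, le_max_right p q]
  nlinarith [mul_nonneg (show (0 : ℝ) ≤ 4 - N by linarith) (sub_pos.2 hpq).le]

/-- No solution for nonpositive weights in the subcritical range, in every dimension at least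
three. -/
theorem no_solution_nonpos_three {n : ℕ} (hn : 3 ≤ n) {A B p q : ℝ} (hp : 0 < p) (hq : 0 < q)
    (hA : A ≤ 0) (hB : B ≤ 0)
    (hsub : (n : ℝ) - 2 < ((n : ℝ) + A) / (p + 1) + ((n : ℝ) + B) / (q + 1)) :
    ¬ ∃ u v : Euc n → ℝ, IsWeightedSolution A B p q u v := by
  rcases le_or_gt 5 n with h5 | h5
  · exact no_solution_nonpos h5 hp hq hA hB hsub
  rcases le_or_gt (p * q) 1 with hpq | hpq
  · exact no_solution_elementary hn hp hq (Or.inr (Or.inr hpq))
  exact no_solution_souplet hn hp hq hsub (souplet_cond_of_nonpos (by exact_mod_cast hn)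
    (by exact_mod_cast (show n ≤ 4 by omega)) hp hq hpq hA hB hsub)

/-- The Lane–Emden conjecture in every dimension at least three. -/
theorem no_solution_lane_emden {n : ℕ} (hn : 3 ≤ n) {p q : ℝ} (hp : 0 < p) (hq : 0 < q)
    (hsub : ((n : ℝ) - 2) / n < 1 / (p + 1) + 1 / (q + 1)) :
    ¬ ∃ u v : Euc n → ℝ, IsPositiveEntireSolution p q u v := by
  rintro ⟨u, v, hs⟩
  have hn0 : (0 : ℝ) < n := by exact_mod_cast (show 0 < n by omega)
  refine no_solution_nonpos_three hn hp hq le_rfl le_rfl ?_
    ⟨u, v, weighted_zero.2 hs⟩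
  rw [add_zero]
  rw [div_lt_iff₀ hn0] at hsub
  calc (n : ℝ) - 2 < (1 / (p + 1) + 1 / (q + 1)) * n := hsub
    _ = _ := by ring

end Vale.Agent.P100W
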