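import Vale.Agent.P100C.Apriori

/-!
Regularity of continuous weak solutions of `-Δ u = f` on `ℝ^n`, `n ≥ 3`: `C¹` for continuous `f`
and `C²` for `f` of class `C¹`. The mollifications form Cauchy sequences by the local potential
bound applied to their differences.
-/

open MeasureTheory Filter Topology Laplacian Set ContinuousLinearMap
open scoped ContDiff Convolution

noncomputable section

namespace Vale.Agent.P100W

open Vale.Agent.P100 Vale.Agent.P100C

variable {n : ℕ}

/-- `u` solves `-Δ u = f` weakly on the whole space. -/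
def WeakSol (u f : Euc n → ℝ) : Prop :=
  ∀ ψ : Euc n → ℝ, ContDiff ℝ 2 ψ → HasCompactSupport ψ →
    ∫ x, u x * ∑ i, pd i (pd i ψ) x = -∫ x, f x * ψ x

/-- The `k`-th bump. -/
def bump (k : ℕ) : ContDiffBump (0 : Euc n) :=
  ⟨1 / (2 * ((k : ℝ) + 1)), 1 / ((k : ℝ) + 1), by positivity,
    one_div_lt_one_div_of_lt (by positivity) (by linarith [k.cast_nonneg (α := ℝ)])⟩

/-- Mollification. -/
def moll (k : ℕ) (g : Euc n → ℝ) : Euc n → ℝ :=
  (bump k).normed volume ⋆[lsmul ℝ ℝ, volume] g

lemma contDiff_bump (k : ℕ) {m : ℕ∞} : ContDiff ℝ m ((bump (n := n) k).normed volume) :=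
  (bump k).contDiff_normed

lemma compact_bump (k : ℕ) : HasCompactSupport ((bump (n := n) k).normed volume) :=
  (bump k).hasCompactSupport_normed

lemma contDiff_moll (k : ℕ) {g : Euc n → ℝ} (hg : Continuous g) (m : ℕ∞) :
    ContDiff ℝ m (moll k g) :=
  (compact_bump k).contDiff_convolution_left _ (contDiff_bump k) hg.locallyIntegrable

lemma conv_apply (φ g : Euc n → ℝ) (x : Euc n) :
    (φ ⋆[lsmul ℝ ℝ, volume] g) x = ∫ t, φ (x - t) * g t := by
  rw [convolution_eq_swap]
  simp

lemma pd_conv {φ g : Euc n → ℝ} (hφ : ContDiff ℝ 1 φ) (hc : HasCompactSupport φ)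
    (hg : Continuous g) (i : Fin n) :
    pd i (φ ⋆[lsmul ℝ ℝ, volume] g) = pd i φ ⋆[lsmul ℝ ℝ, volume] g := by
  funext x
  have h := hc.hasFDerivAt_convolution_left (lsmul ℝ ℝ) (μ := volume) hφ hg.locallyIntegrable x
  simp only [pd, h.fderiv, convolution_def]
  rw [ContinuousLinearMap.integral_apply]
  · simp [pd]
  · exact ((hc.fderiv ℝ).convolutionExists_left _ (hφ.continuous_fderiv one_ne_zero)
      hg.locallyIntegrable x).integrable

lemma pd_reflect {φ : Euc n → ℝ} (hφ : Differentiable ℝ φ) (x : Euc n) (i : Fin n) :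
    pd i (fun t => φ (x - t)) = fun t => -pd i φ (x - t) := by
  funext t
  have h := (hφ (x - t)).hasFDerivAt.comp t ((hasFDerivAt_id t).const_sub x)
  simp only [pd, show (fun t => φ (x - t)) = φ ∘ fun t => x - t from rfl, h.fderiv]
  simp

lemma compact_reflect {φ : Euc n → ℝ} (hc : HasCompactSupport φ) (x : Euc n) :
    HasCompactSupport fun t => φ (x - t) :=
  hc.comp_homeomorph (Homeomorph.subLeft x)

lemma pd_moll_C1 (k : ℕ) {g : Euc n → ℝ} (hg : ContDiff ℝ 1 g) (i : Fin n) :
    pd i (moll k g) = moll k (pd i g) := by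
  funext x
  rw [moll, pd_conv (contDiff_bump k) (compact_bump k) hg.continuous, moll, conv_apply, conv_apply]
  set φ := (bump (n := n) k).normed volume
  have hφ : ContDiff ℝ 1 φ := contDiff_bump k
  have hr : ContDiff ℝ 1 fun t => φ (x - t) := hφ.comp (contDiff_const.sub contDiff_id)
  have h := integral_pd_mul hr (compact_reflect (compact_bump k) x) hg i
  rw [h, pd_reflect (hφ.differentiable one_ne_zero), ← integral_neg]
  exact integral_congr_ae (Eventually.of_forall fun t => by simp)

lemma sum_pd_pd_moll {u f : Euc n → ℝ} (hu : Continuous u) (h : WeakSol u f) (k : ℕ) (x : Euc n) :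
    ∑ i, pd i (pd i (moll k u)) x = -moll k f x := by
  set φ := (bump (n := n) k).normed volume
  have hφ : ContDiff ℝ 2 φ := contDiff_bump k
  have hφc : HasCompactSupport φ := compact_bump k
  have hd : ∀ i, ContDiff ℝ 1 (pd i φ) := fun i => contDiff_pd hφ i
  have e : ∀ i, pd i (pd i (moll k u)) x = ∫ t, pd i (pd i φ) (x - t) * u t := fun i => by
    rw [moll, pd_conv (hφ.of_le one_le_two) hφc hu,
      pd_conv (hd i) (hasCompactSupport_pd hφc i) hu, conv_apply]
  have hw := h (fun t => φ (x - t)) (hφ.comp (contDiff_const.sub contDiff_id))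
    (compact_reflect hφc x)
  have e2 : ∀ t, ∑ i, pd i (pd i fun t => φ (x - t)) t = ∑ i, pd i (pd i φ) (x - t) := fun t => by
    refine Finset.sum_congr rfl fun i _ => ?_
    rw [pd_reflect (hφ.differentiable two_ne_zero),
      show (fun t => -pd i φ (x - t)) = fun t => (fun y => -pd i φ y) (x - t) from rfl,
      pd_reflect ((hd i).neg.differentiable one_ne_zero)]
    simp [pd, fderiv_fun_neg]
    rfl
  simp only [e2] at hw
  simp only [e]
  rw [← integral_finsetSum _ fun i _ => ?_]
  · rw [moll, conv_apply]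
    calc ∫ t, ∑ i, pd i (pd i φ) (x - t) * u t = ∫ t, u t * ∑ i, pd i (pd i φ) (x - t) :=
          integral_congr_ae (Eventually.of_forall fun t => by simp [Finset.mul_sum, mul_comm])
      _ = _ := hw.trans (by simp only [mul_comm]; rfl)
  · exact (((continuous_pd (hd i) i).comp (continuous_const.sub continuous_id)).mul
      hu).integrable_of_hasCompactSupport
      ((compact_reflect (hasCompactSupport_pd (hasCompactSupport_pd hφc i) i) x).mul_right)

lemma tendsto_moll {g : Euc n → ℝ} (hg : Continuous g) (R : ℝ) :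
    TendstoUniformlyOn (fun k => moll k g) g atTop (Metric.closedBall 0 R) := by
  rw [Metric.tendstoUniformlyOn_iff]
  intro e he
  obtain ⟨d, hd, hdd⟩ := Metric.uniformContinuousOn_iff.1
    ((isCompact_closedBall (0 : Euc n) (R + 1)).uniformContinuousOn_of_continuous hg.continuousOn)
    (e / 2) (by linarith)
  obtain ⟨K, hK⟩ := exists_nat_gt (1 / d)
  filter_upwards [eventually_ge_atTop K] with k hk x hx
  have hr : 1 / ((k : ℝ) + 1) < d := by
    rw [one_div_lt (by positivity) hd]
    have : (K : ℝ) ≤ k := by exact_mod_cast hk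
    linarith
  have hr1 : 1 / ((k : ℝ) + 1) ≤ 1 := by
    rw [div_le_one (by positivity)]; linarith [k.cast_nonneg (α := ℝ)]
  rw [dist_comm]
  refine lt_of_le_of_lt ((bump k).dist_normed_convolution_le hg.aestronglyMeasurable
    fun y hy => (hdd y ?_ x ?_ ?_).le) (half_lt_self he)
  · rw [Metric.mem_closedBall, dist_zero_right]
    rw [Metric.mem_ball, dist_eq_norm] at hy
    rw [Metric.mem_closedBall, dist_zero_right] at hx
    have := norm_le_norm_add_norm_sub' y x
    simp only [bump] at hy
    linarith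
  · exact Metric.closedBall_subset_closedBall (by linarith) hx
  · exact lt_of_lt_of_le (Metric.mem_ball.1 hy) hr.le

/-- Bound of a `C²` function and its gradient by the suprema of the function and its Laplacian. -/
theorem sup_bound (hn : 3 ≤ n) (R : ℝ) (hR : 0 ≤ R) :
    ∃ C : ℝ, 0 ≤ C ∧ ∀ (w : Euc n → ℝ) (e : ℝ), ContDiff ℝ 2 w →
      (∀ y ∈ Metric.closedBall (0 : Euc n) (2 * R + 3), |w y| ≤ e ∧ |Δ w y| ≤ e) →
      ∀ x ∈ Metric.closedBall (0 : Euc n) R, |w x| ≤ C * e ∧ ‖fderiv ℝ w x‖ ≤ C * e := by
  obtain ⟨C, hC, hpot⟩ := local_potential hn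
  set S := 2 * R + 3 with hS
  set r := R + 1 with hr
  set χ := radial (n := n) (-(1 / r ^ 2)) 2 with hχ
  have hr0 : 0 < r := by rw [hr]; linarith
  have hχ2 : ContDiff ℝ 2 χ := contDiff_radial _ _
  have hχs : tsupport χ ⊆ Metric.closedBall (0 : Euc n) S := by
    refine closure_minimal (fun z hz => ?_) Metric.isClosed_closedBall
    rw [Metric.mem_closedBall, dist_zero_right]
    by_contra h
    refine hz (Real.smoothTransition.zero_of_nonpos ?_)
    have : 2 ≤ 1 / r ^ 2 * ‖z‖ ^ 2 := by
      rw [div_mul_eq_mul_div, le_div_iff₀ (by positivity)]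
      rw [hS] at h; nlinarith [hr]
    linarith
  have hχc : HasCompactSupport χ :=
    (isCompact_closedBall _ _).of_isClosed_subset (isClosed_tsupport _) hχs
  have hone : ∀ x ∈ Metric.closedBall (0 : Euc n) R, ∀ y ∈ Metric.ball x 1, χ y = 1 := by
    intro x hx y hy
    refine Real.smoothTransition.one_of_one_le ?_
    rw [Metric.mem_closedBall, dist_zero_right] at hx
    rw [Metric.mem_ball, dist_eq_norm] at hy
    have hy' : ‖y‖ ≤ r := by rw [hr]; linarith [norm_le_norm_add_norm_sub' y x]
    have : 1 / r ^ 2 * ‖y‖ ^ 2 ≤ 1 := by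
      rw [div_mul_eq_mul_div, one_mul, div_le_one (by positivity)]
      exact pow_le_pow_left₀ (norm_nonneg y) hy' 2
    linarith
  obtain ⟨M0, hM0⟩ := (hχc.fderiv ℝ).exists_bound_of_continuous
    (hχ2.continuous_fderiv two_ne_zero)
  have hl : Continuous (Δ χ) := by
    rw [show Δ χ = fun y => ∑ i, pd i (pd i χ) y from
      funext fun y => laplacian_eq_sum hχ2.contDiffAt]
    exact continuous_finsetSum _ fun i _ => continuous_pd (contDiff_pd hχ2 i) i
  obtain ⟨M1, hM1⟩ := (hχc.isCompact).exists_bound_of_continuousOn hl.continuousOn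
  set M := max 1 (max M0 M1) with hM
  have hM1' : 1 ≤ M := le_max_left _ _
  have hder : ∀ y, ‖fderiv ℝ χ y‖ ≤ M ∧ |Δ χ y| ≤ M ^ 2 := by
    intro y
    refine ⟨(hM0 y).trans ((le_max_left _ _).trans (le_max_right _ _)), ?_⟩
    have hMM : M ≤ M ^ 2 := le_self_pow₀ hM1' two_ne_zero
    by_cases hy : y ∈ tsupport χ
    · exact ((hM1 y hy).trans ((le_max_right _ _).trans (le_max_right _ _))).trans hMM
    · have : χ =ᶠ[𝓝 y] fun _ => (0 : ℝ) := notMem_tsupport_iff_eventuallyEq.1 hy
      rw [(InnerProductSpace.laplacian_congr_nhds this).eq_of_nhds,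
        laplacian_eq_sum contDiffAt_const]
      have hz : ∀ i : Fin n, pd i (fun _ : Euc n => (0 : ℝ)) = fun _ => 0 := fun i => funext fun z => by simp [pd]
      simp only [hz]
      simp; positivity
  set J : ℕ → ℝ := fun m => ∫ z in Metric.closedBall (0 : Euc n) (S + R), (‖z‖ ^ m)⁻¹ with hJ
  have hJint : ∀ m, m < n →
      IntegrableOn (fun z : Euc n => (‖z‖ ^ m)⁻¹) (Metric.closedBall (0 : Euc n) (S + R)) := by
    intro m hm
    simpa using integrableOn_kernel_mul hm (0 : Euc n) (g := fun _ => (1 : ℝ)) continuous_const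
      (isCompact_closedBall (0 : Euc n) (S + R))
  set V := volume.real (Metric.closedBall (0 : Euc n) S)
  have hJ0 : ∀ m, 0 ≤ J m := fun m => integral_nonneg fun z => by positivity
  refine ⟨C * (J (n - 2) + J (n - 1) + M ^ 2 * V), mul_nonneg hC (add_nonneg (add_nonneg (hJ0 _)
    (hJ0 _)) (by positivity)), fun w e hw he x hx => ?_⟩
  have he0 : 0 ≤ e := (abs_nonneg _).trans
    (he 0 (Metric.mem_closedBall_self (by rw [hS]; linarith))).1
  obtain ⟨h1, h2⟩ := hpot w χ hw hχ2 hχc (fun y => radial_mem _ _ y) x 1 M one_pos le_rfl hM1' hder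
    (hone x hx)
  have hk : ∀ m, m < n → (∫ y in tsupport χ, (‖x - y‖ ^ m)⁻¹ * |Δ w y|) ≤ e * J m := by
    intro m hm
    have hwl : Continuous fun y => |Δ w y| := by
      refine Continuous.abs ?_
      rw [show Δ w = fun y => ∑ i, pd i (pd i w) y from
        funext fun y => laplacian_eq_sum hw.contDiffAt]
      exact continuous_finsetSum _ fun i _ => continuous_pd (contDiff_pd hw i) i
    have hi : IntegrableOn (fun y => (‖x - y‖ ^ m)⁻¹) (tsupport χ) := by
      simpa using integrableOn_kernel_mul hm x (g := fun _ => (1 : ℝ)) continuous_const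
        hχc.isCompact
    calc ∫ y in tsupport χ, (‖x - y‖ ^ m)⁻¹ * |Δ w y|
        ≤ ∫ y in tsupport χ, e * (‖x - y‖ ^ m)⁻¹ := by
          refine setIntegral_mono_on (integrableOn_kernel_mul hm x hwl hχc.isCompact)
            (hi.const_mul e) (isClosed_tsupport _).measurableSet fun y hy => ?_
          rw [mul_comm e]
          exact mul_le_mul_of_nonneg_left (he y (hχs hy)).2 (by positivity)
      _ = e * ∫ y in tsupport χ, (‖x - y‖ ^ m)⁻¹ := integral_const_mul _ _
      _ ≤ e * J m := by
          refine mul_le_mul_of_nonneg_left ?_ he0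
          simp only [hJ]
          rw [← integral_indicator (isClosed_tsupport _).measurableSet,
            ← integral_indicator measurableSet_closedBall,
            ← integral_sub_left_eq_self
              (fun z => (Metric.closedBall (0 : Euc n) (S + R)).indicator
                (fun z => (‖z‖ ^ m)⁻¹) z) volume x]
          refine integral_mono (hi.integrable_indicator (isClosed_tsupport _).measurableSet) ?_
            fun y => ?_
          · exact ((hJint m hm).integrable_indicator measurableSet_closedBall).comp_sub_left x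
          · by_cases hy : y ∈ tsupport χ
            · rw [indicator_of_mem hy, indicator_of_mem]
              have := hχs hy
              simp only [Metric.mem_closedBall, dist_zero_right] at this hx ⊢
              exact (norm_sub_le x y).trans (by linarith)
            · rw [indicator_of_notMem hy]
              exact Set.indicator_nonneg (fun z _ => by positivity) _
  have hU : (∫ y in tsupport χ, |w y|) ≤ e * V := by
    calc ∫ y in tsupport χ, |w y| ≤ ∫ y in tsupport χ, e :=
          setIntegral_mono_on (hw.continuous.abs.continuousOn.integrableOn_compact hχc.isCompact)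
            (integrableOn_const hχc.isCompact.measure_lt_top.ne)
            (isClosed_tsupport _).measurableSet fun y hy => (he y (hχs hy)).1
      _ = volume.real (tsupport χ) * e := by rw [setIntegral_const, smul_eq_mul]
      _ ≤ V * e := mul_le_mul_of_nonneg_right
          (measureReal_mono hχs (isCompact_closedBall _ _).measure_lt_top.ne) he0
      _ = e * V := mul_comm _ _
  have k2 := hk (n - 2) (by omega)
  have k1 := hk (n - 1) (by omega)
  have fin : ∀ m, J m ≤ J (n - 2) + J (n - 1) →
      C * (e * J m) + C * (M ^ 2 * (e * V)) ≤ C * (J (n - 2) + J (n - 1) + M ^ 2 * V) * e := by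
    intro m hm
    have := mul_le_mul_of_nonneg_left (mul_le_mul_of_nonneg_left hm he0) hC
    linarith
  rw [one_pow, div_one, mul_assoc] at h1 h2
  constructor
  · refine h1.trans (le_trans ?_ (fin (n - 2) (le_add_of_nonneg_right (hJ0 _))))
    gcongr
  · refine h2.trans (le_trans ?_ (fin (n - 1) (le_add_of_nonneg_left (hJ0 _))))
    gcongr

/-- A locally uniform limit with Cauchy gradients is `C¹`. -/
theorem contDiff_one_of_limit {w : ℕ → Euc n → ℝ} {g : Euc n → ℝ}
    (hw : ∀ k, ContDiff ℝ 1 (w k))
    (hg : ∀ x, Tendsto (fun k => w k x) atTop (𝓝 (g x)))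
    (hc : ∀ R : ℝ, 0 ≤ R → UniformCauchySeqOn (fun k => fderiv ℝ (w k)) atTop
      (Metric.closedBall (0 : Euc n) R)) :
    ContDiff ℝ 1 g ∧ ∀ x, Tendsto (fun k => fderiv ℝ (w k) x) atTop (𝓝 (fderiv ℝ g x)) := by
  have hp : ∀ x : Euc n, ∃ L, Tendsto (fun k => fderiv ℝ (w k) x) atTop (𝓝 L) := fun x =>
    cauchySeq_tendsto_of_complete
      ((hc ‖x‖ (norm_nonneg x)).cauchySeq (by simp))
  choose L hL using hp
  have hu : TendstoLocallyUniformlyOn (fun k => fderiv ℝ (w k)) L atTop univ := by
    intro V hV x _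
    refine ⟨Metric.closedBall 0 (‖x‖ + 1),
      mem_nhdsWithin_of_mem_nhds (Filter.mem_of_superset (Metric.ball_mem_nhds x one_pos) ?_),
      (hc _ (by positivity)).tendstoUniformlyOn_of_tendsto (fun y _ => hL y) V hV⟩
    intro y hy
    rw [Metric.mem_ball, dist_eq_norm] at hy
    rw [Metric.mem_closedBall, dist_zero_right]
    linarith [norm_le_norm_add_norm_sub' y x]
  have hd : ∀ x, HasFDerivAt g (L x) x := fun x =>
    hasFDerivAt_of_tendstoLocallyUniformlyOn isOpen_univ hu
      (fun k y _ => ((hw k).differentiable one_ne_zero y).hasFDerivAt) (fun y _ => hg y)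
      (mem_univ x)
  have hLc : Continuous L := continuousOn_univ.1 <| hu.continuousOn
    (Frequently.of_forall fun k => ((hw k).continuous_fderiv one_ne_zero).continuousOn)
  have e : fderiv ℝ g = L := funext fun x => (hd x).fderiv
  refine ⟨contDiff_one_iff_fderiv.2 ⟨fun x => (hd x).differentiableAt, e ▸ hLc⟩, fun x => ?_⟩
  rw [e]
  exact hL x

/-- Mollified Laplacians give Cauchy gradients. -/
lemma cauchy_fderiv (hn : 3 ≤ n) {w : ℕ → Euc n → ℝ} (hw : ∀ k, ContDiff ℝ 2 (w k))
    (h0 : ∀ R, 0 ≤ R → UniformCauchySeqOn w atTop (Metric.closedBall (0 : Euc n) R))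
    (h2 : ∀ R, 0 ≤ R → UniformCauchySeqOn (fun k => Δ (w k)) atTop
      (Metric.closedBall (0 : Euc n) R)) (R : ℝ) (hR : 0 ≤ R) :
    UniformCauchySeqOn (fun k => fderiv ℝ (w k)) atTop (Metric.closedBall (0 : Euc n) R) := by
  obtain ⟨C, hC, hb⟩ := sup_bound hn R hR
  rw [Metric.uniformCauchySeqOn_iff]
  intro e he
  set d := e / (C + 1) with hd
  obtain ⟨N0, hN0⟩ := Metric.uniformCauchySeqOn_iff.1 (h0 (2 * R + 3) (by linarith)) d
    (by positivity)
  obtain ⟨N2, hN2⟩ := Metric.uniformCauchySeqOn_iff.1 (h2 (2 * R + 3) (by linarith)) d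
    (by positivity)
  refine ⟨max N0 N2, fun a ha b hb' x hx => ?_⟩
  have h := (hb (w a - w b) d ((hw a).sub (hw b)) (fun y hy => ⟨?_, ?_⟩) x hx).2
  · rw [fderiv_sub ((hw a).differentiable two_ne_zero x) ((hw b).differentiable two_ne_zero x),
      ← dist_eq_norm] at h
    refine lt_of_le_of_lt h ?_
    rw [hd, ← mul_div_assoc, div_lt_iff₀ (by positivity)]
    linarith
  · rw [Pi.sub_apply, ← Real.dist_eq]
    exact (hN0 a (le_of_max_le_left ha) b (le_of_max_le_left hb') y hy).le
  · rw [((hw a).contDiffAt).laplacian_sub (hw b).contDiffAt, ← Real.dist_eq]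
    exact (hN2 a (le_of_max_le_right ha) b (le_of_max_le_right hb') y hy).le

/-- Continuous data give a `C¹` solution. -/
theorem contDiff_one_of_weakSol (hn : 3 ≤ n) {u f : Euc n → ℝ} (hu : Continuous u)
    (hf : Continuous f) (h : WeakSol u f) : ContDiff ℝ 1 u := by
  refine (contDiff_one_of_limit (w := fun k => moll k u) (fun k => contDiff_moll k hu 1)
    (fun x => (tendsto_moll hu ‖x‖).tendsto_at (by simp)) ?_).1
  refine cauchy_fderiv hn (fun k => contDiff_moll k hu 2)
    (fun R _ => (tendsto_moll hu R).uniformCauchySeqOn) fun R _ => ?_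
  have e : (fun k => Δ (moll k u)) = fun k y => -moll k f y := funext fun k => funext fun y => by
    rw [laplacian_eq_sum (contDiff_moll k hu 2).contDiffAt, sum_pd_pd_moll hu h]
  rw [e]
  exact (tendsto_moll hf R).neg.uniformCauchySeqOn

/-- `C¹` data give a `C²` solution. -/
theorem contDiff_two_of_weakSol (hn : 3 ≤ n) {u f : Euc n → ℝ} (hu : Continuous u)
    (hf : ContDiff ℝ 1 f) (h : WeakSol u f) :
    ContDiff ℝ 2 u ∧ ∀ x, -(Δ u x) = f x := by
  have hu1 := contDiff_one_of_weakSol hn hu hf.continuous h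
  have hk : ∀ k i, ContDiff ℝ 2 (pd i (moll k u)) := fun k i =>
    ((contDiff_moll k hu 3).fderiv_right (m := 2) (by norm_num)).clm_apply contDiff_const
  have hlap : ∀ k i y, Δ (pd i (moll k u)) y = -moll k (pd i f) y := by
    intro k i y
    have h3 : ∀ j, ContDiff ℝ 1 (pd j (pd j (moll k u))) := fun j => contDiff_pd (hk k j) j
    have hm2 : ContDiff ℝ 2 (moll k u) := contDiff_moll k hu 2
    have e1 : ∀ j, pd j (pd j (pd i (moll k u))) y = pd i (pd j (pd j (moll k u))) y := by
      intro j
      rw [show pd j (pd i (moll k u)) = pd i (pd j (moll k u)) from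
        funext fun z => pd_symm hm2 j i z, pd_symm (hk k j) j i y]
    rw [laplacian_eq_sum (hk k i).contDiffAt, Finset.sum_congr rfl fun j _ => e1 j]
    have e2 : (fun z => ∑ j, pd j (pd j (moll k u)) z) = fun z => -moll k f z :=
      funext fun z => sum_pd_pd_moll hu h k z
    have e3 := congrArg (fun g => pd i g y) e2
    simp only [pd_fun_sum (fun j => (h3 j).differentiable one_ne_zero y)] at e3
    rw [e3, ← congrFun (pd_moll_C1 k hf i) y]
    simp [pd, fderiv_fun_neg]
  have main : ∀ i, ContDiff ℝ 1 (pd i u) ∧ ∀ x,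
      Tendsto (fun k => fderiv ℝ (pd i (moll k u)) x) atTop (𝓝 (fderiv ℝ (pd i u) x)) := by
    intro i
    have hpc := continuous_pd hu1 i
    have e : ∀ k, pd i (moll k u) = moll k (pd i u) := fun k => pd_moll_C1 k hu1 i
    refine contDiff_one_of_limit (fun k => (hk k i).of_le one_le_two)
      (fun x => by simp only [e]; exact (tendsto_moll hpc ‖x‖).tendsto_at (by simp)) ?_
    refine cauchy_fderiv hn (fun k => hk k i) (fun R _ => ?_) fun R _ => ?_
    · simp only [e]; exact (tendsto_moll hpc R).uniformCauchySeqOn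
    · rw [show (fun k => Δ (pd i (moll k u))) = fun k y => -moll k (pd i f) y from
        funext fun k => funext (hlap k i)]
      exact (tendsto_moll (continuous_pd hf i) R).neg.uniformCauchySeqOn
  have hu2 : ContDiff ℝ 2 u := by
    rw [show (2 : WithTop ℕ∞) = 1 + 1 by norm_num, contDiff_succ_iff_fderiv_apply]
    refine ⟨hu1.differentiable one_ne_zero, by simp, fun v => ?_⟩
    have : (fun x => fderiv ℝ u x v) = fun x => ∑ i, v i * pd i u x := funext fun x => by
      have hv : v = ∑ i, v i • ev i := by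
        simpa [ev] using ((EuclideanSpace.basisFun (Fin n) ℝ).sum_repr v).symm
      conv_lhs => rw [hv]
      simp [pd, map_sum]
    rw [this]
    exact ContDiff.sum fun i _ => contDiff_const.mul (main i).1
  refine ⟨hu2, fun x => ?_⟩
  have hlim : Tendsto (fun k => ∑ i, pd i (pd i (moll k u)) x) atTop
      (𝓝 (∑ i, pd i (pd i u) x)) :=
    tendsto_finsetSum _ fun i _ =>
      ((ContinuousLinearMap.apply ℝ ℝ (ev i)).continuous.tendsto _).comp ((main i).2 x)
  simp only [sum_pd_pd_moll hu h] at hlim
  rw [laplacian_eq_sum hu2.contDiffAt, neg_eq_iff_eq_neg]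
  exact tendsto_nhds_unique hlim ((tendsto_moll hf.continuous ‖x‖).tendsto_at (by simp)).neg

end Vale.Agent.P100W
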