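import Vale.Agent.P100W.SoupletSlice
import Vale.Agent.P100W.Main

/-!
Weighted Souplet argument: the Pohozaev inequality on a cube, the energy feedback and the
nonexistence theorem for `max (2(p+1), 2(q+1)) / (p q - 1) > n - 3`, arbitrary weights.
-/

open MeasureTheory Filter Topology Laplacian Set
open scoped ContDiff ENNReal Pointwise

noncomputable section

namespace Vale.Agent.P100W

open Vale.Agent.P100 Vale.Agent.P100C

variable {n m : ℕ}

lemma Wd_nonneg {A B p q : ℝ} {u v : Euc n → ℝ} (hup : ∀ x, 0 < u x) (hvp : ∀ x, 0 < v x)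
    (x : Euc n) : 0 ≤ Wd A B p q u v x :=
  add_nonneg (mul_nonneg (Real.rpow_nonneg (norm_nonneg x) _) (Real.rpow_pos_of_pos (hvp x) _).le)
    (mul_nonneg (Real.rpow_nonneg (norm_nonneg x) _) (Real.rpow_pos_of_pos (hup x) _).le)

lemma Hs_nonneg {A B p q : ℝ} {u v : Euc n → ℝ} (hup : ∀ x, 0 < u x) (hvp : ∀ x, 0 < v x)
    (x : Euc n) : 0 ≤ Hs A B p q u v x :=
  add_nonneg (add_nonneg (mul_nonneg (norm_nonneg x)
    (add_nonneg (mul_nonneg (norm_nonneg _) (norm_nonneg _)) (Wd_nonneg hup hvp x)))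
    (mul_nonneg (hvp x).le (norm_nonneg _))) (mul_nonneg (hup x).le (norm_nonneg _))

/-- The weighted Pohozaev inequality for a cut-off equal to one near the origin. -/
theorem pohozaev_cut (hn : 3 ≤ n) {A B p q κ a1 a2 : ℝ} (hp : 0 < p) (hq : 0 < q) (hA : -2 < A)
    (hB : -2 < B) (hκ : 0 ≤ κ) (ha : a1 + a2 = (n : ℝ) - 2)
    (h1 : ((n : ℝ) + A) / (p + 1) - a1 = κ) (h2 : ((n : ℝ) + B) / (q + 1) - a2 = κ)
    {u v : Euc n → ℝ} (hs : IsWeightedSolution A B p q u v) {ζ : Euc n → ℝ} (hζ : ContDiff ℝ 1 ζ)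
    (hζc : HasCompactSupport ζ) (hζ0 : ∀ x, 0 ≤ ζ x) (hζ1 : ∀ x, ‖x‖ ≤ 1 → ζ x = 1)
    {S : Set (Euc n)} (hS : IsCompact S) (h0 : (0 : Euc n) ∉ S) (hSζ : ∀ x ∈ S, ζ x = 1) :
    κ * ∫ x in S, Wd A B p q u v x ≤
      n * (3 * n + 1 + |a1| + |a2|) * ∫ x, ‖fderiv ℝ ζ x‖ * Hs A B p q u v x := by
  obtain ⟨L, hL0, hL, -⟩ := exists_deriv_bound
  obtain ⟨K0, hK0, hnear⟩ := near_bound hn hp hq hA hB hs
  obtain ⟨huc, hvc, -, -, hup, hvp, -⟩ := id hs
  obtain ⟨d, hd, hdS⟩ := Metric.isOpen_iff.1 hS.isClosed.isOpen_compl 0 h0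
  have hSd : ∀ x ∈ S, d ≤ ‖x‖ := fun x hx => by
    by_contra h
    exact hdS (by simpa using not_le.1 h) hx
  set V1 := (volume : Measure (Euc n)).real (Metric.ball 0 1)
  set c := (n : ℝ) * (3 * n + 1 + |a1| + |a2|)
  have hWS : IntegrableOn (Wd A B p q u v) S := by
    have hne : ∀ x ∈ S, ‖x‖ ≠ 0 := fun x hx => by linarith [hSd x hx]
    refine ContinuousOn.integrableOn_compact hS (ContinuousOn.add ?_ ?_)
    · exact ((continuous_norm.continuousOn).rpow_const fun x hx => Or.inl (hne x hx)).mul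
        (hvc.continuousOn.rpow_const fun x _ => Or.inl (hvp x).ne')
    · exact ((continuous_norm.continuousOn).rpow_const fun x hx => Or.inl (hne x hx)).mul
        (huc.continuousOn.rpow_const fun x _ => Or.inl (hup x).ne')
  have main : ∀ ε : ℝ, 0 < ε → ε ≤ 1 / 4 → 2 * ε ≤ d → κ * ∫ x in S, Wd A B p q u v x ≤
      c * ((∫ x, ‖fderiv ℝ ζ x‖ * Hs A B p q u v x) + 2 * L * K0 * 2 ^ n * V1 * ε ^ (n - 2)) := by
    intro ε hε hε4 hεd
    set χ0 : Euc n → ℝ := radial (1 / ε ^ 2) (-1) with hχ0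
    have z0 : ∀ x : Euc n, ‖x‖ ≤ ε → χ0 x = 0 := fun x hx => by
      refine Real.smoothTransition.zero_of_nonpos ?_
      have : 1 / ε ^ 2 * ‖x‖ ^ 2 ≤ 1 := by
        rw [div_mul_eq_mul_div, div_le_one (by positivity), one_mul]
        exact pow_le_pow_left₀ (norm_nonneg x) hx 2
      linarith
    have o0 : ∀ x : Euc n, 2 * ε ≤ ‖x‖ → χ0 x = 1 := fun x hx => by
      refine Real.smoothTransition.one_of_one_le ?_
      have : 4 ≤ 1 / ε ^ 2 * ‖x‖ ^ 2 := by
        rw [div_mul_eq_mul_div, le_div_iff₀ (by positivity)]; nlinarith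
      linarith
    set ψ : Euc n → ℝ := fun x => χ0 x * ζ x with hψd
    have hψ : ContDiff ℝ 1 ψ := (contDiff_radial _ _).mul hζ
    have hψc : HasCompactSupport ψ := hζc.mul_left
    have h0' : (0 : Euc n) ∉ tsupport ψ := by
      rw [notMem_tsupport_iff_eventuallyEq]
      filter_upwards [Metric.ball_mem_nhds (0 : Euc n) hε] with y hy
      simp [hψd, z0 y (mem_ball_zero_iff.1 hy).le]
    obtain ⟨hHi, hWi, hid⟩ := identity_bound_w (κ := κ) hp hq ha h1 h2 hs hψ hψc h0'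
    have hlow : (∫ x in S, Wd A B p q u v x) ≤ ∫ x, ψ x * Wd A B p q u v x := by
      rw [← integral_indicator hS.measurableSet]
      refine integral_mono (hWS.integrable_indicator hS.measurableSet) hWi fun x => ?_
      by_cases hx : x ∈ S
      · rw [indicator_of_mem hx]
        simp [hψd, o0 x (hεd.trans (hSd x hx)), hSζ x hx]
      · rw [indicator_of_notMem hx]
        exact mul_nonneg (mul_nonneg (radial_mem _ _ x).1 (hζ0 x)) (Wd_nonneg hup hvp x)
    -- the derivative of `ζ` vanishes in the unit ball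
    have hζz : ∀ x : Euc n, ‖x‖ < 1 → fderiv ℝ ζ x = 0 := fun x hx => by
      have : ζ =ᶠ[𝓝 x] fun _ => (1 : ℝ) :=
        mem_of_superset ((isOpen_lt continuous_norm continuous_const).mem_nhds hx)
          fun y hy => hζ1 y (le_of_lt hy)
      rw [this.fderiv_eq]; simp
    have hout : ∀ x : Euc n, 2 * ε < ‖x‖ → fderiv ℝ ψ x = fderiv ℝ ζ x := fun x hx => by
      have : ψ =ᶠ[𝓝 x] ζ := by
        filter_upwards [(isOpen_lt continuous_const continuous_norm).mem_nhds hx] with y hy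
        simp [hψd, o0 y (le_of_lt hy)]
      rw [this.fderiv_eq]
    have hin : ∀ x : Euc n, ‖x‖ ≤ 2 * ε → ‖fderiv ℝ ψ x‖ ≤ L * (2 * (1 / ε ^ 2) * ‖x‖) := by
      intro x hx
      have : ψ =ᶠ[𝓝 x] χ0 := by
        filter_upwards [(isOpen_lt continuous_norm continuous_const).mem_nhds
          (show ‖x‖ < 1 by linarith)] with y hy
        simp [hψd, hζ1 y (le_of_lt hy)]
      rw [this.fderiv_eq]
      refine (norm_fderiv_radial hL _ _ x).trans (le_of_eq ?_)
      rw [abs_of_pos (by positivity)]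
    have hζi : Integrable fun x => ‖fderiv ℝ ζ x‖ * Hs A B p q u v x := by
      have e : (fun x => ‖fderiv ℝ ζ x‖ * Hs A B p q u v x) =
          {x : Euc n | 2 * ε < ‖x‖}.indicator fun x => ‖fderiv ℝ ψ x‖ * Hs A B p q u v x := by
        funext x
        by_cases hx : 2 * ε < ‖x‖
        · rw [indicator_of_mem (show x ∈ {x : Euc n | 2 * ε < ‖x‖} from hx), hout x hx]
        · rw [indicator_of_notMem (show x ∉ {x : Euc n | 2 * ε < ‖x‖} from hx),
            hζz x (by linarith [not_lt.1 hx]), norm_zero, zero_mul]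
      rw [e]
      exact hHi.indicator (isOpen_lt continuous_const continuous_norm).measurableSet
    set T0 := 2 * L * K0 * (1 / ε) ^ 2 with hT0
    have hT0n : 0 ≤ T0 := by positivity
    have hpt : ∀ x, ‖fderiv ℝ ψ x‖ * Hs A B p q u v x ≤ ‖fderiv ℝ ζ x‖ * Hs A B p q u v x +
        (Metric.closedBall (0 : Euc n) (2 * ε)).indicator (fun _ => T0) x := by
      intro x
      have hH := Hs_nonneg (A := A) (B := B) (p := p) (q := q) hup hvp x
      rcases le_or_gt ‖x‖ (2 * ε) with hx | hx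
      · rw [indicator_of_mem (mem_closedBall_zero_iff.2 hx)]
        refine le_trans ?_ (le_add_of_nonneg_left (mul_nonneg (norm_nonneg _) hH))
        rcases eq_or_ne x 0 with rfl | hx0
        · simp [fderiv_of_notMem_tsupport (𝕜 := ℝ) h0', hT0n]
        · calc ‖fderiv ℝ ψ x‖ * Hs A B p q u v x
              ≤ L * (2 * (1 / ε ^ 2) * ‖x‖) * Hs A B p q u v x :=
                mul_le_mul_of_nonneg_right (hin x hx) hH
            _ = 2 * L * (1 / ε ^ 2) * (Hs A B p q u v x * ‖x‖) := by ring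
            _ ≤ 2 * L * (1 / ε ^ 2) * K0 :=
                mul_le_mul_of_nonneg_left (hnear x hx0 (by linarith)) (by positivity)
            _ = T0 := by rw [hT0, div_pow, one_pow]; ring
      · rw [hout x hx]
        exact le_add_of_nonneg_right (indicator_nonneg (fun _ _ => hT0n) x)
    have i3 : Integrable ((Metric.closedBall (0 : Euc n) (2 * ε)).indicator fun _ => T0) :=
      (integrableOn_const measure_closedBall_lt_top.ne).integrable_indicator measurableSet_closedBall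
    refine (mul_le_mul_of_nonneg_left hlow hκ).trans ((le_abs_self _).trans
      (hid.trans (mul_le_mul_of_nonneg_left ?_ (by positivity))))
    refine (integral_mono hHi (hζi.add i3) hpt).trans (le_of_eq ?_)
    simp only [Pi.add_apply]
    rw [integral_add hζi i3, integral_indicator measurableSet_closedBall, setIntegral_const,
      smul_eq_mul, Measure.addHaar_real_closedBall volume (0 : Euc n) (show (0:ℝ) ≤ 2 * ε by linarith),
      finrank_euclideanSpace_fin, hT0]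
    obtain ⟨k, rfl⟩ : ∃ k, n = k + 2 := ⟨n - 2, by omega⟩
    rw [Nat.add_sub_cancel, mul_pow, pow_add ε k 2]
    field_simp
    ring
  set I := ∫ x, ‖fderiv ℝ ζ x‖ * Hs A B p q u v x
  have hlim : Tendsto (fun ε : ℝ => c * (I + 2 * L * K0 * 2 ^ n * V1 * ε ^ (n - 2)))
      (𝓝[>] 0) (𝓝 (c * (I + 2 * L * K0 * 2 ^ n * V1 * 0))) := by
    refine (((Tendsto.const_mul _ ?_).const_add I).const_mul c)
    have := ((continuous_pow (n - 2)).tendsto (0 : ℝ))
    rw [zero_pow (by omega : n - 2 ≠ 0)] at this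
    exact this.mono_left nhdsWithin_le_nhds
  rw [mul_zero, add_zero] at hlim
  refine ge_of_tendsto hlim ?_
  filter_upwards [self_mem_nhdsWithin, mem_nhdsWithin_of_mem_nhds
    (Iio_mem_nhds (show (0:ℝ) < min (1 / 4) (d / 2) by positivity))] with ε hε hε'
  have hlt : ε < min (1 / 4) (d / 2) := hε'
  exact main ε hε (hlt.le.trans (min_le_left _ _))
    (by linarith [hlt.trans_le (min_le_right _ _)])

/-- Energy of the part of a cube outside the ball of radius `1/4`. -/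
def massW (p q : ℝ) (u v : Euc n → ℝ) (ρ : ℝ) : ℝ :=
  ∫ x in (cube ρ : Set (Euc n)) ∩ {x | 1 / 4 ≤ ‖x‖}, dens p q u v x

lemma isCompact_region (ρ : ℝ) : IsCompact ((cube ρ : Set (Euc n)) ∩ {x | 1 / 4 ≤ ‖x‖}) :=
  (isCompact_cube ρ).inter_right (isClosed_le continuous_const continuous_norm)

/-- The three normalised slice norms on the two opposite faces. -/
def slW {p q : ℝ} (E : SExpo (m : ℝ) p q) (ρ : ℝ) (P0 P1 P2 : ℝ) (U J1 J2 : Euc (m + 1) → ℝ)
    (r : ℝ) : ℝ :=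
  ∑ i : Fin (m + 1),
    ((slN i (q + 1) ρ U r + slN i (q + 1) ρ U (-r)) / P0 +
    (slN i E.a ρ J1 r + slN i E.a ρ J1 (-r)) / P1 +
    (slN i E.a' ρ J2 r + slN i E.a' ρ J2 (-r)) / P2)

/-- The energy on one slice. -/
lemma slice_energy_w {p q : ℝ} (hq : 0 < q) (E : SExpo (m : ℝ) p q) (i : Fin (m + 1))
    {ρ r S R P P0 P1 P2 : ℝ} {K : ℕ} (hK : q + 1 ≤ K) (hK2 : 2 ≤ K)
    {U J1 J2 : Euc (m + 1) → ℝ} (hUc : Continuous U) (h1c : Continuous J1) (h2c : Continuous J2)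
    (hU : ∀ x, 0 ≤ U x) (h1 : ∀ x, 0 ≤ J1 x) (h2 : ∀ x, 0 ≤ J2 x) (hS : 0 ≤ S) (hR : 0 ≤ R)
    (hP : 1 ≤ P) (hP0 : 0 ≤ P0) (hP1 : 0 ≤ P1) (hP0' : P0 ^ (q + 1) ≤ P) (hP12 : P1 * P2 ≤ P)
    (b0 : slN i (q + 1) ρ U r ≤ P0 * S) (b1 : slN i E.a ρ J1 r ≤ P1 * S)
    (b2 : slN i E.a' ρ J2 r ≤ P2 * S) :
    ∫ z in (cube ρ : Set (Euc m)), (U (ins i r z) ^ (q + 1) + R + J1 (ins i r z) * J2 (ins i r z))
      ≤ (2 + R * (volume : Measure (Euc m)).real (cube ρ)) * P * (1 + S) ^ K := by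
  set s : Set (Euc m) := cube ρ
  have hs : IsCompact s := isCompact_cube ρ
  set g := fun z => U (ins i r z)
  set g1 := fun z => J1 (ins i r z)
  set g2 := fun z => J2 (ins i r z)
  have hgc : Continuous g := continuous_slice i hUc r
  have hg1c : Continuous g1 := continuous_slice i h1c r
  have hg2c : Continuous g2 := continuous_slice i h2c r
  have cu : Continuous fun z => g z ^ (q + 1) := hgc.rpow_const fun _ => Or.inr (by linarith)
  have hSK : ∀ e : ℝ, 0 ≤ e → e ≤ K → S ^ e ≤ (1 + S) ^ K := fun e he heK => by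
    refine (Real.rpow_le_rpow hS (le_add_of_nonneg_left zero_le_one : S ≤ 1 + S) he).trans ?_
    rw [← Real.rpow_natCast]
    exact Real.rpow_le_rpow_of_exponent_le (by linarith) heK
  have hPK : 0 ≤ P * (1 + S) ^ K := by positivity
  have hu : ∫ z in s, g z ^ (q + 1) ≤ P * (1 + S) ^ K := by
    have e : (∫ z in s, g z ^ (q + 1)) = slN i (q + 1) ρ U r ^ (q + 1) := by
      rw [slN, ← Real.rpow_mul (integral_nonneg fun _ => Real.rpow_nonneg (hU _) _),
        one_div_mul_cancel (by linarith), Real.rpow_one]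
    rw [e]
    refine (Real.rpow_le_rpow (slN_nonneg _ _ _ hU _) b0 (by linarith)).trans ?_
    rw [Real.mul_rpow hP0 hS]
    exact mul_le_mul hP0' (hSK _ (by linarith) hK) (by positivity) (by linarith)
  have ha : (0 : ℝ) < E.a := by linarith [E.a_ge]
  have ha' : (0 : ℝ) < E.a' := by linarith [E.a'_ge]
  have hj : ∫ z in s, g1 z * g2 z ≤ P * (1 + S) ^ K := by
    have e := integral_rpow_mul_rpow_le (F := fun z => g1 z ^ E.a) (G := fun z => g2 z ^ E.a')
      (hg1c.rpow_const fun _ => Or.inr ha.le) (hg2c.rpow_const fun _ => Or.inr ha'.le)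
      (fun z => Real.rpow_nonneg (h1 _) _) (fun z => Real.rpow_nonneg (h2 _) _) hs
      (one_div_nonneg.2 ha.le) (one_div_nonneg.2 ha'.le)
      (by simpa [one_div] using E.conj.inv_add_inv_eq_one)
    have e' : ∀ z, (g1 z ^ E.a) ^ (1 / E.a) * (g2 z ^ E.a') ^ (1 / E.a') = g1 z * g2 z := by
      intro z
      rw [← Real.rpow_mul (h1 _), ← Real.rpow_mul (h2 _), mul_one_div_cancel ha.ne',
        mul_one_div_cancel ha'.ne', Real.rpow_one, Real.rpow_one]
    simp only [e'] at e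
    refine e.trans ?_
    calc slN i E.a ρ J1 r * slN i E.a' ρ J2 r ≤ (P1 * S) * (P2 * S) :=
          mul_le_mul b1 b2 (slN_nonneg _ _ _ h2 _) (by positivity)
      _ = P1 * P2 * S ^ (2 : ℝ) := by rw [Real.rpow_two]; ring
      _ ≤ _ := mul_le_mul hP12 (hSK _ zero_le_two (by exact_mod_cast hK2)) (by positivity)
          (by linarith)
  have iu : IntegrableOn (fun z => g z ^ (q + 1)) s := cu.continuousOn.integrableOn_compact hs
  have iR : IntegrableOn (fun _ : Euc m => R) s := continuous_const.continuousOn.integrableOn_compact hs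
  show ∫ z in s, (g z ^ (q + 1) + R + g1 z * g2 z) ≤ _
  rw [integral_add (iu.fun_add iR) ((show Continuous fun z => g1 z * g2 z from
    hg1c.mul hg2c).continuousOn.integrableOn_compact hs), integral_add iu iR, setIntegral_const,
    smul_eq_mul]
  have hR1 : (volume : Measure (Euc m)).real s * R ≤
      R * (volume : Measure (Euc m)).real s * (P * (1 + S) ^ K) := by
    rw [mul_comm]
    exact le_mul_of_one_le_right (by positivity)
      (one_le_mul_of_one_le_of_one_le hP (one_le_pow₀ (by linarith)))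
  linarith

lemma slW_bounds {p q : ℝ} (E : SExpo (m : ℝ) p q) {ρ P0 P1 P2 : ℝ} (hP0 : 0 < P0) (hP1 : 0 < P1)
    (hP2 : 0 < P2) {U J1 J2 : Euc (m + 1) → ℝ} (hU : ∀ x, 0 ≤ U x) (h1 : ∀ x, 0 ≤ J1 x)
    (h2 : ∀ x, 0 ≤ J2 x) :
    (∀ r, 0 ≤ slW E ρ P0 P1 P2 U J1 J2 r) ∧ ∀ i r,
      slN i (q + 1) ρ U r ≤ P0 * slW E ρ P0 P1 P2 U J1 J2 |r| ∧
      slN i E.a ρ J1 r ≤ P1 * slW E ρ P0 P1 P2 U J1 J2 |r| ∧
      slN i E.a' ρ J2 r ≤ P2 * slW E ρ P0 P1 P2 U J1 J2 |r| := by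
  have hterm : ∀ (i : Fin (m + 1)) r, 0 ≤ (slN i (q + 1) ρ U r + slN i (q + 1) ρ U (-r)) / P0 +
      (slN i E.a ρ J1 r + slN i E.a ρ J1 (-r)) / P1 +
      (slN i E.a' ρ J2 r + slN i E.a' ρ J2 (-r)) / P2 := fun i r => by
    have := slN_nonneg i (q + 1) ρ hU
    have := slN_nonneg i E.a ρ h1
    have := slN_nonneg i E.a' ρ h2
    exact add_nonneg (add_nonneg (div_nonneg (add_nonneg (slN_nonneg _ _ _ hU _)
      (slN_nonneg _ _ _ hU _)) hP0.le) (div_nonneg (add_nonneg (slN_nonneg _ _ _ h1 _)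
      (slN_nonneg _ _ _ h1 _)) hP1.le)) (div_nonneg (add_nonneg (slN_nonneg _ _ _ h2 _)
      (slN_nonneg _ _ _ h2 _)) hP2.le)
  refine ⟨fun r => Finset.sum_nonneg fun i _ => hterm i r, fun i r => ?_⟩
  have hle : ∀ f : ℝ → ℝ, (∀ t, 0 ≤ f t) → f r ≤ f |r| + f (-|r|) := fun f hf => by
    rcases abs_choice r with h | h <;> rw [h]
    · linarith [hf (-r)]
    · rw [neg_neg]; linarith [hf (-r)]
  have hS := Finset.single_le_sum (fun j _ => hterm j |r|) (Finset.mem_univ i)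
  change _ ≤ slW E ρ P0 P1 P2 U J1 J2 |r| at hS
  have a0 : ∀ t, 0 ≤ slN i (q + 1) ρ U t := slN_nonneg _ _ _ hU
  have a1 : ∀ t, 0 ≤ slN i E.a ρ J1 t := slN_nonneg _ _ _ h1
  have a2 : ∀ t, 0 ≤ slN i E.a' ρ J2 t := slN_nonneg _ _ _ h2
  have e0 := div_le_div_of_nonneg_right (hle _ a0) hP0.le
  have e1 := div_le_div_of_nonneg_right (hle _ a1) hP1.le
  have e2 := div_le_div_of_nonneg_right (hle _ a2) hP2.le
  have := div_nonneg (a0 r) hP0.le
  have := div_nonneg (a1 r) hP1.le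
  have := div_nonneg (a2 r) hP2.le
  refine ⟨?_, ?_, ?_⟩ <;> rw [← div_le_iff₀' ‹_›] <;> linarith

lemma continuous_slW {p q : ℝ} (hq : 0 < q) (E : SExpo (m : ℝ) p q) (ρ P0 P1 P2 : ℝ)
    {U J1 J2 : Euc (m + 1) → ℝ} (hU : Continuous U) (h1 : Continuous J1) (h2 : Continuous J2) :
    Continuous (slW E ρ P0 P1 P2 U J1 J2) :=
  continuous_finsetSum _ fun i _ => by
    have c0 := continuous_slN i (show (1:ℝ) ≤ q + 1 by linarith) ρ hU
    have c1 := continuous_slN i E.a_ge ρ h1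
    have c2 := continuous_slN i E.a'_ge ρ h2
    fun_prop

lemma integral_slW_le {p q : ℝ} (hq : 0 < q) (E : SExpo (m : ℝ) p q) {ρ ρ' D P0 P1 P2 M : ℝ}
    (hρ : 0 ≤ ρ) (hlt : ρ ≤ ρ') (hD : ρ' ≤ D) (hP0 : 0 < P0) (hP1 : 0 < P1) (hP2 : 0 < P2)
    {U J1 J2 : Euc (m + 1) → ℝ} (hUc : Continuous U) (h1c : Continuous J1) (h2c : Continuous J2)
    (hU : ∀ x, 0 ≤ U x) (h1 : ∀ x, 0 ≤ J1 x) (h2 : ∀ x, 0 ≤ J2 x)
    {X0 X1 X2 : ℝ≥0∞} (hX0 : X0 ≠ ⊤) (hX1 : X1 ≠ ⊤) (hX2 : X2 ≠ ⊤) (hM0 : X0.toReal ≤ P0 * M)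
    (hM1 : X1.toReal ≤ P1 * M) (hM2 : X2.toReal ≤ P2 * M)
    (b0 : ∀ i, ∫⁻ r in Icc (-D) D, sn i (q + 1) (cut (shell ρ ρ') U) r ≤ X0)
    (b1 : ∀ i, ∫⁻ r in Icc (-D) D, sn i E.a (cut (shell ρ ρ') J1) r ≤ X1)
    (b2 : ∀ i, ∫⁻ r in Icc (-D) D, sn i E.a' (cut (shell ρ ρ') J2) r ≤ X2) :
    (∫ r in ρ..ρ', slW E ρ' P0 P1 P2 U J1 J2 r) ≤ (m + 1 : ℝ) * (6 * M) := by
  have hcont : ∀ i, ∀ k : ℝ, 1 ≤ k → ∀ F : Euc (m + 1) → ℝ, Continuous F →
      Continuous fun r => slN i k ρ' F r + slN i k ρ' F (-r) := fun i k hk F hF => by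
    have := continuous_slN i hk ρ' hF
    fun_prop
  have hq1 : (1:ℝ) ≤ q + 1 := by linarith
  unfold slW
  rw [intervalIntegral.integral_finsetSum fun i _ => ?_]
  · refine (Finset.sum_le_card_nsmul _ _ (6 * M) fun i _ => ?_).trans (le_of_eq (by simp))
    have x0 := integral_slN_le i hq1 hUc hU hρ hlt hD hX0 (b0 i)
    have x1 := integral_slN_le i E.a_ge h1c h1 hρ hlt hD hX1 (b1 i)
    have x2 := integral_slN_le i E.a'_ge h2c h2 hρ hlt hD hX2 (b2 i)
    have c0 := ((hcont i _ hq1 U hUc).intervalIntegrable (μ := volume) ρ ρ').div_const P0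
    have c1 := ((hcont i _ E.a_ge J1 h1c).intervalIntegrable (μ := volume) ρ ρ').div_const P1
    have c2 := ((hcont i _ E.a'_ge J2 h2c).intervalIntegrable (μ := volume) ρ ρ').div_const P2
    rw [intervalIntegral.integral_add (c0.add c1) c2, intervalIntegral.integral_add c0 c1,
      intervalIntegral.integral_div, intervalIntegral.integral_div, intervalIntegral.integral_div]
    have hb : ∀ {P y : ℝ} {X : ℝ≥0∞}, 0 < P → X.toReal ≤ P * M → y ≤ 2 * X.toReal → y / P ≤ 2 * M :=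
      fun {P y X} hP hX hy => by rw [div_le_iff₀ hP]; linarith
    have := hb hP0 hM0 x0
    have := hb hP1 hM1 x1
    have := hb hP2 hM2 x2
    linarith
  · exact ((((hcont i _ hq1 U hUc).div_const P0).add ((hcont i _ E.a_ge J1 h1c).div_const P1)).add
      ((hcont i _ E.a'_ge J2 h2c).div_const P2)).intervalIntegrable _ _

/-- The boundary term. -/
lemma boundary_term_w {A B p q : ℝ} (hq : 0 ≤ q) {ρ ρ' : ℝ} (hρ : 1 ≤ ρ) (hρ' : ρ ≤ ρ')
    (hρ'2 : ρ' ≤ 2) {Kc R : ℝ} (hKc : 0 ≤ Kc) (hR : 0 ≤ R) {u v : Euc (m + 1) → ℝ}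
    (hu2 : ContDiffOn ℝ 2 u {x | x ≠ 0}) (hv2 : ContDiffOn ℝ 2 v {x | x ≠ 0})
    (hup : ∀ x, 0 < u x) (hvp : ∀ x, 0 < v x)
    (hH : ∀ x ∈ shell (n := m + 1) ρ ρ', Hs A B p q u v x ≤
      Kc * (u x ^ (q + 1) + R + (u x + ‖fderiv ℝ u x‖) * (v x + ‖fderiv ℝ v x‖)))
    {w : ℝ → ℝ} (hwc : Continuous w) (hw0 : ∀ r, 0 ≤ w r) (hwz : ∀ r, r ∉ Set.Ioo ρ ρ' → w r = 0)
    {ζ : Euc (m + 1) → ℝ} (hsupp : ∀ x, fderiv ℝ ζ x ≠ 0 → x ∈ cube ρ')
    (hζd : ∀ x, ‖fderiv ℝ ζ x‖ ≤ ∑ i, w |x i|) {W : ℝ} (hW0 : 0 ≤ W)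
    (hW : ∀ i r, w |r| * (∫ z in (cube ρ' : Set (Euc m)), (ext u (ins i r z) ^ (q + 1) + R +
      jet (ext u) (ins i r z) * jet (ext v) (ins i r z))) ≤ W) :
    ∫ x, ‖fderiv ℝ ζ x‖ * Hs A B p q u v x ≤ Kc * ((m + 1 : ℝ) * (4 * W)) := by
  set G1 := fun x => ext u x ^ (q + 1) + R + jet (ext u) x * jet (ext v) x with hG1
  have hG1c : Continuous G1 :=
    (((contDiff_ext hu2).continuous.rpow_const fun x => Or.inr (by linarith)).add
      continuous_const).add
      ((continuous_jet (contDiff_ext hu2)).mul (continuous_jet (contDiff_ext hv2)))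
  have hG10 : ∀ x, 0 ≤ G1 x := fun x =>
    add_nonneg (add_nonneg (Real.rpow_nonneg (ext_pos hup x).le _) hR)
      (mul_nonneg (jet_nonneg (fun y => (ext_pos hup y).le) x)
        (jet_nonneg (fun y => (ext_pos hvp y).le) x))
  have hci : ∀ i, Integrable ((cube ρ' : Set (Euc (m + 1))).indicator fun x => w |x i| * G1 x) :=
    fun i => (((hwc.comp (continuous_abs.comp (EuclideanSpace.proj (𝕜 := ℝ) i).continuous)).mul
      hG1c).continuousOn.integrableOn_compact (isCompact_cube ρ')).integrable_indicator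
      (measurableSet_cube ρ')
  refine (integral_mono_of_nonneg (Eventually.of_forall fun x => mul_nonneg (norm_nonneg _)
    (Hs_nonneg hup hvp x)) ((integrable_finsetSum Finset.univ fun i _ => hci i).const_mul Kc)
    (Eventually.of_forall fun x => ?_)).trans ?_
  · show ‖fderiv ℝ ζ x‖ * Hs A B p q u v x ≤ Kc * ∑ i, _
    by_cases hx : fderiv ℝ ζ x = 0
    · rw [hx, norm_zero, zero_mul]
      exact mul_nonneg hKc
        (Finset.sum_nonneg fun i _ => indicator_nonneg (fun y _ => mul_nonneg (hw0 _) (hG10 y)) _)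
    · have hxc := hsupp x hx
      refine (mul_le_mul_of_nonneg_right (hζd x) (Hs_nonneg hup hvp x)).trans ?_
      rw [Finset.sum_mul, Finset.mul_sum]
      refine Finset.sum_le_sum fun i _ => ?_
      rw [indicator_of_mem hxc]
      by_cases hwi : w |x i| = 0
      · simp [hwi]
      · have hi : ρ < |x i| := by
          by_contra hc
          exact hwi (hwz _ fun hmem => hc hmem.1)
        have hx4 : 1 / 4 < ‖x‖ := by linarith [abs_apply_le_norm x i]
        calc w |x i| * Hs A B p q u v x ≤ w |x i| * (Kc * G1 x) := by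
              refine mul_le_mul_of_nonneg_left ?_ (hw0 _)
              simp only [hG1, jet, ext_eq hx4, fderiv_ext hx4]
              exact hH x ⟨hxc, i, hi.le⟩
          _ = _ := by ring
  · rw [integral_const_mul, integral_finsetSum _ fun i _ => hci i]
    refine mul_le_mul_of_nonneg_left ?_ hKc
    refine (Finset.sum_le_card_nsmul _ _ (4 * W) fun i _ => ?_).trans (le_of_eq (by simp))
    exact (slice_decomp i (by linarith) hwc hw0 hG1c hG10 fun r _ => hW i r).trans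
      (mul_le_mul_of_nonneg_right (by linarith) hW0)

/-- The Pohozaev field is controlled by the potential energy, the jets and the comparison
constant. -/
lemma field_bound {A B p q Cc CA CB D R e : ℝ} (hp : 0 < p) (hD : 0 ≤ D) (hCc : 0 ≤ Cc)
    (hCA : 0 ≤ CA) (hCB : 0 ≤ CB) {u v : Euc n → ℝ} (hup : ∀ x, 0 < u x) (hvp : ∀ x, 0 < v x)
    (x : Euc n) (hx : ‖x‖ ≤ D) (he : 0 ≤ e) (heR : e ^ (p + 1) ≤ R)
    (hwA : ‖x‖ ^ A ≤ CA) (hwB : ‖x‖ ^ B ≤ CB)
    (hv1 : v x ≤ Cc * (u x ^ ((q + 1) / (p + 1)) + e)) :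
    Hs A B p q u v x ≤ (D * (1 + CA * ((2 * Cc) ^ (p + 1) + 1) + CB) + 2) *
      (u x ^ (q + 1) + R + (u x + ‖fderiv ℝ u x‖) * (v x + ‖fderiv ℝ v x‖)) := by
  have hu0 := (hup x).le
  have hv0 := (hvp x).le
  have hR0 : 0 ≤ R := (Real.rpow_nonneg he _).trans heR
  set a := u x ^ ((q + 1) / (p + 1)) with ha
  have ha0 : 0 ≤ a := Real.rpow_nonneg hu0 _
  have huσ : a ^ (p + 1) = u x ^ (q + 1) := by
    rw [ha, ← Real.rpow_mul hu0, div_mul_cancel₀ _ (by linarith)]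
  have huq0 : 0 ≤ u x ^ (q + 1) := Real.rpow_nonneg hu0 _
  have hmax : max a e ^ (p + 1) ≤ u x ^ (q + 1) + R := by
    rcases max_cases a e with ⟨hm, -⟩ | ⟨hm, -⟩ <;> rw [hm]
    · rw [huσ]; linarith
    · linarith
  have hvK : v x ^ (p + 1) ≤ (2 * Cc) ^ (p + 1) * (u x ^ (q + 1) + R) := by
    have hmx : a + e ≤ 2 * max a e := by linarith [le_max_left a e, le_max_right a e]
    calc v x ^ (p + 1) ≤ (2 * Cc * max a e) ^ (p + 1) := Real.rpow_le_rpow hv0
          (hv1.trans (by linarith [mul_le_mul_of_nonneg_left hmx hCc])) (by linarith)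
      _ = (2 * Cc) ^ (p + 1) * max a e ^ (p + 1) :=
          Real.mul_rpow (by linarith) (le_max_of_le_left ha0)
      _ ≤ _ := mul_le_mul_of_nonneg_left hmax (Real.rpow_nonneg (by linarith) _)
  have hKv0 : 0 ≤ (2 * Cc) ^ (p + 1) := Real.rpow_nonneg (by linarith) _
  generalize hKv : (2 * Cc) ^ (p + 1) = Kv at hvK hKv0 ⊢
  have hd0 : 0 ≤ ‖fderiv ℝ u x‖ := norm_nonneg _
  have hd1 : 0 ≤ ‖fderiv ℝ v x‖ := norm_nonneg _
  have hWd : Wd A B p q u v x ≤ CA * (Kv * (u x ^ (q + 1) + R)) + CB * u x ^ (q + 1) :=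
    add_le_add (mul_le_mul hwA hvK (Real.rpow_nonneg hv0 _) hCA)
      (mul_le_mul_of_nonneg_right hwB huq0)
  have h0 : 0 ≤ ‖fderiv ℝ u x‖ * ‖fderiv ℝ v x‖ + Wd A B p q u v x :=
    add_nonneg (mul_nonneg hd0 hd1) (Wd_nonneg hup hvp x)
  show ‖x‖ * (‖fderiv ℝ u x‖ * ‖fderiv ℝ v x‖ + Wd A B p q u v x) + v x * ‖fderiv ℝ u x‖ +
          u x * ‖fderiv ℝ v x‖ ≤ _
  generalize ‖fderiv ℝ u x‖ = gu at hd0 h0 ⊢
  generalize ‖fderiv ℝ v x‖ = gv at hd1 h0 ⊢
  generalize Wd A B p q u v x = W at hWd h0 ⊢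
  generalize u x ^ (q + 1) = X at hWd huq0 ⊢
  have hJ0 : 0 ≤ (u x + gu) * (v x + gv) := by positivity
  have h1 : gu * gv ≤ (u x + gu) * (v x + gv) :=
    mul_le_mul (by linarith) (by linarith) hd1 (by positivity)
  have h2 : v x * gu ≤ (u x + gu) * (v x + gv) := by
    rw [mul_comm]; exact mul_le_mul (by linarith) (by linarith) hv0 (by positivity)
  have h3 : u x * gv ≤ (u x + gu) * (v x + gv) :=
    mul_le_mul (by linarith) (by linarith) hd1 (by positivity)
  generalize (u x + gu) * (v x + gv) = J at hJ0 h1 h2 h3 ⊢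
  calc ‖x‖ * (gu * gv + W) + v x * gu + u x * gv
      ≤ D * ((X + R + J) + (CA * (Kv + 1) + CB) * (X + R + J)) + (X + R + J) + (X + R + J) := by
        refine add_le_add (add_le_add (mul_le_mul hx (add_le_add (by linarith) ?_) h0 hD)
          (by linarith)) (by linarith)
        linarith [mul_nonneg (mul_nonneg hCA hKv0) hJ0, mul_nonneg hCA (add_nonneg
          (add_nonneg huq0 hR0) hJ0), mul_nonneg hCB (add_nonneg hR0 hJ0)]
    _ = _ := by ring

/-- Bookkeeping of the powers of the mesh width. -/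
lemma weight_count {δ V P c r : ℝ} (hδ : 0 < δ) (hδ1 : δ ≤ 1) (hV : 0 ≤ V) (hP : 0 ≤ P) (hc : 0 ≤ c)
    (NT m K : ℕ) (hr : r = 4 * δ) :
    (2 + (δ ^ NT)⁻¹ * V) * P * ((1 + c * (δ ^ (m + 3))⁻¹) ^ K * (6 / r ^ 3) ^ (K + 1)) ≤
      (2 + V) * P * ((1 + c) ^ K * (6 / 4 ^ 3) ^ (K + 1)) *
        (δ ^ (NT + (m + 3) * K + 3 * (K + 1)))⁻¹ := by
  have hd : 1 ≤ (δ ^ (m + 3))⁻¹ := (one_le_inv₀ (by positivity)).2 (pow_le_one₀ hδ.le hδ1)
  have hR : 1 ≤ (δ ^ NT)⁻¹ := (one_le_inv₀ (by positivity)).2 (pow_le_one₀ hδ.le hδ1)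
  have e : (6 / r ^ 3 : ℝ) = 6 / 4 ^ 3 * (δ ^ 3)⁻¹ := by rw [hr, mul_pow]; field_simp
  have h1 : 1 + c * (δ ^ (m + 3))⁻¹ ≤ (1 + c) * (δ ^ (m + 3))⁻¹ := by rw [add_mul, one_mul]; linarith
  have h3 : 2 + (δ ^ NT)⁻¹ * V ≤ (2 + V) * (δ ^ NT)⁻¹ := by rw [add_mul]; linarith
  rw [e, mul_pow (6 / 4 ^ 3 : ℝ)]
  calc (2 + (δ ^ NT)⁻¹ * V) * P *
        ((1 + c * (δ ^ (m + 3))⁻¹) ^ K * ((6 / 4 ^ 3) ^ (K + 1) * (δ ^ 3)⁻¹ ^ (K + 1)))
      ≤ (2 + V) * (δ ^ NT)⁻¹ * P *
        (((1 + c) * (δ ^ (m + 3))⁻¹) ^ K * ((6 / 4 ^ 3) ^ (K + 1) * (δ ^ 3)⁻¹ ^ (K + 1))) := by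
        gcongr
    _ = _ := by
        simp only [mul_pow, pow_add, pow_mul, mul_inv, inv_pow]
        ring_nf

/-- Reading off the feedback from a bound on the energy of compact sets off the origin. -/
lemma energy_of_bound {A B p q κ c Q Z ρ : ℝ} (hκ : 0 < κ) (hc : 0 < c) (hρ1 : 1 ≤ ρ) (hρ2 : ρ ≤ 2)
    (hQ : 0 ≤ Q) {u v : Euc (m + 1) → ℝ} (huc : Continuous u) (hvc : Continuous v)
    (hup : ∀ x, 0 < u x) (hvp : ∀ x, 0 < v x)
    (hw : ∀ x : Euc (m + 1), 1 / 4 ≤ ‖x‖ → ‖x‖ ≤ 4 * (m + 1 : ℝ) → c ≤ ‖x‖ ^ A ∧ c ≤ ‖x‖ ^ B)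
    (hZ1 : 1 ≤ Z)
    (hfin : ∀ T : Set (Euc (m + 1)), IsCompact T → (0 : Euc (m + 1)) ∉ T → T ⊆ cube ρ →
      κ * (∫ x in T, Wd A B p q u v x) ≤ Q * Z) :
    1 + massW p q u v ρ ≤ max (1 + Q / (κ * c)) (Q / κ) * Z ∧
      ∀ T : Set (Euc (m + 1)), IsCompact T → (0 : Euc (m + 1)) ∉ T → T ⊆ cube ρ →
        (∫ x in T, Wd A B p q u v x) ≤ max (1 + Q / (κ * c)) (Q / κ) * Z := by
  refine ⟨?_, fun T hT h0 hTρ => le_trans ?_
    (mul_le_mul_of_nonneg_right (le_max_right _ _) (by linarith))⟩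
  · set T := (cube ρ : Set (Euc (m + 1))) ∩ {x | 1 / 4 ≤ ‖x‖}
    have hTc : IsCompact T := isCompact_region ρ
    have hfc : Continuous (dens p q u v) := (hvc.rpow_const fun x => Or.inl (hvp x).ne').add
      (huc.rpow_const fun x => Or.inl (hup x).ne')
    have hne : ∀ x ∈ T, ‖x‖ ≠ 0 := fun x hx => by
      have : 1 / 4 ≤ ‖x‖ := hx.2
      linarith
    have hlow : c * massW p q u v ρ ≤ ∫ x in T, Wd A B p q u v x := by
      rw [massW, ← integral_const_mul]
      refine setIntegral_mono_on ((hfc.const_mul c).continuousOn.integrableOn_compact hTc) ?_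
        hTc.measurableSet fun x hx => ?_
      · refine ContinuousOn.integrableOn_compact hTc (ContinuousOn.add ?_ ?_)
        · exact ((continuous_norm.continuousOn).rpow_const fun x hx => Or.inl (hne x hx)).mul
            (hvc.continuousOn.rpow_const fun x _ => Or.inl (hvp x).ne')
        · exact ((continuous_norm.continuousOn).rpow_const fun x hx => Or.inl (hne x hx)).mul
            (huc.continuousOn.rpow_const fun x _ => Or.inl (hup x).ne')
      · have hx2 : ‖x‖ ≤ 4 * (m + 1 : ℝ) := by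
          have := cube_norm_le (n := m + 1) (show 0 ≤ ρ by linarith) (by linarith) hx.1
          push_cast at this ⊢; exact this
        simp only [Wd, dens, mul_add]
        exact add_le_add
          (mul_le_mul_of_nonneg_right (hw x hx.2 hx2).1 (Real.rpow_nonneg (hvp x).le _))
          (mul_le_mul_of_nonneg_right (hw x hx.2 hx2).2 (Real.rpow_nonneg (hup x).le _))
    have h0 : (0 : Euc (m + 1)) ∉ T := fun h => hne 0 h norm_zero
    have hall := (mul_le_mul_of_nonneg_left hlow hκ.le).trans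
      (hfin T hTc h0 inter_subset_left)
    calc 1 + massW p q u v ρ ≤ Z + Q / (κ * c) * Z := by
          refine add_le_add hZ1 ?_
          rw [div_mul_eq_mul_div, le_div_iff₀ (by positivity)]
          linarith
      _ = (1 + Q / (κ * c)) * Z := by ring
      _ ≤ _ := mul_le_mul_of_nonneg_right (le_max_left _ _) (by linarith)
  · rw [div_mul_eq_mul_div, le_div_iff₀ hκ, mul_comm]
    exact hfin T hT h0 hTρ

set_option maxHeartbeats 800000 in
/-- The feedback: the energy outside a hole is bounded by a power less than one of the energy on a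
larger cube, and so is the weighted energy on every compact set of the smaller cube off the
origin. -/
theorem recursion_w (hm : 2 ≤ m) {A B p q : ℝ} (hq : 0 < q) (hqp : q ≤ p) (hpq : 1 < p * q)
    (hA : -2 < A) (hB : -2 < B)
    (hsub : ((m + 1 : ℕ) : ℝ) - 2 <
      (((m + 1 : ℕ) : ℝ) + A) / (p + 1) + (((m + 1 : ℕ) : ℝ) + B) / (q + 1))
    (E : SExpo (m : ℝ) p q) :
    ∃ (C : ℝ) (N : ℕ), 0 ≤ C ∧ ∀ u v : Euc (m + 1) → ℝ, IsWeightedSolution A B p q u v →
      ∀ ρ ∈ Ico (1 : ℝ) 2,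
        1 + massW p q u v ρ ≤ C * ((2 - ρ) / 2) ^ (-(N : ℝ)) *
          (1 + massW p q u v (ρ + (2 - ρ) / 2)) ^ (max ((q + 1) * E.e0) (E.e1 + E.e2)) ∧
        ∀ S : Set (Euc (m + 1)), IsCompact S → (0 : Euc (m + 1)) ∉ S → S ⊆ cube ρ →
          (∫ x in S, Wd A B p q u v x) ≤ C * ((2 - ρ) / 2) ^ (-(N : ℝ)) *
            (1 + massW p q u v (ρ + (2 - ρ) / 2)) ^ (max ((q + 1) * E.e0) (E.e1 + E.e2)) := by
  have hp : 0 < p := hq.trans_le hqp
  have hn3 : 3 ≤ m + 1 := by omega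
  have hm' : (2 : ℝ) ≤ m := by exact_mod_cast hm
  obtain ⟨C1, hC1, hsn⟩ := slice_norms_w (A := A) (B := B) hm hp hq hpq E
  set D : ℝ := 4 * (m + 1 : ℝ) with hD
  obtain ⟨Cc, T, hCc, hT, hcomp⟩ := compare (n := m + 1) (A := A) (B := B) hq hqp hpq
    (show (0:ℝ) < 1 / 2 by norm_num) (show (1:ℝ) / 2 ≤ D + 1 by linarith)
  obtain ⟨cA, CA, hcA, hCA, hwA⟩ := weight_bounds (n := m + 1) A (show (0:ℝ) < 1 / 4 by norm_num)
    (show (1:ℝ) / 4 ≤ D by linarith)
  obtain ⟨cB, CB, hcB, hCB, hwB⟩ := weight_bounds (n := m + 1) B (show (0:ℝ) < 1 / 4 by norm_num)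
    (show (1:ℝ) / 4 ≤ D by linarith)
  set κ := ((((m + 1 : ℕ) : ℝ) + A) / (p + 1) + (((m + 1 : ℕ) : ℝ) + B) / (q + 1)
    - (((m + 1 : ℕ) : ℝ) - 2)) / 2 with hκd
  have hκ : 0 < κ := by rw [hκd]; linarith
  set a1 := (((m + 1 : ℕ) : ℝ) + A) / (p + 1) - κ with ha1
  set a2 := (((m + 1 : ℕ) : ℝ) + B) / (q + 1) - κ with ha2
  set cP := ((m + 1 : ℕ) : ℝ) * (3 * ((m + 1 : ℕ) : ℝ) + 1 + |a1| + |a2|) with hcP
  set b := max ((q + 1) * E.e0) (E.e1 + E.e2) with hb
  have hb0 : 0 ≤ b := le_max_of_le_right (add_nonneg E.e1_mem.1 E.e2_mem.1)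
  obtain ⟨K, hK, hK2⟩ : ∃ K : ℕ, q + 1 ≤ K ∧ 2 ≤ K :=
    ⟨max ⌈q + 1⌉₊ 2, (Nat.le_ceil _).trans (by exact_mod_cast le_max_left _ _), le_max_right _ _⟩
  set NT := ⌈T * (p + 1)⌉₊
  set Kv := (2 * Cc) ^ (p + 1) with hKv
  have hKv0 : 0 ≤ Kv := Real.rpow_nonneg (by linarith) _
  -- comparison at unit scale
  set Kh := D * (1 + CA * (Kv + 1) + CB) + 2 with hKh
  have hKh0 : 0 ≤ Kh := by positivity
  set V := (volume : Measure (Euc m)).real (cube 2)
  set C1' := C1.toReal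
  have hC10 : 0 ≤ C1' := ENNReal.toReal_nonneg
  set Q := cP * (Kh * ((m + 1 : ℝ) * (4 * ((2 + V) *
    ((1 + 12 * (m + 1 : ℝ) * C1') ^ K * (6 / 4 ^ 3) ^ (K + 1)))))) *
    8 ^ (NT + (m + 3) * K + 3 * (K + 1)) with hQ
  have hQ0 : 0 ≤ Q := by positivity
  set c0 := min cA cB with hc0
  have hc00 : 0 < c0 := lt_min hcA hcB
  refine ⟨max (1 + Q / (κ * c0)) (Q / κ), NT + (m + 3) * K + 3 * (K + 1),
    le_max_of_le_left (by positivity), fun u v hs ρ hρ => ?_⟩
  set h := (2 - ρ) / 2 with hh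
  have hh0 : 0 < h := by linarith [hρ.2]
  have hρ1 := hρ.1
  set δ := h / 8 with hδd
  have hδ0 : 0 < δ := by linarith
  have hδ1 : δ ≤ 1 := by linarith
  set ρ' := ρ + 4 * δ with hρ'
  have hns := hsn u v hs ρ δ hρ1 hδ0 (by linarith) (by linarith)
  obtain ⟨huc, hvc, hu2, hv2, hup, hvp, -⟩ := id hs
  set f := dens p q u v with hf
  have hfc : Continuous f := (hvc.rpow_const fun x => Or.inl (hvp x).ne').add
    (huc.rpow_const fun x => Or.inl (hup x).ne')
  have hf0 : ∀ x, 0 ≤ f x := fun x =>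
    add_nonneg (Real.rpow_nonneg (hvp x).le _) (Real.rpow_nonneg (hup x).le _)
  set M1 := massW p q u v (ρ + h) with hM1
  have hM10 : 0 ≤ M1 := integral_nonneg hf0
  set P0 := (1 + M1) ^ E.e0 with hP0d
  set P1 := (1 + M1) ^ E.e1 with hP1d
  set P2 := (1 + M1) ^ E.e2 with hP2d
  set P := (1 + M1) ^ b with hPd
  have hone : ∀ {e : ℝ}, 0 ≤ e → 1 ≤ (1 + M1) ^ e := fun he => Real.one_le_rpow (by linarith) he
  have hP01 := hone E.e0_mem.1
  have hP11 := hone E.e1_mem.1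
  have hP21 := hone E.e2_mem.1
  set U := ext u
  set J1 := jet (ext u)
  set J2 := jet (ext v)
  have hUc : Continuous U := (contDiff_ext hu2).continuous
  have h1c : Continuous J1 := continuous_jet (contDiff_ext hu2)
  have h2c : Continuous J2 := continuous_jet (contDiff_ext hv2)
  have hU0 : ∀ x, 0 ≤ U x := fun x => (ext_pos hup x).le
  have h10 : ∀ x, 0 ≤ J1 x := jet_nonneg hU0
  have h20 : ∀ x, 0 ≤ J2 x := jet_nonneg fun x => (ext_pos hvp x).le
  set d := (δ ^ (m + 3))⁻¹ with hd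
  have hd1 : 1 ≤ d := (one_le_inv₀ (by positivity)).2 (pow_le_one₀ hδ0.le hδ1)
  have hΦ : ∫⁻ y, cut (shell (ρ - 2 * δ) (ρ + 6 * δ)) f y ≤ ENNReal.ofReal M1 := by
    rw [hM1, massW, ofReal_integral_eq_lintegral_ofReal
      (hfc.continuousOn.integrableOn_compact (isCompact_region _)) (Eventually.of_forall hf0),
      ← lintegral_indicator (isCompact_region _).measurableSet]
    refine lintegral_mono fun y => ?_
    by_cases hy : y ∈ shell (ρ - 2 * δ) (ρ + 6 * δ)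
    · rw [cut, indicator_of_mem hy, indicator_of_mem (show y ∈ cube (ρ + h) ∩ {x | 1 / 4 ≤ ‖x‖} from
        ⟨cube_mono (by linarith) hy.1, show 1 / 4 ≤ ‖y‖ by linarith [shell_le_norm hy]⟩)]
    · simp [cut, indicator_of_notMem hy]
  set cc := ENNReal.ofReal d
  have hbd : ∀ {e : ℝ}, 0 ≤ e → ∀ {X : ℝ≥0∞},
      X ≤ C1 * cc * (1 + (∫⁻ y, cut (shell (ρ - 2 * δ) (ρ + 6 * δ)) f y) ^ e) →
      X ≤ ENNReal.ofReal ((1 + M1) ^ e * (2 * C1' * d)) := by
    intro e he X hX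
    refine hX.trans ?_
    calc C1 * cc * (1 + (∫⁻ y, cut (shell (ρ - 2 * δ) (ρ + 6 * δ)) f y) ^ e)
        ≤ C1 * cc * (ENNReal.ofReal ((1 + M1) ^ e) + ENNReal.ofReal ((1 + M1) ^ e)) := by
          gcongr
          · rw [← ENNReal.ofReal_one]; exact ENNReal.ofReal_le_ofReal (hone he)
          · refine (ENNReal.rpow_le_rpow hΦ he).trans ?_
            rw [ENNReal.ofReal_rpow_of_nonneg hM10 he]
            exact ENNReal.ofReal_le_ofReal (Real.rpow_le_rpow hM10 (by linarith) he)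
      _ = _ := by
          rw [← ENNReal.ofReal_add (by positivity) (by positivity), ← ENNReal.ofReal_toReal hC1,
            ← ENNReal.ofReal_mul hC10, ← ENNReal.ofReal_mul (by positivity)]
          congr 1; ring
  set S := slW E ρ' P0 P1 P2 U J1 J2 with hSd
  have hSc : Continuous S := continuous_slW hq E ρ' P0 P1 P2 hUc h1c h2c
  obtain ⟨hS0, hSb⟩ := slW_bounds E (ρ := ρ') (zero_lt_one.trans_le hP01) (zero_lt_one.trans_le hP11)
    (zero_lt_one.trans_le hP21) hU0 h10 h20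
  have hρD : ρ' ≤ D := by rw [hD]; linarith
  have hSi : (∫ r in ρ..ρ', S r) ≤ 12 * (m + 1 : ℝ) * C1' * d := by
    refine (integral_slW_le hq E (M := 2 * C1' * d) (by linarith) (by linarith) hρD
      (zero_lt_one.trans_le hP01) (zero_lt_one.trans_le hP11) (zero_lt_one.trans_le hP21)
      hUc h1c h2c hU0 h10 h20 ENNReal.ofReal_ne_top ENNReal.ofReal_ne_top ENNReal.ofReal_ne_top
      (ENNReal.toReal_ofReal (by positivity)).le (ENNReal.toReal_ofReal (by positivity)).le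
      (ENNReal.toReal_ofReal (by positivity)).le
      (fun i => hbd E.e0_mem.1 (hns i).1) (fun i => hbd E.e1_mem.1 (hns i).2.1)
      (fun i => hbd E.e2_mem.1 (hns i).2.2)).trans (le_of_eq (by ring))
  obtain ⟨w, χ, hwc, hw0, hwz, hwb, hχ, h01, honec, hzero, hderiv⟩ :=
    exists_weight (M := 12 * (m + 1 : ℝ) * C1' * d) (show 0 < ρ by linarith)
      (show ρ < ρ' by linarith) (by linarith) (by positivity) K hSc hS0 hSi
  obtain ⟨hζ1, hζc, hζ0, hζone, -, hζsupp, hζd⟩ :=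
    box_cutoff (n := m + 1) (show 0 < ρ by linarith) hχ h01 honec hzero hderiv
  set ζ := fun x : Euc (m + 1) => ∏ i, χ (x i)
  set R := (δ ^ NT)⁻¹ with hR
  have hR1 : 1 ≤ R := (one_le_inv₀ (by positivity)).2 (pow_le_one₀ hδ0.le hδ1)
  -- the field on the shell
  have hH : ∀ x ∈ shell (n := m + 1) ρ ρ', Hs A B p q u v x ≤
      Kh * (u x ^ (q + 1) + R + (u x + ‖fderiv ℝ u x‖) * (v x + ‖fderiv ℝ v x‖)) := by
    intro x hx
    have hx1 : ρ ≤ ‖x‖ := shell_le_norm hx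
    have hx2 : ‖x‖ ≤ D := by
      have := cube_norm_le (n := m + 1) (show 0 ≤ ρ' by linarith) (by linarith) hx.1
      rw [hD]; push_cast at this ⊢; exact this
    have hδT : (δ ^ (-T)) ^ (p + 1) ≤ R := by
      rw [← Real.rpow_mul hδ0.le, hR, neg_mul, ← Real.rpow_natCast, ← Real.rpow_neg hδ0.le]
      exact Real.rpow_le_rpow_of_exponent_ge hδ0 hδ1 (neg_le_neg (Nat.le_ceil _))
    exact field_bound hp (by linarith) hCc hCA.le hCB.le hup hvp x hx2 (Real.rpow_nonneg hδ0.le _)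
      hδT (hwA x (by linarith) hx2).2 (hwB x (by linarith) hx2).2
      (hcomp u v hs x δ hδ0 (by linarith) (by linarith))
  set W := (2 + R * V) * P * ((1 + 12 * (m + 1 : ℝ) * C1' * d) ^ K * (6 / (ρ' - ρ) ^ 3) ^ (K + 1))
  have hW0 : 0 ≤ W := by
    have := sub_pos.2 (show ρ < ρ' by linarith)
    positivity
  have hP0q : P0 ^ (q + 1) ≤ P := by
    rw [hP0d, ← Real.rpow_mul (by linarith), mul_comm]
    exact Real.rpow_le_rpow_of_exponent_le (by linarith) (le_max_left _ _)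
  have hP12 : P1 * P2 ≤ P := by
    rw [hP1d, hP2d, ← Real.rpow_add (by linarith)]
    exact Real.rpow_le_rpow_of_exponent_le (by linarith) (le_max_right _ _)
  have hZ := boundary_term_w (A := A) (B := B) (p := p) hq.le hρ1 (show ρ ≤ ρ' by linarith)
    (by linarith) hKh0 (zero_le_one.trans hR1) hu2 hv2 hup hvp hH hwc hw0 hwz hζsupp hζd hW0
    fun i r => by
      obtain ⟨c0', c1', c2'⟩ := hSb i r
      refine (mul_le_mul_of_nonneg_left (slice_energy_w hq E i hK hK2 hUc h1c h2c hU0 h10 h20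
        (hS0 |r|) (zero_le_one.trans hR1) (hone hb0) (zero_le_one.trans hP01)
        (zero_le_one.trans hP11) hP0q hP12 c0' c1' c2') (hw0 _)).trans ?_
      have hV : (volume : Measure (Euc m)).real (cube ρ') ≤ V :=
        measureReal_mono (cube_mono (by linarith)) (isCompact_cube 2).measure_lt_top.ne
      calc w |r| * ((2 + R * (volume : Measure (Euc m)).real (cube ρ')) * P * (1 + S |r|) ^ K)
          ≤ w |r| * ((2 + R * V) * P * (1 + S |r|) ^ K) := by
            have := hS0 |r|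
            refine mul_le_mul_of_nonneg_left ?_ (hw0 _)
            gcongr
        _ = (2 + R * V) * P * (w |r| * (1 + S |r|) ^ K) := by ring
        _ ≤ W := mul_le_mul_of_nonneg_left (hwb _) (by positivity)
  set E' := NT + (m + 3) * K + 3 * (K + 1) with hE'
  set Z := h ^ (-(E' : ℝ)) * (1 + M1) ^ b with hZd
  have hWle : W ≤ (2 + V) * P * ((1 + 12 * (m + 1 : ℝ) * C1') ^ K * (6 / 4 ^ 3) ^ (K + 1)) *
      (δ ^ E')⁻¹ :=
    weight_count hδ0 hδ1 measureReal_nonneg (zero_le_one.trans (hone hb0)) (by positivity) NT m K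
      (show ρ' - ρ = 4 * δ by rw [hρ']; ring)
  have hδh : (δ ^ E')⁻¹ = 8 ^ E' * h ^ (-(E' : ℝ)) := by
    rw [Real.rpow_neg hh0.le, Real.rpow_natCast, hδd, div_pow]
    field_simp
  have hfin : ∀ T : Set (Euc (m + 1)), IsCompact T → (0 : Euc (m + 1)) ∉ T → T ⊆ cube ρ →
      κ * (∫ x in T, Wd A B p q u v x) ≤ Q * Z := by
    intro T hT h0 hTρ
    have hin : ∀ x : Euc (m + 1), ‖x‖ ≤ 1 → ζ x = 1 := fun x hx =>
      hζone x fun i => (abs_apply_le_norm x i).trans (hx.trans hρ1)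
    refine ((pohozaev_cut (A := A) (B := B) (κ := κ) (a1 := a1) (a2 := a2) hn3 hp hq hA hB hκ.le
      (by rw [ha1, ha2, hκd]; ring) (by rw [ha1]; ring) (by rw [ha2]; ring) hs hζ1 hζc hζ0 hin
      hT h0 fun x hx => hζone x (hTρ hx)).trans (mul_le_mul_of_nonneg_left (hZ.trans
        (mul_le_mul_of_nonneg_left (mul_le_mul_of_nonneg_left
          (mul_le_mul_of_nonneg_left hWle (by norm_num)) (by positivity)) hKh0))
        (by positivity))).trans (le_of_eq ?_)
    rw [hQ, hZd, hδh, hcP]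
    ring
  have hexp : h ^ (-(E' : ℝ)) * (1 + massW p q u v (ρ + h)) ^ b = Z := rfl
  rw [mul_assoc]
  exact energy_of_bound (A := A) (B := B) hκ hc00 hρ1 hρ.2.le hQ0 huc hvc hup hvp
    (fun x a b => ⟨(min_le_left _ _).trans (hwA x a b).1, (min_le_right _ _).trans (hwB x a b).1⟩)
    (one_le_mul_of_one_le_of_one_le (Real.one_le_rpow_of_pos_of_le_one_of_nonpos hh0 (by linarith)
      (neg_nonpos.2 (Nat.cast_nonneg _))) (hone hb0)) hfin

/-- Scaling of the weighted energy of a set. -/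
lemma scaled_energy {A B p q : ℝ} (hp : 0 < p) (hq : 0 < q) (hpq : 1 < p * q)
    {u v : Euc n → ℝ} (hup : ∀ x, 0 < u x) (hvp : ∀ x, 0 < v x) {R : ℝ} (hR : 0 < R)
    (S : Set (Euc n)) :
    ∫ x in S, Wd A B p q (fun x => R ^ expo A B p q * u (R • x))
        (fun x => R ^ expo B A q p * v (R • x)) x
      = R ^ (expo A B p q + expo B A q p - ((n : ℝ) - 2)) * ∫ x in R • S, Wd A B p q u v x := by
  have a1 := expo_spec (A := A) (B := B) hpq.ne'
  have a2 : expo A B p q * q = expo B A q p + 2 + B := expo_spec (by rw [mul_comm]; exact hpq.ne')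
  set α := expo A B p q
  set β := expo B A q p
  have e : ∀ x, Wd A B p q (fun x => R ^ α * u (R • x)) (fun x => R ^ β * v (R • x)) x
      = R ^ (α + β + 2) * Wd A B p q u v (R • x) := fun x => by
    simp only [Wd]
    rw [norm_smul, Real.norm_of_nonneg hR.le, Real.mul_rpow (by positivity) (hvp _).le,
      Real.mul_rpow (by positivity) (hup _).le, ← Real.rpow_mul hR.le, ← Real.rpow_mul hR.le,
      Real.mul_rpow hR.le (norm_nonneg x), Real.mul_rpow hR.le (norm_nonneg x),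
      show β * (p + 1) = α + β + 2 + A by linear_combination a1,
      show α * (q + 1) = α + β + 2 + B by linear_combination a2,
      Real.rpow_add hR (α + β + 2) A, Real.rpow_add hR (α + β + 2) B]
    ring
  simp only [e]
  rw [integral_const_mul, Measure.setIntegral_comp_smul_of_pos volume (Wd A B p q u v) S hR,
    finrank_euclideanSpace_fin, smul_eq_mul, ← mul_assoc]
  congr 1
  rw [show α + β - ((n : ℝ) - 2) = (α + β + 2) - n by ring, Real.rpow_sub hR, Real.rpow_natCast,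
    div_eq_mul_inv]

/-- No solution when `q ≤ p` and `p (q (n-3) - 2) < n - 1`. -/
theorem no_solution_souplet_ordered (hn : 3 ≤ n) {A B p q : ℝ} (hq : 0 < q) (hqp : q ≤ p)
    (hpq : 1 < p * q) (hA : -2 < A) (hB : -2 < B)
    (hsub : (n : ℝ) - 2 < ((n : ℝ) + A) / (p + 1) + ((n : ℝ) + B) / (q + 1))
    (hcond : p * (q * ((n : ℝ) - 3) - 2) < (n : ℝ) - 1) :
    ¬ ∃ u v : Euc n → ℝ, IsWeightedSolution A B p q u v := by
  obtain ⟨m, rfl⟩ : ∃ m, n = m + 1 := ⟨n - 1, by omega⟩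
  have hm : 2 ≤ m := by omega
  have hp : 0 < p := hq.trans_le hqp
  have hcond' : p * (q * ((m : ℝ) - 2) - 2) < m := by
    push_cast at hcond
    rw [show (m : ℝ) + 1 - 3 = m - 2 by ring, show (m : ℝ) + 1 - 1 = m by ring] at hcond
    exact hcond
  obtain ⟨E⟩ := exists_sexpo (m := (m : ℝ)) (by exact_mod_cast hm) hq hqp hpq hcond'
  obtain ⟨C, N, hC, hrec⟩ := recursion_w hm hq hqp hpq hA hB hsub E
  set b := max ((q + 1) * E.e0) (E.e1 + E.e2)
  have hb0 : 0 ≤ b := le_max_of_le_right (add_nonneg E.e1_mem.1 E.e2_mem.1)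
  obtain ⟨Bd, hBd⟩ := hole_filling (mul_nonneg zero_le_two hC) (Nat.cast_nonneg N) hb0
    (max_lt E.pot_cond E.jet_cond)
  -- the weighted energy on compact sets of the unit cube is universally bounded
  have huniv : ∀ u v : Euc (m + 1) → ℝ, IsWeightedSolution A B p q u v →
      ∀ T : Set (Euc (m + 1)), IsCompact T → (0 : Euc (m + 1)) ∉ T → T ⊆ cube 1 →
        (∫ x in T, Wd A B p q u v x) ≤ Bd := by
    intro u v hs T hT h0 hT1
    have hr := hrec u v hs
    obtain ⟨huc, hvc, -, -, hup, hvp, -⟩ := hs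
    have hfc : Continuous (dens p q u v) := (hvc.rpow_const fun x => Or.inl (hvp x).ne').add
      (huc.rpow_const fun x => Or.inl (hup x).ne')
    have hf0 : ∀ x, 0 ≤ dens p q u v x := fun x =>
      add_nonneg (Real.rpow_nonneg (hvp x).le _) (Real.rpow_nonneg (hup x).le _)
    set J := ∫ x in T, Wd A B p q u v x
    have hJ : 0 ≤ J := integral_nonneg fun x => Wd_nonneg hup hvp x
    have hm0 : ∀ ρ, 0 ≤ massW p q u v ρ := fun ρ => integral_nonneg hf0
    refine le_trans (le_add_of_nonneg_left (hm0 1)) (hBd (fun ρ => massW p q u v ρ + J)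
      (fun a _ c _ hac => add_le_add (setIntegral_mono_set
        (hfc.continuousOn.integrableOn_compact (isCompact_region c)) (Eventually.of_forall hf0)
        (Eventually.of_forall (inter_subset_inter_left _ (cube_mono hac)))) le_rfl)
      (add_nonneg (hm0 1) hJ) fun ρ hρ => ?_)
    obtain ⟨r1, r2⟩ := hr ρ hρ
    have r2' := r2 T hT h0 (hT1.trans (cube_mono hρ.1))
    have hle : C * ((2 - ρ) / 2) ^ (-(N : ℝ)) * (1 + massW p q u v (ρ + (2 - ρ) / 2)) ^ b ≤
        C * ((2 - ρ) / 2) ^ (-(N : ℝ)) * (1 + (massW p q u v (ρ + (2 - ρ) / 2) + J)) ^ b :=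
      mul_le_mul_of_nonneg_left (Real.rpow_le_rpow (by linarith [hm0 (ρ + (2 - ρ) / 2)])
        (by linarith) hb0) (mul_nonneg hC (Real.rpow_nonneg (by linarith [hρ.2]) _))
    linarith
  rintro ⟨u, v, hs⟩
  obtain ⟨huc, hvc, -, -, hup, hvp, -⟩ := id hs
  set S : Set (Euc (m + 1)) := {x | 1 ≤ ‖x‖ ∧ ‖x‖ ≤ 2}
  have hSc : IsCompact S := (isCompact_closedBall (0 : Euc (m + 1)) 2).of_isClosed_subset
    (isClosed_le continuous_const continuous_norm |>.inter
      (isClosed_le continuous_norm continuous_const))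
    fun x hx => by simpa using hx.2
  have hS0 : ∀ x ∈ S, x ≠ 0 := fun x hx h => by
    have := hx.1; rw [h, norm_zero] at this; linarith
  have hW0 : ∀ x, x ≠ 0 → 0 < Wd A B p q u v x := fun x hx =>
    add_pos (mul_pos (Real.rpow_pos_of_pos (norm_pos_iff.2 hx) _)
      (Real.rpow_pos_of_pos (hvp x) _))
      (mul_pos (Real.rpow_pos_of_pos (norm_pos_iff.2 hx) _) (Real.rpow_pos_of_pos (hup x) _))
  have hWS : IntegrableOn (Wd A B p q u v) S := by
    refine ContinuousOn.integrableOn_compact hSc (ContinuousOn.add ?_ ?_)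
    · exact ((continuous_norm.continuousOn).rpow_const fun x hx =>
        Or.inl (norm_ne_zero_iff.2 (hS0 x hx))).mul
        (hvc.continuousOn.rpow_const fun x _ => Or.inl (hvp x).ne')
    · exact ((continuous_norm.continuousOn).rpow_const fun x hx =>
        Or.inl (norm_ne_zero_iff.2 (hS0 x hx))).mul
        (huc.continuousOn.rpow_const fun x _ => Or.inl (hup x).ne')
  set I := ∫ x in S, Wd A B p q u v x with hI
  have hI0 : 0 < I := by
    rw [hI, setIntegral_pos_iff_support_of_nonneg_ae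
      ((ae_restrict_mem hSc.measurableSet).mono fun x hx => (hW0 x (hS0 x hx)).le) hWS]
    set x0 : Euc (m + 1) := (3 / 2 : ℝ) • ev 0
    have hx0 : ‖x0‖ = 3 / 2 := by simp [x0, norm_smul, norm_ev]
    refine lt_of_lt_of_le (Metric.measure_ball_pos volume x0 (by norm_num : (0:ℝ) < 1 / 4))
      (measure_mono fun y hy => ?_)
    rw [Metric.mem_ball, dist_eq_norm] at hy
    have hy' : y ∈ S := by
      constructor <;> linarith [norm_le_norm_add_norm_sub' y x0, norm_le_norm_add_norm_sub y x0]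
    exact ⟨(hW0 y (hS0 y hy')).ne', hy'⟩
  set e := expo A B p q + expo B A q p - (((m + 1 : ℕ) : ℝ) - 2) with he
  have he0 : 0 < e := pos_of_mul_pos_left
    (by rw [he, expo_sum hp hq hpq]; exact mul_pos (by positivity) (by linarith))
    (by linarith : (0:ℝ) ≤ p * q - 1)
  have key : ∀ R : ℝ, 2 ≤ R → R ^ e * I ≤ Bd := by
    intro R hR
    have hR0 : 0 < R := by linarith
    have h1 := huniv _ _ (hs.scaled hpq.ne' hR0) (R⁻¹ • S) (hSc.smul _) (fun h => ?_) ?_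
    · rwa [scaled_energy hp hq hpq hup hvp hR0, smul_inv_smul₀ hR0.ne', ← hI, ← he] at h1
    · obtain ⟨x, hx, hx0⟩ := h
      exact hS0 x hx ((smul_eq_zero.1 hx0).resolve_left (inv_ne_zero hR0.ne'))
    · rintro _ ⟨x, hx, rfl⟩ i
      refine (abs_apply_le_norm _ i).trans ?_
      rw [norm_smul, norm_inv, Real.norm_of_nonneg hR0.le, inv_mul_le_one₀ hR0]
      linarith [hx.2]
  have hlim : Tendsto (fun R : ℝ => R ^ e * I) atTop atTop :=
    (tendsto_rpow_atTop he0).atTop_mul_const hI0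
  obtain ⟨R, hR1, hR2⟩ := ((eventually_ge_atTop (2 : ℝ)).and
    (hlim.eventually (eventually_gt_atTop Bd))).exists
  linarith [key R hR1]

/-- No solution when the larger Lane–Emden scaling exponent exceeds `n - 3`. -/
theorem no_solution_souplet (hn : 3 ≤ n) {A B p q : ℝ} (hp : 0 < p) (hq : 0 < q)
    (hsub : (n : ℝ) - 2 < ((n : ℝ) + A) / (p + 1) + ((n : ℝ) + B) / (q + 1))
    (hcond : ((n : ℝ) - 3) * (p * q - 1) < 2 * (max p q + 1)) :
    ¬ ∃ u v : Euc n → ℝ, IsWeightedSolution A B p q u v := by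
  by_cases h : A ≤ -2 ∨ B ≤ -2 ∨ p * q ≤ 1
  · exact no_solution_elementary hn hp hq h
  push Not at h
  rcases le_total q p with hqp | hqp
  · rw [max_eq_left hqp] at hcond
    exact no_solution_souplet_ordered hn hq hqp h.2.2 h.1 h.2.1 hsub (by linarith)
  · rw [max_eq_right hqp] at hcond
    rintro ⟨u, v, hs⟩
    exact no_solution_souplet_ordered hn hp hqp (by rw [mul_comm]; exact h.2.2) h.2.1 h.1
      (by linarith) (by linarith) ⟨v, u, hs.swap⟩

end Vale.Agent.P100W
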