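import Vale.Agent.P100W.SoupletWeak
import Vale.Agent.P100W.Kelvin

/-!
The local comparison `v ≤ C (u^σ + δ^(-2/(s-1)))`, `σ = (q+1)/(p+1) ≤ 1`, by a Keller–Osserman
barrier: where `φ = v - ℓ u^σ` is positive one has `Δ φ ≥ k φ^s` with `s = (p q + q)/(q + 1) > 1`.
-/

open Filter Topology Laplacian Set
open scoped ContDiff

noncomputable section

namespace Vale.Agent.P100W

open Vale.Agent.P100 Vale.Agent.P100C

variable {n : ℕ}

lemma lap_comp {f : Euc n → ℝ} {h h' : ℝ → ℝ} {h'' : ℝ} {x : Euc n} (hf : ContDiffAt ℝ 2 f x)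
    (hh : ∀ᶠ t in 𝓝 (f x), HasDerivAt h (h' t) t) (hh2 : HasDerivAt h' h'' (f x))
    (hc : ContDiffAt ℝ 2 (fun y => h (f y)) x) :
    Δ (fun y => h (f y)) x = h' (f x) * Δ f x + h'' * ∑ i, pd i f x ^ 2 := by
  rw [laplacian_eq_sum hc, laplacian_eq_sum hf, Finset.mul_sum, Finset.mul_sum,
    ← Finset.sum_add_distrib]
  refine Finset.sum_congr rfl fun i _ => ?_
  have hev : pd i (fun y => h (f y)) =ᶠ[𝓝 x] fun y => h' (f y) * pd i f y := by
    filter_upwards [hf.continuousAt.eventually hh, hf.eventually (by simp)] with y h1 h2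
    exact pd_comp (h2.differentiableAt two_ne_zero) h1 i
  have d0 : DifferentiableAt ℝ f x := hf.differentiableAt two_ne_zero
  have d1 : DifferentiableAt ℝ (fun y => h' (f y)) x := hh2.differentiableAt.fun_comp' x d0
  rw [pd_eq_of_eventually hev, pd_mul' d1 (differentiableAt_pd hf i), pd_comp d0 hh2]
  ring

/-- The barrier is a strict supersolution. -/
lemma barrier_lap {Λ s k δ : ℝ} (hΛ0 : 0 < Λ) (hs : 1 < s) (hk : 0 < k) {x z : Euc n}
    (hρp : 0 < δ ^ 2 - ‖z - x‖ ^ 2)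
    (hh2 : ContDiffAt ℝ 2 (fun y => Λ * (δ ^ 2 - ‖y - x‖ ^ 2) ^ (-(2 / (s - 1)))) z)
    (hΛs : k * Λ ^ s = Λ * (2 / (s - 1) * (4 * (2 / (s - 1)) + 4 + 2 * n + 1) * δ ^ 2)) :
    Δ (fun y => Λ * (δ ^ 2 - ‖y - x‖ ^ 2) ^ (-(2 / (s - 1)))) z
      < k * (Λ * (δ ^ 2 - ‖z - x‖ ^ 2) ^ (-(2 / (s - 1)))) ^ s := by
  set τ := 2 / (s - 1) with hτ
  have hs1 : 0 < s - 1 := by linarith
  have hτ0 : 0 < τ := div_pos two_pos hs1
  set g : Euc n → ℝ := fun y => δ ^ 2 - ‖y - x‖ ^ 2 with hg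
  set ρ := δ ^ 2 - ‖z - x‖ ^ 2 with hρd
  have hδ2 : 0 < δ ^ 2 := by nlinarith [sq_nonneg ‖z - x‖]
  have hg2 : ContDiff ℝ 2 g := contDiff_const.sub ((contDiff_id.sub contDiff_const).norm_sq ℝ)
  have hgd : ∀ i, pd i g = fun y => -2 * (y i - x i) := fun i => funext fun y => by
    rw [pd, (hasFDerivAt_gap (δ ^ 2) x y).fderiv]
    simp [ev, EuclideanSpace.inner_single_right]
  have hgg : Δ g z = -(2 * n) := by
    rw [laplacian_eq_sum hg2.contDiffAt]
    have : ∀ i, pd i (pd i g) z = -2 := fun i => by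
      have hd : DifferentiableAt ℝ (fun y : Euc n => y i) z :=
        (contDiff_coord (k := 1) i).differentiable one_ne_zero z
      rw [hgd, pd_const_mul _ (hd.sub_const _)]
      have : pd i (fun y : Euc n => y i - x i) z = pd i (fun y : Euc n => y i) z := by
        simp [pd, fderiv_sub_const]
      rw [this, pd_coord, if_pos rfl, mul_one]
    simp [this, mul_comm]
  have hsum : ∑ i, pd i g z ^ 2 = 4 * ‖z - x‖ ^ 2 := by
    simp only [hgd, EuclideanSpace.norm_sq_eq, Finset.mul_sum]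
    exact Finset.sum_congr rfl fun i _ => by simp [Real.norm_eq_abs, sq_abs]; ring
  have hlap : Δ (fun y => (fun t : ℝ => Λ * t ^ (-τ)) (g y)) z =
      Λ * (-τ * ρ ^ (-τ - 1)) * Δ g z +
      Λ * (-τ * ((-τ - 1) * ρ ^ (-τ - 1 - 1))) * ∑ i, pd i g z ^ 2 :=
    lap_comp (f := g) (h := fun t : ℝ => Λ * t ^ (-τ))
      (h' := fun t : ℝ => Λ * (-τ * t ^ (-τ - 1))) hg2.contDiffAt
      ((eventually_gt_nhds (show 0 < g z from hρp)).mono fun t ht =>
        (Real.hasDerivAt_rpow_const (Or.inl ht.ne')).const_mul Λ)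
      (((Real.hasDerivAt_rpow_const (Or.inl hρp.ne')).const_mul (-τ)).const_mul Λ) hh2
  rw [hgg, hsum] at hlap
  simp only [hg] at hlap
  set P := ρ ^ (-τ - 1 - 1) with hP
  have hP0 : 0 < P := Real.rpow_pos_of_pos hρp _
  have e1 : ρ ^ (-τ - 1) = P * ρ := by
    rw [hP, ← Real.rpow_add_one hρp.ne', sub_add_cancel]
  rw [e1] at hlap
  have hsz : ‖z - x‖ ^ 2 + ρ = δ ^ 2 := by rw [hρd]; ring
  have hhz : (Λ * ρ ^ (-τ)) ^ s = Λ ^ s * P := by
    rw [Real.mul_rpow hΛ0.le (Real.rpow_nonneg hρp.le _), ← Real.rpow_mul hρp.le, hP]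
    congr 2
    rw [hτ]; field_simp; ring
  rw [hhz, ← mul_assoc, hΛs, hlap]
  have hb : (τ + 1) * (4 * ‖z - x‖ ^ 2) + 2 * n * ρ < (4 * τ + 4 + 2 * n + 1) * δ ^ 2 := by
    have := mul_le_mul_of_nonneg_left (show ρ ≤ δ ^ 2 by nlinarith [sq_nonneg ‖z - x‖])
      (Nat.cast_nonneg (α := ℝ) n)
    have := mul_le_mul_of_nonneg_left (show ‖z - x‖ ^ 2 ≤ δ ^ 2 by linarith)
      (show 0 ≤ τ + 1 by linarith)
    linarith
  have := mul_lt_mul_of_pos_left hb (mul_pos (mul_pos hΛ0 hτ0) hP0)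
  linarith

/-- A function with `Δ φ ≥ k φ^s` where positive is bounded at the centre of a ball. -/
lemma keller_osserman {s k : ℝ} (hs : 1 < s) (hk : 0 < k) : ∃ C : ℝ, 0 ≤ C ∧
    ∀ (φ : Euc n → ℝ) (x : Euc n) (δ : ℝ), 0 < δ → ContinuousOn φ (Metric.closedBall x δ) →
      (∀ y ∈ Metric.ball x δ, 0 < φ y → ContDiffAt ℝ 2 φ y ∧ k * φ y ^ s ≤ Δ φ y) →
      φ x ≤ C * δ ^ (-(2 / (s - 1))) := by
  set τ := 2 / (s - 1) with hτ
  have hs1 : 0 < s - 1 := by linarith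
  have hτ0 : 0 < τ := div_pos two_pos hs1
  set Q := τ * (4 * τ + 4 + 2 * n + 1) / k with hQ
  have hQ0 : 0 < Q := by positivity
  refine ⟨Q ^ (1 / (s - 1)), by positivity, fun φ x δ hδ hc hd => ?_⟩
  set Λ := (Q * δ ^ 2) ^ (1 / (s - 1)) with hΛ
  have hΛ0 : 0 < Λ := by positivity
  have hΛs : k * Λ ^ s = Λ * (τ * (4 * τ + 4 + 2 * n + 1) * δ ^ 2) := by
    rw [show s = 1 + (s - 1) by ring, Real.rpow_add hΛ0, Real.rpow_one, hΛ,
      ← Real.rpow_mul (by positivity : 0 ≤ Q * δ ^ 2), one_div_mul_cancel hs1.ne', Real.rpow_one,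
      hQ]
    field_simp
  set h : Euc n → ℝ := fun y => Λ * (δ ^ 2 - ‖y - x‖ ^ 2) ^ (-τ) with hh
  obtain ⟨M, hM⟩ := (isCompact_closedBall x δ).exists_bound_of_continuousOn hc
  set ρ0 := min (δ ^ 2 / 2) ((Λ / (|M| + 1)) ^ (1 / τ)) with hρ0
  have hρ00 : 0 < ρ0 := lt_min (by positivity) (by positivity)
  have hρδ : ρ0 < δ ^ 2 := (min_le_left _ _).trans_lt (by linarith [pow_pos hδ 2])
  set r := √(δ ^ 2 - ρ0) with hr
  have hr0 : 0 < r := Real.sqrt_pos.2 (by linarith)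
  have hr2 : r ^ 2 = δ ^ 2 - ρ0 := Real.sq_sqrt (by linarith)
  have hrδ : r < δ := lt_of_pow_lt_pow_left₀ 2 hδ.le (by linarith)
  have hρ : ∀ y ∈ Metric.closedBall x r, 0 < δ ^ 2 - ‖y - x‖ ^ 2 := fun y hy => by
    rw [Metric.mem_closedBall, dist_eq_norm] at hy
    nlinarith [norm_nonneg (y - x)]
  have hh2 : ∀ y ∈ Metric.closedBall x r, ContDiffAt ℝ 2 h y := fun y hy =>
    contDiffAt_const.mul ((contDiffAt_const.sub
      ((contDiffAt_id.sub contDiffAt_const).norm_sq ℝ)).rpow_const_of_ne (hρ y hy).ne')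
  obtain ⟨z, hz, hmin⟩ := (isCompact_closedBall x r).exists_isMinOn
    ⟨x, Metric.mem_closedBall_self hr0.le⟩ (f := fun y => h y - φ y)
    (fun y hy => ((hh2 y hy).continuousAt.continuousWithinAt).sub
      ((hc.mono (Metric.closedBall_subset_closedBall hrδ.le)) y hy))
  have hpos : ∀ y ∈ Metric.closedBall x r, 0 < h y := fun y hy => by
    have := hρ y hy; positivity
  have hxval : h x = Q ^ (1 / (s - 1)) * δ ^ (-τ) := by
    have e1 : (δ ^ 2) ^ (1 / (s - 1)) = δ ^ τ := by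
      rw [← Real.rpow_two, ← Real.rpow_mul hδ.le, hτ]; ring_nf
    have e2 : (δ ^ 2) ^ (-τ) = δ ^ (-(2 * τ)) := by
      rw [← Real.rpow_two, ← Real.rpow_mul hδ.le]; ring_nf
    simp only [hh, sub_self, norm_zero, ne_eq, two_ne_zero, not_false_eq_true, zero_pow, sub_zero]
    rw [hΛ, Real.mul_rpow hQ0.le (by positivity), e1, e2, mul_assoc, ← Real.rpow_add hδ]
    ring_nf
  suffices 0 ≤ h z - φ z by
    have hx := hmin (Metric.mem_closedBall_self hr0.le)
    simp only [Set.mem_ofPred_eq] at hx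
    linarith
  by_contra hlt
  rw [not_le] at hlt
  have hz' := hz
  rw [Metric.mem_closedBall, dist_eq_norm] at hz'
  rcases hz'.eq_or_lt with he | he
  · have hbig : |M| + 1 ≤ h z := by
      simp only [hh, he, hr2, sub_sub_cancel]
      rw [Real.rpow_neg hρ00.le, ← div_eq_mul_inv, le_div_iff₀ (by positivity), mul_comm,
        ← le_div_iff₀ (by positivity)]
      refine (Real.rpow_le_rpow hρ00.le (min_le_right _ _) hτ0.le).trans (le_of_eq ?_)
      rw [← Real.rpow_mul (by positivity), one_div_mul_cancel hτ0.ne', Real.rpow_one]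
    have h1 := hM z (Metric.closedBall_subset_closedBall hrδ.le hz)
    rw [Real.norm_eq_abs] at h1
    linarith [le_abs_self (φ z), le_abs_self M]
  · have hzb : z ∈ Metric.ball x r := by rw [Metric.mem_ball, dist_eq_norm]; exact he
    have hzδ : z ∈ Metric.ball x δ := Metric.ball_subset_ball hrδ.le hzb
    obtain ⟨hφ2, hφs⟩ := hd z hzδ (by linarith [hpos z hz])
    have hloc : IsLocalMin (fun y => h y - φ y) z :=
      hmin.isLocalMin (mem_of_superset (Metric.isOpen_ball.mem_nhds hzb)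
        Metric.ball_subset_closedBall)
    have hL := lap_nonneg_of_isLocalMin ((hh2 z hz).sub hφ2) hloc
    have e : Δ (fun y => h y - φ y) z = Δ h z - Δ φ z := by
      rw [show (fun y => h y - φ y) = fun y => h y + (-1) * φ y from funext fun y => by ring,
        lap_add_mul (hh2 z hz) hφ2]
      ring
    rw [e] at hL
    have hlt2 : Δ h z < k * h z ^ s :=
      barrier_lap hΛ0 hs hk (hρ z hz) (hh2 z hz) hΛs
    have := mul_le_mul_of_nonneg_left
      (Real.rpow_le_rpow (hpos z hz).le (show h z ≤ φ z by linarith) (show 0 ≤ s by linarith)) hk.le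
    linarith

/-- The comparison of the two components near the unit sphere. -/
theorem compare {A B p q : ℝ} (hq : 0 < q) (hqp : q ≤ p) (hpq : 1 < p * q) {r D : ℝ} (hr : 0 < r)
    (hrD : r ≤ D) : ∃ C T : ℝ, 0 ≤ C ∧ 0 ≤ T ∧ ∀ u v : Euc n → ℝ,
      IsWeightedSolution A B p q u v → ∀ (x : Euc n) (δ : ℝ), 0 < δ → r + δ ≤ ‖x‖ →
        ‖x‖ + δ ≤ D → v x ≤ C * (u x ^ ((q + 1) / (p + 1)) + δ ^ (-T)) := by
  have hp : 0 < p := hq.trans_le hqp
  set σ := (q + 1) / (p + 1) with hσ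
  have hσ0 : 0 < σ := div_pos (by linarith) (by linarith)
  have hσ1 : σ ≤ 1 := (div_le_one (by linarith)).2 (by linarith)
  obtain ⟨cA, _, hcA, -, hwA⟩ : ∃ c C : ℝ, 0 < c ∧ 0 < C ∧ ∀ y : Euc n, r ≤ ‖y‖ → ‖y‖ ≤ D →
      c ≤ ‖y‖ ^ A := by
    obtain ⟨c, C, h1, h2, h3⟩ := weight_bounds (n := n) A hr hrD
    exact ⟨c, C, h1, h2, fun y a b => (h3 y a b).1⟩
  obtain ⟨_, CB, -, hCB, hwB⟩ := weight_bounds (n := n) B hr hrD
  set ℓ := (2 * CB / (σ * cA)) ^ (1 / (p + 1)) with hℓ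
  have hℓ0 : 0 < ℓ := by positivity
  have hℓp : ℓ ^ p * (ℓ * σ * cA) = 2 * CB := by
    have : ℓ ^ (p + 1) = 2 * CB / (σ * cA) := by
      rw [hℓ, ← Real.rpow_mul (by positivity), one_div_mul_cancel (by linarith), Real.rpow_one]
    rw [Real.rpow_add_one hℓ0.ne'] at this
    calc ℓ ^ p * (ℓ * σ * cA) = ℓ ^ p * ℓ * (σ * cA) := by ring
      _ = _ := by rw [this]; field_simp
  set e := (σ - 1) / σ with he
  set s := p + e with hs
  have hs1 : 1 < s := by
    rw [hs, he, hσ, show p + ((q + 1) / (p + 1) - 1) / ((q + 1) / (p + 1)) =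
      q * (p + 1) / (q + 1) by field_simp; ring, lt_div_iff₀ (by linarith)]
    linarith
  set k := ℓ * σ * cA / 2 * (ℓ ^ e)⁻¹ with hk
  have hk0 : 0 < k := by positivity
  obtain ⟨C, hC, hKO⟩ := keller_osserman (n := n) hs1 hk0
  refine ⟨max ℓ C, 2 / (s - 1), hC.trans (le_max_right _ _), div_nonneg zero_le_two (by linarith),
    fun u v hsol x δ hδ hx1 hx2 => ?_⟩
  obtain ⟨huc, hvc, hu2, hv2, hup, hvp, heq⟩ := hsol
  have hus : Continuous fun y => u y ^ σ := huc.rpow_const fun y => Or.inl (hup y).ne'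
  have hball : ∀ y ∈ Metric.ball x δ, r ≤ ‖y‖ ∧ ‖y‖ ≤ D := fun y hy => by
    rw [Metric.mem_ball, dist_eq_norm] at hy
    constructor <;> linarith [norm_le_norm_add_norm_sub y x, norm_le_norm_add_norm_sub' y x]
  have hKO' := hKO (fun y => v y + (-ℓ) * u y ^ σ) x δ hδ
    (hvc.add (hus.const_mul (-ℓ))).continuousOn fun y hy hpos => by
    obtain ⟨g1, g2⟩ := hball y hy
    have hy0 : y ≠ 0 := norm_pos_iff.1 (hr.trans_le g1)
    have hu' := hu2.contDiffAt (isOpen_ne.mem_nhds hy0)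
    have hv' := hv2.contDiffAt (isOpen_ne.mem_nhds hy0)
    have hpow : ContDiffAt ℝ 2 (fun y => u y ^ σ) y := hu'.rpow_const_of_ne (hup y).ne'
    refine ⟨hv'.add (contDiffAt_const.mul hpow), ?_⟩
    set U := u y
    set V := v y
    have hU : 0 < U := hup y
    have hV : 0 < V := hvp y
    obtain ⟨eq1, eq2⟩ := heq y hy0
    rw [lap_add_mul hv' hpow, lap_comp (h := fun t : ℝ => t ^ σ)
      (h' := fun t => σ * t ^ (σ - 1)) (h'' := σ * ((σ - 1) * U ^ (σ - 1 - 1))) hu'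
      ((eventually_gt_nhds hU).mono fun t ht => Real.hasDerivAt_rpow_const (Or.inl ht.ne'))
      ((Real.hasDerivAt_rpow_const (Or.inl hU.ne')).const_mul σ) hpow]
    have hgrad : σ * ((σ - 1) * U ^ (σ - 1 - 1)) * ∑ i, pd i u y ^ 2 ≤ 0 :=
      mul_nonpos_of_nonpos_of_nonneg (mul_nonpos_of_nonneg_of_nonpos hσ0.le
        (mul_nonpos_of_nonpos_of_nonneg (by linarith) (by positivity)))
        (Finset.sum_nonneg fun i _ => sq_nonneg _)
    have hV' : ℓ * U ^ σ ≤ V := by linarith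
    set W := U ^ (σ - 1) * V ^ p with hW
    have hW0 : 0 < W := by positivity
    have hB : ‖y‖ ^ B * U ^ q ≤ ℓ * σ * cA / 2 * W := by
      have h1 : ℓ ^ p * U ^ q ≤ W := by
        rw [hW, show q = (σ - 1) + σ * p by rw [hσ]; field_simp; ring, Real.rpow_add hU,
          mul_left_comm, Real.rpow_mul hU.le]
        refine mul_le_mul_of_nonneg_left ?_ (by positivity)
        rw [← Real.mul_rpow hℓ0.le (by positivity)]
        exact Real.rpow_le_rpow (by positivity) hV' hp.le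
      calc ‖y‖ ^ B * U ^ q ≤ CB * U ^ q :=
            mul_le_mul_of_nonneg_right (hwB y g1 g2).2 (by positivity)
        _ = ℓ * σ * cA / 2 * (ℓ ^ p * U ^ q) := by linear_combination (-(U ^ q) / 2) * hℓp
        _ ≤ _ := mul_le_mul_of_nonneg_left h1 (by positivity)
    have hA : ℓ * σ * cA * W ≤ ℓ * σ * U ^ (σ - 1) * (‖y‖ ^ A * V ^ p) := by
      rw [hW]
      calc ℓ * σ * cA * (U ^ (σ - 1) * V ^ p) = ℓ * σ * U ^ (σ - 1) * (cA * V ^ p) := by ring
        _ ≤ _ := mul_le_mul_of_nonneg_left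
            (mul_le_mul_of_nonneg_right (hwA y g1 g2) (by positivity)) (by positivity)
    have hΔ : ℓ * σ * cA / 2 * W ≤
        Δ v y + -ℓ * (σ * U ^ (σ - 1) * Δ u y + σ * ((σ - 1) * U ^ (σ - 1 - 1)) *
          ∑ i, pd i u y ^ 2) := by
      have := mul_nonpos_of_nonneg_of_nonpos hℓ0.le hgrad
      have h2 : Δ u y = -(‖y‖ ^ A * V ^ p) := by linarith
      have h3 : Δ v y = -(‖y‖ ^ B * U ^ q) := by linarith
      rw [h2, h3]
      linarith
    refine le_trans ?_ hΔ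
    have hlow : (ℓ ^ e)⁻¹ * V ^ s ≤ W := by
      rw [hs, Real.rpow_add hV, hW, ← mul_assoc, mul_comm ((ℓ ^ e)⁻¹), mul_assoc, mul_comm (U ^ _)]
      refine mul_le_mul_of_nonneg_left ?_ (by positivity)
      have he0 : e ≤ 0 := div_nonpos_of_nonpos_of_nonneg (by linarith) hσ0.le
      rw [← Real.inv_rpow hℓ0.le, ← Real.mul_rpow (by positivity) hV.le]
      refine (Real.rpow_le_rpow_of_nonpos (show 0 < U ^ σ by positivity) ?_ he0).trans (le_of_eq ?_)
      · rw [le_inv_mul_iff₀ hℓ0]; exact hV'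
      · rw [← Real.rpow_mul hU.le, he, mul_div_cancel₀ _ hσ0.ne']
    have hle : (V + -ℓ * U ^ σ) ^ s ≤ V ^ s := Real.rpow_le_rpow hpos.le
      (by linarith [show 0 ≤ ℓ * U ^ σ by positivity]) (by linarith)
    calc k * (V + -ℓ * U ^ σ) ^ s ≤ k * V ^ s := mul_le_mul_of_nonneg_left hle hk0.le
      _ = ℓ * σ * cA / 2 * ((ℓ ^ e)⁻¹ * V ^ s) := by rw [hk]; ring
      _ ≤ _ := mul_le_mul_of_nonneg_left hlow (by positivity)
  have h1 := mul_le_mul_of_nonneg_right (le_max_left ℓ C) (Real.rpow_nonneg (hup x).le σ)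
  have h2 := mul_le_mul_of_nonneg_right (le_max_right ℓ C)
    (Real.rpow_nonneg hδ.le (-(2 / (s - 1))))
  linarith

end Vale.Agent.P100W
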