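import Vale.Agent.P100W.SoupletCompare

/-!
Weighted Souplet argument: the exponents and the slice norms of the two components on a shell,
each at the cost of a power of the energy of the shell.
-/

open MeasureTheory Filter Topology Laplacian Set
open scoped ContDiff ENNReal

noncomputable section

namespace Vale.Agent.P100W

open Vale.Agent.P100 Vale.Agent.P100C

/-- Exponents: `eₖ` is the power of the energy paid for each slice norm. -/
structure SExpo (m p q : ℝ) where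
  e0 : ℝ
  e1 : ℝ
  e2 : ℝ
  a : ℝ
  a' : ℝ
  e0_mem : 0 ≤ e0 ∧ e0 ≤ p / (p + 1)
  e1_mem : 0 ≤ e1 ∧ e1 ≤ p / (p + 1)
  e2_mem : 0 ≤ e2 ∧ e2 ≤ q / (q + 1)
  a_ge : 1 ≤ a
  a'_ge : 1 ≤ a'
  conj : a.HolderConjugate a'
  e0_cond : 1 - e0 / p - 2 / m < 1 / (q + 1)
  e1_cond : 1 - e1 / p - 1 / m < 1 / a
  e2_cond : 1 - e2 / q - 1 / m < 1 / a'
  pot_cond : (q + 1) * e0 < 1
  jet_cond : e1 + e2 < 1

theorem exists_sexpo {m p q : ℝ} (hm : 2 ≤ m) (hq : 0 < q) (hqp : q ≤ p) (hpq : 1 < p * q)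
    (h : p * (q * (m - 2) - 2) < m) : Nonempty (SExpo m p q) := by
  have hp : 0 < p := hq.trans_le hqp
  have hm0 : 0 < m := by linarith
  have hp1 : 0 < p + 1 := by linarith
  have hq1 : 0 < q + 1 := by linarith
  have hcap : 1 / (q + 1) < p / (p + 1) := by
    rw [div_lt_div_iff₀ hq1 hp1]; linarith
  -- the potential
  set X := q / (q + 1) - 2 / m with hX
  have hXlt : p * X < 1 / (q + 1) := by
    have e : p * X * ((q + 1) * m) = p * (q * (m - 2) - 2) := by rw [hX]; field_simp; ring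
    have : p * X * ((q + 1) * m) < 1 * m := by rw [e, one_mul]; exact h
    rw [lt_div_iff₀ hq1]
    exact lt_of_mul_lt_mul_right (by linarith) hm0.le
  set e0 := (max 0 (p * X) + 1 / (q + 1)) / 2 with he0
  have hmax : max 0 (p * X) < 1 / (q + 1) := max_lt (by positivity) hXlt
  have he00 : 0 ≤ e0 := by rw [he0]; positivity
  have he0q : e0 < 1 / (q + 1) := by linarith
  have he0X : X < e0 / p := by
    rw [lt_div_iff₀ hp, mul_comm]; linarith [le_max_right 0 (p * X)]
  -- the gradients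
  set Y := 1 / (p * (q + 1)) + 1 / (q + 1) - (1 - 2 / m) with hY
  have hY0 : 0 < Y := by
    have e : Y * (p * (q + 1) * m) = m - p * (q * (m - 2) - 2) := by rw [hY]; field_simp; ring
    exact pos_of_mul_pos_left (by rw [e]; linarith) (by positivity)
  set η := min (1 / (2 * (q + 1))) (p * Y / 2) with hη
  have hη0 : 0 < η := lt_min (by positivity) (by positivity)
  have hη1 : η ≤ 1 / (2 * (q + 1)) := min_le_left _ _
  have hη2 : η / p ≤ Y / 2 := by
    rw [div_le_iff₀ hp]; linarith [min_le_right (1 / (2 * (q + 1))) (p * Y / 2)]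
  set e1 := 1 / (q + 1) - η with he1
  set e2 := q / (q + 1) with he2
  have h2 : 1 / (2 * (q + 1)) = 1 / (q + 1) / 2 := by field_simp
  have hq10 : 0 < 1 / (q + 1) := by positivity
  have he10 : 0 ≤ e1 := by linarith
  have hsum : e1 + e2 < 1 := by
    have : 1 / (q + 1) + q / (q + 1) = 1 := by field_simp; ring
    linarith
  set L1 := 1 - e1 / p - 1 / m with hL1
  set L2 := 1 - e2 / q - 1 / m with hL2
  have hm1 : 0 < 1 / m := by positivity
  have hlt1 : L1 < 1 := by linarith [div_nonneg he10 hp.le]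
  have hlt2 : L2 < 1 := by
    have : 0 ≤ e2 / q := by positivity
    linarith
  have hgap : L1 + L2 < 1 := by
    have e : L1 + L2 = 1 - Y + η / p := by
      rw [hL1, hL2, he1, he2, hY]; field_simp; ring
    linarith
  set lo := max L1 0
  set hi := min (1 - L2) 1
  have hlt : lo < hi := max_lt (lt_min (by linarith) hlt1) (lt_min (by linarith) one_pos)
  set x := (lo + hi) / 2 with hx
  have hx0 : 0 < x := by linarith [le_max_right L1 0]
  have hx1 : x < 1 := by linarith [min_le_right (1 - L2) 1]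
  have h1x : 0 < 1 - x := by linarith
  refine ⟨{ e0 := e0, e1 := e1, e2 := e2, a := 1 / x, a' := 1 / (1 - x)
            e0_mem := ⟨he00, by linarith⟩
            e1_mem := ⟨he10, by linarith⟩
            e2_mem := ⟨by positivity, le_rfl⟩
            a_ge := ((one_lt_div hx0).2 hx1).le
            a'_ge := ((one_lt_div h1x).2 (by linarith)).le
            conj := ?_, e0_cond := ?_, e1_cond := ?_, e2_cond := ?_
            pot_cond := ?_, jet_cond := hsum }⟩
  · rw [Real.holderConjugate_iff]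
    exact ⟨(one_lt_div hx0).2 hx1, by simp⟩
  · have : 1 - q / (q + 1) = 1 / (q + 1) := by field_simp; ring
    linarith
  · rw [one_div_one_div]; linarith [le_max_left L1 0]
  · rw [one_div_one_div]; linarith [min_le_left (1 - L2) 1]
  · rw [mul_comm, ← lt_div_iff₀ hq1]; exact he0q

variable {m : ℕ}

lemma pot_const_mul {n : ℕ} (s : ℝ) (g : Euc n → ℝ≥0∞) {c : ℝ≥0∞} (hc : c ≠ ⊤) (x : Euc n) :
    pot s (fun y => c * g y) x = c * pot s g x := by
  rw [pot, pot, ← lintegral_const_mul' _ _ hc]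
  exact lintegral_congr fun y => by ring

/-- Interpolation of the source between its mass and the energy. -/
lemma source_interp {n : ℕ} {S : Set (Euc n)} (hS : MeasurableSet S) {v : Euc n → ℝ}
    (hv : Continuous v) (hvp : ∀ x, 0 < v x) {p r : ℝ} (hp : 0 < p) (hr : 1 ≤ r)
    (hr' : p * (r - 1) ≤ 1) :
    ∫⁻ y, cut S (fun y => v y ^ p) y ^ r ≤
      (∫⁻ y, cut S (fun y => v y ^ p) y) ^ (1 - p * (r - 1)) *
        (∫⁻ y, cut S (fun y => v y ^ (p + 1)) y) ^ (p * (r - 1)) := by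
  set t := p * (r - 1) with ht
  have ht0 : 0 ≤ t := mul_nonneg hp.le (by linarith)
  have hm : ∀ e : ℝ, Measurable (cut S fun y => v y ^ e) := fun e =>
    measurable_cut hS (hv.rpow_const fun y => Or.inl (hvp y).ne').measurable
  refine le_trans (le_of_eq (lintegral_congr fun y => ?_))
    (ENNReal.lintegral_mul_norm_pow_le (hm p).aemeasurable (hm (p + 1)).aemeasurable
      (by linarith) ht0 (by ring))
  by_cases hy : y ∈ S
  · simp only [cut, indicator_of_mem hy]
    rw [ENNReal.ofReal_rpow_of_pos (Real.rpow_pos_of_pos (hvp y) _),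
      ENNReal.ofReal_rpow_of_pos (Real.rpow_pos_of_pos (hvp y) _),
      ENNReal.ofReal_rpow_of_pos (Real.rpow_pos_of_pos (hvp y) _),
      ← ENNReal.ofReal_mul (by positivity [hvp y]), ← Real.rpow_mul (hvp y).le,
      ← Real.rpow_mul (hvp y).le, ← Real.rpow_mul (hvp y).le, ← Real.rpow_add (hvp y), ht]
    congr 2
    ring
  · simp only [cut, indicator_of_notMem hy, ENNReal.zero_rpow_of_pos (by linarith : (0:ℝ) < r)]
    rcases ht0.eq_or_lt with h | h
    · rw [← h, sub_zero, ENNReal.zero_rpow_of_pos one_pos, zero_mul]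
    · rw [ENNReal.zero_rpow_of_pos h, mul_zero]

/-- One slice norm, dominated by a potential of the source. -/
theorem slice_one (hm : 2 ≤ m) {p e k s : ℝ} (hp : 0 < p) (he : 0 ≤ e) (he' : e ≤ p / (p + 1))
    (hk : 1 ≤ k) (hs0 : 0 ≤ s) (hs1 : s < 1 + m)
    (hs : s < 1 + m * (1 + 1 / k - (1 - e / p))) {D : ℝ} {K0 K1 L : ℝ≥0∞}
    (hK0 : K0 ≠ ⊤) (hK1 : K1 ≠ ⊤) (hL : L ≠ ⊤) :
    ∃ C : ℝ≥0∞, C ≠ ⊤ ∧ ∀ (F v : Euc (m + 1) → ℝ) (S0 S1 : Set (Euc (m + 1))) (c : ℝ≥0∞),
      Continuous v → (∀ x, 0 < v x) → MeasurableSet S1 →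
      S0 ⊆ Metric.closedBall 0 D → S1 ⊆ Metric.closedBall 0 D → 1 ≤ c →
      (∫⁻ y, cut S1 (fun y => v y ^ p) y) ≤ L →
      (∀ x ∈ S0, ENNReal.ofReal (F x) ≤ K0 * c + K1 * pot s (cut S1 fun y => v y ^ p) x) →
      ∀ i, ∫⁻ r in Set.Icc (-D) D, sn i k (cut S0 F) r
        ≤ C * c * (1 + (∫⁻ y, cut S1 (fun y => v y ^ (p + 1)) y) ^ e) := by
  have hpe : 0 < p - e := by
    have : p / (p + 1) < p := by rw [div_lt_iff₀ (by linarith)]; nlinarith
    linarith
  set r := p / (p - e) with hr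
  have hr1 : 1 ≤ r := by rw [hr, le_div_iff₀ hpe]; linarith
  have hinv : 1 / r = 1 - e / p := by rw [hr, one_div_div]; field_simp
  have ht : p * (r - 1) = p * e / (p - e) := by rw [hr]; field_simp; ring
  have ht1 : p * (r - 1) ≤ 1 := by
    rw [ht, div_le_one hpe]
    rw [le_div_iff₀ (by linarith)] at he'
    linarith
  have hte : p * (r - 1) * (1 / r) = e := by rw [ht, hr]; field_simp
  have hs' : s < 1 + m * (1 + 1 / k - 1 / r) := by rw [hinv]; exact hs
  obtain ⟨B, hB, nb⟩ := norm_bound (m := m) hm hk hr1 hs0 hs' hs1 D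
  obtain ⟨H, hH, hold⟩ := sn_holder_bound (m := m) hr1 D
  set E := (1 - p * (r - 1)) * (1 / r)
  have hE : 0 ≤ E := mul_nonneg (by linarith) (by positivity)
  refine ⟨B * (K0 + K1 * (H * L ^ E)), ENNReal.mul_ne_top hB (ENNReal.add_ne_top.2 ⟨hK0,
    ENNReal.mul_ne_top hK1 (ENNReal.mul_ne_top hH (ENNReal.rpow_ne_top_of_nonneg hE hL))⟩),
    fun F v S0 S1 c hv hvp hS1 hS0D hS1D hc hLv hdom i => ?_⟩
  set g := cut S1 fun y => v y ^ p with hg
  have hgm : Measurable g := measurable_cut hS1 (hv.rpow_const fun y => Or.inl (hvp y).ne').measurable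
  have hgs : ∀ y, g y ≠ 0 → ‖y‖ ≤ D := fun y hy =>
    mem_closedBall_zero_iff.1 (hS1D (Set.mem_of_indicator_ne_zero hy))
  set Φ := ∫⁻ y, cut S1 (fun y => v y ^ (p + 1)) y
  have hsrc : ∫⁻ t, sn i r g t ≤ H * (L ^ E * Φ ^ e) := by
    refine (hold g hgm hgs i).trans ?_
    gcongr
    refine (ENNReal.rpow_le_rpow (source_interp hS1 hv hvp hp hr1 ht1) (by positivity)).trans ?_
    rw [ENNReal.mul_rpow_of_nonneg _ _ (by positivity), ← ENNReal.rpow_mul, ← ENNReal.rpow_mul, hte]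
    gcongr
  refine (nb (cut S0 F) g (K0 * c) K1 hgm hgs hK1 (fun x => ?_) i).trans ?_
  · by_cases hx : x ∈ S0
    · rw [cut, indicator_of_mem hx, indicator_of_mem (hS0D hx)]; exact hdom x hx
    · simp [cut, indicator_of_notMem hx]
  · rw [mul_assoc, mul_assoc B]
    gcongr
    calc K0 * c + K1 * ∫⁻ t, sn i r g t ≤ K0 * c + K1 * (H * (L ^ E * Φ ^ e)) := by gcongr
      _ ≤ K0 * c + K1 * (H * L ^ E) * (c * Φ ^ e) := by
          refine add_le_add le_rfl (le_trans (le_of_eq (by ring))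
            (mul_le_mul' le_rfl (le_mul_of_one_le_left' hc)))
      _ ≤ (K0 + K1 * (H * L ^ E)) * (c * (1 + Φ ^ e)) := by
          rw [add_mul]
          exact add_le_add (mul_le_mul' le_rfl (le_mul_of_one_le_right' le_self_add))
            (mul_le_mul' le_rfl (mul_le_mul' le_rfl le_add_self))

/-- The energy density without weights. -/
def dens (p q : ℝ) {n : ℕ} (u v : Euc n → ℝ) (x : Euc n) : ℝ := v x ^ (p + 1) + u x ^ (q + 1)

/-- The three slice norms. -/
theorem slice_norms_w (hm : 2 ≤ m) {A B p q : ℝ} (hp : 0 < p) (hq : 0 < q) (hpq : 1 < p * q)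
    (E : SExpo m p q) :
    ∃ C : ℝ≥0∞, C ≠ ⊤ ∧ ∀ u v : Euc (m + 1) → ℝ, IsWeightedSolution A B p q u v →
      ∀ ρ δ : ℝ, 1 ≤ ρ → 0 < δ → δ ≤ 1 / 16 → ρ + 8 * δ ≤ 2 → ∀ i,
        let Φ := ∫⁻ y, cut (shell (ρ - 2 * δ) (ρ + 6 * δ)) (dens p q u v) y
        let I := Set.Icc (-(4 * (m + 1 : ℝ))) (4 * (m + 1 : ℝ))
        let c := ENNReal.ofReal ((δ ^ (m + 3))⁻¹)
        (∫⁻ r in I, sn i (q + 1) (cut (shell ρ (ρ + 4 * δ)) (ext u)) r) ≤ C * c * (1 + Φ ^ E.e0) ∧
        (∫⁻ r in I, sn i E.a (cut (shell ρ (ρ + 4 * δ)) (jet (ext u))) r) ≤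
          C * c * (1 + Φ ^ E.e1) ∧
        (∫⁻ r in I, sn i E.a' (cut (shell ρ (ρ + 4 * δ)) (jet (ext v))) r) ≤
          C * c * (1 + Φ ^ E.e2) := by
  have hn3 : 3 ≤ m + 1 := by omega
  have hm' : (2 : ℝ) ≤ m := by exact_mod_cast hm
  have hm0 : (0 : ℝ) < m := by linarith
  set D : ℝ := 4 * (m + 1 : ℝ) with hD
  have hDcast : (4 * ((m + 1 : ℕ) : ℝ)) = D := by push_cast; ring
  obtain ⟨L0, hL0⟩ := apriori_ball (A := A) (B := B) hn3 hp hq hpq (show (0:ℝ) < 2 * D by positivity)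
  set L := max L0 0 with hLdef
  obtain ⟨Cp, hCp0, hpot⟩ := shell_potential m hm
  obtain ⟨wA, CA, hwA, hCA, hbA⟩ := weight_bounds (n := m + 1) A (show (0:ℝ) < 1 / 4 by norm_num)
    (show (1:ℝ) / 4 ≤ 2 * D by linarith)
  obtain ⟨wB, CB, hwB, hCB, hbB⟩ := weight_bounds (n := m + 1) B (show (0:ℝ) < 1 / 4 by norm_num)
    (show (1:ℝ) / 4 ≤ 2 * D by linarith)
  obtain ⟨Cc, hCc, hcut⟩ := exists_shell_cutoff (m + 1)
  obtain ⟨χ, hχ, hχc, hχ01, hχsupp, hχone, -⟩ :=
    hcut (3 / 4) 3 (1 / 4) (by norm_num) (by norm_num) (by norm_num) (by norm_num) (by norm_num)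
  obtain ⟨M, hM0, hM⟩ := exists_bound_pd_pd hχ hχc
  set Lp := ENNReal.ofReal (M * L / wA)
  set Lq := ENNReal.ofReal (M * L / wB)
  have cond1 : (m : ℝ) - 1 < 1 + m * (1 + 1 / (q + 1) - (1 - E.e0 / p)) := by
    have h := mul_lt_mul_of_pos_left E.e0_cond hm0
    rw [mul_sub, mul_div_cancel₀ _ hm0.ne'] at h
    linarith
  have cond2 : ∀ {a w : ℝ}, 1 - w - 1 / m < 1 / a →
      (m : ℝ) < 1 + m * (1 + 1 / a - (1 - w)) := fun {a w} h => by
    have h2 := mul_lt_mul_of_pos_left h hm0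
    rw [mul_sub, mul_one_div_cancel hm0.ne'] at h2
    linarith
  set K0 := ENNReal.ofReal (Cp * L)
  obtain ⟨C0, hC0, n0⟩ := slice_one (D := D) (K0 := K0) (K1 := ENNReal.ofReal (Cp * CA)) (L := Lp) hm hp
    E.e0_mem.1 E.e0_mem.2 (show (1:ℝ) ≤ q + 1 by linarith) (show (0:ℝ) ≤ (m:ℝ) - 1 by linarith)
    (by linarith) cond1 ENNReal.ofReal_ne_top ENNReal.ofReal_ne_top ENNReal.ofReal_ne_top
  obtain ⟨C1, hC1, n1⟩ := slice_one (D := D) (K0 := K0) (K1 := ENNReal.ofReal (Cp * CA)) (L := Lp) hm hp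
    E.e1_mem.1 E.e1_mem.2 E.a_ge hm0.le (by linarith) (cond2 E.e1_cond)
    ENNReal.ofReal_ne_top ENNReal.ofReal_ne_top ENNReal.ofReal_ne_top
  obtain ⟨C2, hC2, n2⟩ := slice_one (D := D) (K0 := K0) (K1 := ENNReal.ofReal (Cp * CB)) (L := Lq) hm hq
    E.e2_mem.1 E.e2_mem.2 E.a'_ge hm0.le (by linarith) (cond2 E.e2_cond)
    ENNReal.ofReal_ne_top ENNReal.ofReal_ne_top ENNReal.ofReal_ne_top
  refine ⟨C0 + C1 + C2, by simp [hC0, hC1, hC2], fun u v hs ρ δ hρ hδ hδ1 hρδ i => ?_⟩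
  obtain ⟨hLu, hLv⟩ := hL0 u v hs
  obtain ⟨huc, hvc, hu2, hv2, hup, hvp, heq⟩ := hs
  intro Φ I c
  set S0 := shell (n := m + 1) ρ (ρ + 4 * δ) with hS0
  set S1 := shell (n := m + 1) (ρ - 2 * δ) (ρ + 6 * δ) with hS1
  have hball : ∀ a b : ℝ, 0 ≤ b → b ≤ 4 →
      (shell (n := m + 1) a b) ⊆ Metric.closedBall 0 D := fun a b hb0 hb y hy => by
    rw [mem_closedBall_zero_iff, ← hDcast]
    exact cube_norm_le hb0 hb hy.1
  have hc1 : (1 : ℝ≥0∞) ≤ c := by
    rw [← ENNReal.ofReal_one]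
    exact ENNReal.ofReal_le_ofReal ((one_le_inv₀ (by positivity)).2 (pow_le_one₀ hδ.le (by linarith)))
  have hann : ∀ y ∈ S1, 1 / 2 ≤ ‖y‖ ∧ ‖y‖ ≤ D := fun y hy =>
    ⟨by linarith [shell_le_norm hy], mem_closedBall_zero_iff.1 (hball _ _ (by linarith) (by linarith) hy)⟩
  -- masses of the sources
  have hmass : ∀ (w z : Euc (m + 1) → ℝ) (C r wC : ℝ), 0 < wC → ContDiffOn ℝ 2 w {x | x ≠ 0} →
      Continuous w → (∀ x, 0 < w x) → Continuous z → (∀ x, 0 < z x) →
      (∀ x, x ≠ 0 → -(Δ w x) = ‖x‖ ^ C * z x ^ r) →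
      (∀ y : Euc (m + 1), 1 / 4 ≤ ‖y‖ → ‖y‖ ≤ 2 * D → wC ≤ ‖y‖ ^ C) →
      (∫ x in Metric.closedBall (0 : Euc (m + 1)) (2 * D), w x) ≤ L0 →
      ∫⁻ y, cut S1 (fun y => z y ^ r) y ≤ ENNReal.ofReal (M * L / wC) := by
    intro w z C r wC hwC hw2 hwc hwp hzc hzp he hw hLw
    have hzr : Continuous fun y => z y ^ r := hzc.rpow_const fun y => Or.inl (hzp y).ne'
    have hsupp : ∀ y ∈ tsupport χ, 1 / 4 ≤ ‖y‖ ∧ ‖y‖ ≤ 2 * D := fun y hy => by
      have h1 := shell_le_norm (hχsupp hy)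
      have h2 := mem_closedBall_zero_iff.1 (hball _ _ (by norm_num) (by norm_num) (hχsupp hy))
      constructor <;> linarith
    have h1 := test_le hw2 hwc hwp he hχ hχc (show (0:ℝ) < 1 / 4 by norm_num) hsupp hM0 hM
    have hint := glueW_integrable (A := C) (r := r) hzc hzp hχ.continuous hχc
      (show (0:ℝ) < 1 / 4 by norm_num) fun y hy => (hsupp y hy).1
    rw [cut, lintegral_indicator (measurableSet_shell _ _),
      ← ofReal_integral_eq_lintegral_ofReal
        (hzr.continuousOn.integrableOn_compact (isCompact_shell _ _))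
        (Eventually.of_forall fun y => (Real.rpow_pos_of_pos (hzp y) _).le)]
    refine ENNReal.ofReal_le_ofReal ?_
    rw [le_div_iff₀ hwC, mul_comm, ← integral_const_mul,
      ← integral_indicator (measurableSet_shell _ _)]
    refine le_trans (integral_mono (((hzr.const_mul wC).continuousOn.integrableOn_compact
      (isCompact_shell _ _)).integrable_indicator (measurableSet_shell _ _)) hint fun y => ?_)
      (h1.trans (mul_le_mul_of_nonneg_left (hLw.trans (le_max_left _ _)) hM0))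
    by_cases hy : y ∈ S1
    · obtain ⟨g1, g2⟩ := hann y hy
      rw [indicator_of_mem hy, hχone y (shell_mono (by linarith) (by linarith) hy), mul_one]
      exact mul_le_mul_of_nonneg_right (hw y (by linarith) (by linarith))
        (Real.rpow_pos_of_pos (hzp y) _).le
    · rw [indicator_of_notMem hy]
      exact mul_nonneg (mul_nonneg (by positivity) (Real.rpow_pos_of_pos (hzp y) _).le) (hχ01 y).1
  -- pointwise domination
  have hdom : ∀ (w z : Euc (m + 1) → ℝ) (C r CC : ℝ), 0 ≤ CC → ContDiffOn ℝ 2 w {x | x ≠ 0} →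
      Continuous w → (∀ x, 0 < w x) → (∀ x, 0 < z x) →
      (∀ x, x ≠ 0 → -(Δ w x) = ‖x‖ ^ C * z x ^ r) →
      (∀ y : Euc (m + 1), 1 / 4 ≤ ‖y‖ → ‖y‖ ≤ 2 * D → ‖y‖ ^ C ≤ CC) →
      (∫ x in Metric.closedBall (0 : Euc (m + 1)) (2 * D), w x) ≤ L0 →
      ∀ x ∈ S0, ENNReal.ofReal (ext w x) ≤ K0 * c +
          ENNReal.ofReal (Cp * CC) * pot ((m : ℝ) - 1) (cut S1 fun y => z y ^ r) x ∧
        ENNReal.ofReal (jet (ext w) x) ≤ K0 * c +
          ENNReal.ofReal (Cp * CC) * pot (m : ℝ) (cut S1 fun y => z y ^ r) x := by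
    intro w z C r CC hCC hw2 hwc hwp hzp he hw hLw x hx
    have h := hpot (ext w) (fun y => CC * z y ^ r) (contDiff_ext hw2) (fun y => (ext_pos hwp y).le)
      ρ (ρ + 4 * δ) δ hδ (by linarith) (by linarith) (by linarith) (by linarith)
      (fun y hy => by
        rw [show ρ + 4 * δ + 2 * δ = ρ + 6 * δ by ring] at hy
        obtain ⟨g1, g2⟩ := hann y hy
        have hy0 : y ≠ 0 := norm_pos_iff.1 (by linarith)
        rw [laplacian_ext (by linarith), ← abs_neg, he y hy0,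
          abs_of_nonneg (mul_nonneg (by positivity) (Real.rpow_pos_of_pos (hzp y) _).le)]
        exact mul_le_mul_of_nonneg_right (hw y (by linarith) (by linarith))
          (Real.rpow_pos_of_pos (hzp y) _).le) L ?_ x hx
    · rw [show ρ + 4 * δ + 2 * δ = ρ + 6 * δ by ring, ← hS1] at h
      have e : (S1.indicator fun y => ENNReal.ofReal (CC * z y ^ r)) =
          fun y => ENNReal.ofReal CC * cut S1 (fun y => z y ^ r) y := funext fun y => by
        by_cases hy : y ∈ S1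
        · simp [cut, indicator_of_mem hy, ENNReal.ofReal_mul hCC]
        · simp [cut, indicator_of_notMem hy]
      rw [e, pot_const_mul _ _ ENNReal.ofReal_ne_top, pot_const_mul _ _ ENNReal.ofReal_ne_top,
        ← mul_assoc, ← mul_assoc, ← ENNReal.ofReal_mul hCp0, ENNReal.ofReal_mul (by positivity)] at h
      exact h
    · rw [show ρ + 4 * δ + 2 * δ = ρ + 6 * δ by ring, ← hS1]
      calc ∫ y in S1, ext w y = ∫ y in S1, w y :=
            setIntegral_congr_fun (measurableSet_shell _ _) fun y hy =>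
              ext_eq (by linarith [(hann y hy).1])
        _ ≤ ∫ y in Metric.closedBall (0 : Euc (m + 1)) (2 * D), w y :=
            setIntegral_mono_set (hwc.continuousOn.integrableOn_compact (isCompact_closedBall _ _))
              (Eventually.of_forall fun y => (hwp y).le)
              (Eventually.of_forall fun y (hy : y ∈ S1) =>
                mem_closedBall_zero_iff.2 (by linarith [(hann y hy).2]))
        _ ≤ L := hLw.trans (le_max_left _ _)
  have e1 := fun x hx => (heq x hx).1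
  have e2 := fun x hx => (heq x hx).2
  have mP := hmass u v A p wA hwA hu2 huc hup hvc hvp e1 (fun y a b => (hbA y a b).1) hLu
  have mQ := hmass v u B q wB hwB hv2 hvc hvp huc hup e2 (fun y a b => (hbB y a b).1) hLv
  have dU := hdom u v A p CA hCA.le hu2 huc hup hvp e1 (fun y a b => (hbA y a b).2) hLu
  have dV := hdom v u B q CB hCB.le hv2 hvc hvp hup e2 (fun y a b => (hbB y a b).2) hLv
  have hS0D := hball ρ (ρ + 4 * δ) (by linarith) (by linarith)
  have hS1D := hball (ρ - 2 * δ) (ρ + 6 * δ) (by linarith) (by linarith)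
  have hΦ : ∀ (f : Euc (m + 1) → ℝ), (∀ x, f x ≤ dens p q u v x) →
      ∫⁻ y, cut S1 f y ≤ Φ := fun f hf => lintegral_mono fun y => by
    by_cases hy : y ∈ S1
    · simp only [cut, ← hS1, indicator_of_mem hy]; exact ENNReal.ofReal_le_ofReal (hf y)
    · simp [cut, indicator_of_notMem hy]
  have hΦv := hΦ (fun y => v y ^ (p + 1)) fun x =>
    le_add_of_nonneg_right (Real.rpow_pos_of_pos (hup x) _).le
  have hΦu := hΦ (fun y => u y ^ (q + 1)) fun x =>
    le_add_of_nonneg_left (Real.rpow_pos_of_pos (hvp x) _).le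
  set C := C0 + C1 + C2
  refine ⟨?_, ?_, ?_⟩
  · refine (n0 (ext u) v S0 S1 c hvc hvp (measurableSet_shell _ _) hS0D hS1D hc1 mP
      (fun x hx => (dU x hx).1) i).trans ?_
    gcongr
    · exact le_self_add.trans le_self_add
    · exact E.e0_mem.1
  · refine (n1 (jet (ext u)) v S0 S1 c hvc hvp (measurableSet_shell _ _) hS0D hS1D hc1 mP
      (fun x hx => (dU x hx).2) i).trans ?_
    gcongr
    · exact le_add_self.trans le_self_add
    · exact E.e1_mem.1
  · refine (n2 (jet (ext v)) u S0 S1 c huc hup (measurableSet_shell _ _) hS0D hS1D hc1 mQ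
      (fun x hx => (dV x hx).2) i).trans ?_
    gcongr
    · exact le_add_self
    · exact E.e2_mem.1

end Vale.Agent.P100W
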