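import Vale.Agent.P100W.Pohozaev
import Vale.Agent.P100W.Easy
import Vale.Agent.P100C.Main

/-!
Weighted Souplet argument: superharmonicity across the origin and universal bounds of the masses
on shells around the unit sphere.
-/

open MeasureTheory Filter Topology Laplacian Set
open scoped ContDiff

noncomputable section

namespace Vale.Agent.P100W

open Vale.Agent.P100 Vale.Agent.P100C

variable {n : ℕ}

/-- A superharmonic function off the origin which is continuous there is weakly superharmonic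
on the whole space. -/
theorem weak_le (hn : 3 ≤ n) {u : Euc n → ℝ} (hs : Super u)
    {φ : Euc n → ℝ} (hφ : ContDiff ℝ 2 φ) (hφc : HasCompactSupport φ) (hφ0 : ∀ x, 0 ≤ φ x) :
    ∫ x, u x * ∑ i, pd i (pd i φ) x ≤ 0 := by
  obtain ⟨hu, hu2, -, hlap⟩ := hs
  set g : Euc n → ℝ := fun _ => 0 with hg'
  have hg : Continuous g := continuous_const
  set η := radial (n := n) (-1) 2 with hη
  have hη2 : ContDiff ℝ 2 η := contDiff_radial _ _
  have hηc : HasCompactSupport η := by
    refine HasCompactSupport.intro (isCompact_closedBall 0 2) fun z hz => ?_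
    rw [Metric.mem_closedBall, dist_zero_right, not_le] at hz
    exact Real.smoothTransition.zero_of_nonpos (by nlinarith)
  have hη1 : ∀ z : Euc n, ‖z‖ ≤ 1 → η z = 1 := fun z hz =>
    Real.smoothTransition.one_of_one_le (by nlinarith [norm_nonneg z])
  have hη0 : ∀ z : Euc n, 2 ≤ ‖z‖ → η z = 0 := fun z hz =>
    Real.smoothTransition.zero_of_nonpos (by nlinarith)
  obtain ⟨M1, hM1⟩ := (isCompact_closedBall (0 : Euc n) 2).exists_bound_of_continuousOn
    (f := fun x => (|u x| + |g x|) * (|φ x| + ∑ i, (|pd i φ x| + |pd i (pd i φ) x|)))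
    ((hu.abs.add hg.abs).mul (hφ.continuous.abs.add (continuous_finsetSum _ fun i _ =>
      (continuous_pd (hφ.of_le one_le_two) i).abs.add
        (continuous_pd (contDiff_pd hφ i) i).abs))).continuousOn
  obtain ⟨M2, hM2⟩ := ((hη2.continuous.abs.add (continuous_finsetSum _ fun i _ =>
      (continuous_pd (hη2.of_le one_le_two) i).abs.add
        (continuous_pd (contDiff_pd hη2 i) i).abs))).bounded_above_of_compact_support (by
    refine HasCompactSupport.intro hηc fun z hz => ?_
    have h0 : η z = 0 := image_eq_zero_of_notMem_tsupport hz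
    have h1 : ∀ i, pd i η z = 0 := fun i => image_eq_zero_of_notMem_tsupport
      fun h => hz (tsupport_fderiv_apply_subset ℝ (ev i) h)
    have h2 : ∀ i, pd i (pd i η) z = 0 := fun i => image_eq_zero_of_notMem_tsupport
      fun h => hz (tsupport_fderiv_apply_subset ℝ (ev i)
        (tsupport_fderiv_apply_subset ℝ (ev i) h))
    simp [h0, h1, h2])
  set V := (volume : Measure (Euc n)).real (Metric.ball 0 1)
  set A := max 0 (∫ x, u x * ∑ i, pd i (pd i φ) x + g x * φ x) with hA
  have iu : Integrable fun x => u x * ∑ i, pd i (pd i φ) x + g x * φ x := by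
    refine Continuous.integrable_of_hasCompactSupport ((hu.mul (continuous_finsetSum _ fun i _ =>
      continuous_pd (contDiff_pd hφ i) i)).add (hg.mul hφ.continuous)) ?_
    refine HasCompactSupport.intro hφc fun z hz => ?_
    have h0 : φ z = 0 := image_eq_zero_of_notMem_tsupport hz
    have h2 : ∀ i, pd i (pd i φ) z = 0 := fun i => image_eq_zero_of_notMem_tsupport
      fun h => hz (tsupport_fderiv_apply_subset ℝ (ev i)
        (tsupport_fderiv_apply_subset ℝ (ev i) h))
    simp [h0, h2]
  have key : ∀ ε : ℝ, 0 < ε → ε ≤ 1 →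
      A ≤ |M1| * ((4 * n + 4 : ℝ) * (|M2| + 1)) * 2 ^ n * V * ε := by
    intro ε hε hε1
    set c : Euc n → ℝ := fun y => 1 * η (ε⁻¹ • y) with hc
    have hc2 : ContDiff ℝ 2 c := contDiff_const.mul (hη2.comp (contDiff_const_smul _))
    set ψ : Euc n → ℝ := fun y => (1 - c y) * φ y with hψ
    have hψ2 : ContDiff ℝ 2 ψ := (contDiff_const.sub hc2).mul hφ
    have hψc : HasCompactSupport ψ := hφc.mul_left
    have hψ0 : ∀ y : Euc n, ‖y‖ ≤ ε → ψ y = 0 := fun y hy => by
      have : η (ε⁻¹ • y) = 1 := hη1 _ (by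
        rw [norm_smul, norm_inv, Real.norm_eq_abs, abs_of_pos hε, inv_mul_le_one₀ hε]; exact hy)
      simp [hψ, hc, this]
    have hid : ∫ y, (u y * ∑ i, pd i (pd i ψ) y + g y * ψ y) ≤ 0 := by
      set U := glue ε u
      have hU : ContDiff ℝ 2 U := contDiff_glue hε hu2
      have e1 : ∀ y, u y * ∑ i, pd i (pd i ψ) y = U y * ∑ i, pd i (pd i ψ) y := fun y => by
        rcases lt_or_ge ‖y‖ ε with h | h
        · have : ψ =ᶠ[𝓝 y] fun _ => (0 : ℝ) := by
            filter_upwards [(isOpen_lt continuous_norm continuous_const).mem_nhds h] with z hz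
            exact hψ0 z (le_of_lt hz)
          have e : ∀ i, pd i (pd i ψ) y = 0 := fun i => by
            have : pd i ψ =ᶠ[𝓝 y] fun _ => (0 : ℝ) := by
              filter_upwards [this.eventuallyEq_nhds] with z hz
              rw [pd, hz.fderiv_eq]; simp
            rw [pd, this.fderiv_eq]; simp
          simp [e]
        · simp only [U]
          rw [glue_eq hε u (show 3 / 4 * ε ≤ ‖y‖ by linarith)]
      have e2 : ∀ y, ψ y * ∑ i, pd i (pd i U) y ≤ 0 := fun y => by
        rcases le_or_gt ‖y‖ ε with h | h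
        · simp [hψ0 y h]
        · have hy : y ≠ 0 := by rintro rfl; simp at h; linarith
          rw [(glue_local hε hu2 (show 3 / 4 * ε < ‖y‖ by linarith)).2.2]
          refine mul_nonpos_of_nonneg_of_nonpos (mul_nonneg ?_ (hφ0 y)) (hlap y hy)
          have hle : η (ε⁻¹ • y) ≤ 1 := (radial_mem _ _ _).2
          simp only [hc, one_mul]; linarith
      have h1 := integral_mul_lap hψ2 hψc hU
      have i2 : Integrable fun y => u y * ∑ i, pd i (pd i ψ) y := by
        refine Continuous.integrable_of_hasCompactSupport (hu.mul (continuous_finsetSum _ fun i _ =>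
          continuous_pd (contDiff_pd hψ2 i) i)) (HasCompactSupport.intro hψc fun z hz => ?_)
        have h2 : ∀ i, pd i (pd i ψ) z = 0 := fun i => image_eq_zero_of_notMem_tsupport
          fun h => hz (tsupport_fderiv_apply_subset ℝ (ev i)
            (tsupport_fderiv_apply_subset ℝ (ev i) h))
        simp [h2]
      simp only [hg', zero_mul, add_zero]
      rw [integral_congr_ae (Eventually.of_forall e1)]
      have h2 : ∫ y, U y * ∑ i, pd i (pd i ψ) y ≤ 0 := by
        rw [← h1]; exact integral_nonpos e2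
      exact h2
    have iψ : Integrable fun y => u y * ∑ i, pd i (pd i ψ) y + g y * ψ y := by
      refine Continuous.integrable_of_hasCompactSupport ((hu.mul (continuous_finsetSum _ fun i _ =>
        continuous_pd (contDiff_pd hψ2 i) i)).add (hg.mul hψ2.continuous)) ?_
      refine HasCompactSupport.intro hψc fun z hz => ?_
      have h0 : ψ z = 0 := image_eq_zero_of_notMem_tsupport hz
      have h2 : ∀ i, pd i (pd i ψ) z = 0 := fun i => image_eq_zero_of_notMem_tsupport
        fun h => hz (tsupport_fderiv_apply_subset ℝ (ev i)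
          (tsupport_fderiv_apply_subset ℝ (ev i) h))
      simp [h0, h2]
    set B := |M1| * ((4 * n + 4 : ℝ) * (|M2| + 1)) * (ε⁻¹) ^ 2 with hB
    have hdiff : ∀ y, ‖(u y * ∑ i, pd i (pd i φ) y + g y * φ y) -
        (u y * ∑ i, pd i (pd i ψ) y + g y * ψ y)‖ ≤
        (Metric.closedBall (0 : Euc n) (2 * ε)).indicator (fun _ => B) y := by
      intro y
      have hfun : ψ = fun z => (fun z => 1 - c z) z * φ z := rfl
      by_cases hy : y ∈ Metric.closedBall (0 : Euc n) (2 * ε)
      · rw [indicator_of_mem hy, Real.norm_eq_abs]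
        have hm := hM1 y (Metric.closedBall_subset_closedBall (by linarith) hy)
        have hm2 := hM2 (ε⁻¹ • y)
        simp only [Real.norm_eq_abs] at hm hm2
        set a := fun z : Euc n => 1 - c z
        have ha : ContDiff ℝ 2 a := contDiff_const.sub hc2
        have hp1 : ∀ i z, pd i a z = -(ε⁻¹ * pd i η (ε⁻¹ • z)) := fun i z => by
          have : pd i a z = -(pd i c z) := by simp [pd, a, fderiv_const_sub]
          rw [this, hc, pd_scale, one_mul]
        have hp2 : ∀ i, pd i (pd i a) y = -(ε⁻¹ ^ 2 * pd i (pd i η) (ε⁻¹ • y)) := fun i => by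
          rw [show pd i a = fun z => (-ε⁻¹) * pd i η (ε⁻¹ • z) from
            funext fun z => by rw [hp1]; ring, pd_scale]
          ring
        set S1 := |φ y| + ∑ i, (|pd i φ y| + |pd i (pd i φ) y|) with hS1
        set S2 := |η (ε⁻¹ • y)| + ∑ i, (|pd i η (ε⁻¹ • y)| + |pd i (pd i η) (ε⁻¹ • y)|) with hS2
        have hS10 : 0 ≤ S1 := by positivity
        have hm' : (|u y| + |g y|) * S1 ≤ |M1| :=
          ((le_abs_self _).trans hm).trans (le_abs_self _)
        have hS2' : S2 ≤ |M2| := ((le_abs_self _).trans hm2).trans (le_abs_self _)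
        have hS20 : 0 ≤ S2 := by positivity
        have hi : 1 ≤ ε⁻¹ := (one_le_inv₀ hε).2 hε1
        have q0 : |c y * φ y| ≤ ε⁻¹ ^ 2 * ((|M2| + 1) * S1) := by
          rw [abs_mul]
          simp only [hc, one_mul]
          calc |η (ε⁻¹ • y)| * |φ y| ≤ 1 * ((|M2| + 1) * S1) := by
                rw [one_mul]
                refine mul_le_mul ?_ (le_add_of_nonneg_right (by positivity)) (abs_nonneg _)
                  (by positivity)
                have : |η (ε⁻¹ • y)| ≤ S2 := le_add_of_nonneg_right (by positivity)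
                linarith
            _ ≤ _ := mul_le_mul_of_nonneg_right (one_le_pow₀ hi) (by positivity)
        have qi : ∀ i, |pd i (pd i φ) y - pd i (pd i ψ) y| ≤ 4 * (ε⁻¹ ^ 2 * ((|M2| + 1) * S1)) := by
          intro i
          rw [hfun, pd_pd_mul ha hφ, hp2, hp1]
          have a1 : |pd i φ y| + |pd i (pd i φ) y| ≤ S1 :=
            (Finset.single_le_sum (f := fun j => |pd j φ y| + |pd j (pd j φ) y|)
              (fun j _ => by positivity) (Finset.mem_univ i)).trans
              (le_add_of_nonneg_left (abs_nonneg _))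
          have a0 : |φ y| ≤ S1 := le_add_of_nonneg_right (by positivity)
          have a2 : |pd i η (ε⁻¹ • y)| + |pd i (pd i η) (ε⁻¹ • y)| ≤ S2 :=
            (Finset.single_le_sum (f := fun j => |pd j η (ε⁻¹ • y)| + |pd j (pd j η) (ε⁻¹ • y)|)
              (fun j _ => by positivity) (Finset.mem_univ i)).trans
              (le_add_of_nonneg_left (abs_nonneg _))
          have a3 : |c y| ≤ S2 := by
            simp only [hc, one_mul]; exact le_add_of_nonneg_right (by positivity)
          have := abs_nonneg (pd i φ y); have := abs_nonneg (pd i (pd i φ) y)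
          have := abs_nonneg (pd i η (ε⁻¹ • y)); have := abs_nonneg (pd i (pd i η) (ε⁻¹ • y))
          have e : pd i (pd i φ) y - (-(ε⁻¹ ^ 2 * pd i (pd i η) (ε⁻¹ • y)) * φ y +
              2 * (-(ε⁻¹ * pd i η (ε⁻¹ • y)) * pd i φ y) + (1 - c y) * pd i (pd i φ) y) =
              ε⁻¹ ^ 2 * (pd i (pd i η) (ε⁻¹ • y) * φ y) +
              2 * (ε⁻¹ * (pd i η (ε⁻¹ • y) * pd i φ y)) + c y * pd i (pd i φ) y := by ring
          rw [e]
          refine (abs_add_three _ _ _).trans ?_
          simp only [abs_mul, abs_pow, abs_two, abs_of_pos (inv_pos.2 hε)]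
          have m1 : |pd i (pd i η) (ε⁻¹ • y)| * |φ y| ≤ (|M2| + 1) * S1 :=
            mul_le_mul (by linarith) a0 (abs_nonneg _) (by positivity)
          have m2 : |pd i η (ε⁻¹ • y)| * |pd i φ y| ≤ (|M2| + 1) * S1 :=
            mul_le_mul (by linarith) (by linarith) (abs_nonneg _) (by positivity)
          have m3 : |c y| * |pd i (pd i φ) y| ≤ (|M2| + 1) * S1 :=
            mul_le_mul (by linarith) (by linarith) (abs_nonneg _) (by positivity)
          have k1 := mul_le_mul_of_nonneg_left m1 (sq_nonneg ε⁻¹)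
          have k2 := mul_le_mul (show ε⁻¹ ≤ ε⁻¹ ^ 2 from le_self_pow₀ hi two_ne_zero) m2
            (by positivity) (sq_nonneg _)
          have k3 := mul_le_mul (show (1 : ℝ) ≤ ε⁻¹ ^ 2 from one_le_pow₀ hi) m3
            (by positivity) (sq_nonneg _)
          linarith
        have qs : |∑ i, (pd i (pd i φ) y - pd i (pd i ψ) y)| ≤
            n * (4 * (ε⁻¹ ^ 2 * ((|M2| + 1) * S1))) :=
          (Finset.abs_sum_le_sum_abs _ _).trans
            ((Finset.sum_le_sum fun i _ => qi i).trans (le_of_eq (by simp)))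
        have e : (u y * ∑ i, pd i (pd i φ) y + g y * φ y) -
            (u y * ∑ i, pd i (pd i ψ) y + g y * ψ y) =
            u y * ∑ i, (pd i (pd i φ) y - pd i (pd i ψ) y) + g y * (c y * φ y) := by
          rw [Finset.sum_sub_distrib]; simp only [hψ]; ring
        rw [e]
        refine (abs_add_le _ _).trans ?_
        rw [abs_mul, abs_mul (g y)]
        set T := ε⁻¹ ^ 2 * ((|M2| + 1) * S1) with hT
        have hT0 : 0 ≤ T := by positivity
        have t1 := mul_le_mul_of_nonneg_left qs (abs_nonneg (u y))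
        have t2 := mul_le_mul_of_nonneg_left q0 (abs_nonneg (g y))
        have t3 : (|u y| + |g y|) * ((4 * n + 4 : ℝ) * T) ≤ B := by
          calc (|u y| + |g y|) * ((4 * n + 4 : ℝ) * T)
              = ((|u y| + |g y|) * S1) * ((4 * n + 4 : ℝ) * (|M2| + 1) * ε⁻¹ ^ 2) := by
                rw [hT]; ring
            _ ≤ |M1| * ((4 * n + 4 : ℝ) * (|M2| + 1) * ε⁻¹ ^ 2) :=
                mul_le_mul_of_nonneg_right hm' (by positivity)
            _ = _ := by rw [hB]; ring
        have : 0 ≤ |u y| * T := mul_nonneg (abs_nonneg _) hT0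
        have : 0 ≤ |g y| * T := mul_nonneg (abs_nonneg _) hT0
        have : 0 ≤ (n : ℝ) * (|g y| * T) := by positivity
        linarith
      · rw [indicator_of_notMem hy]
        rw [Metric.mem_closedBall, dist_zero_right, not_le] at hy
        have hev : ψ =ᶠ[𝓝 y] φ := by
          filter_upwards [(isOpen_lt continuous_const continuous_norm).mem_nhds hy] with z hz
          have : η (ε⁻¹ • z) = 0 := hη0 _ (by
            rw [norm_smul, norm_inv, Real.norm_eq_abs, abs_of_pos hε, ← div_eq_inv_mul,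
              le_div_iff₀ hε]
            exact le_of_lt hz)
          simp [hψ, hc, this]
        have e : ∀ i, pd i (pd i ψ) y = pd i (pd i φ) y := fun i => by
          have : pd i ψ =ᶠ[𝓝 y] pd i φ := by
            filter_upwards [hev.eventuallyEq_nhds] with z hz
            rw [pd, pd, hz.fderiv_eq]
          rw [pd, pd, this.fderiv_eq]
        simp [e, hev.eq_of_nhds]
    have hI : A ≤ B * ((2 * ε) ^ n * V) := by
      have : ∫ x, (u x * ∑ i, pd i (pd i φ) x + g x * φ x) ≤
          ∫ y, ((u y * ∑ i, pd i (pd i φ) y + g y * φ y) -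
            (u y * ∑ i, pd i (pd i ψ) y + g y * ψ y)) := by
        rw [integral_sub iu iψ]; linarith
      refine (max_le (norm_nonneg _) (this.trans (Real.le_norm_self _))).trans ?_
      refine (norm_integral_le_of_norm_le ((integrable_indicator_iff measurableSet_closedBall).2
        (integrableOn_const measure_closedBall_lt_top.ne)) (Eventually.of_forall hdiff)).trans ?_
      rw [integral_indicator_const B measurableSet_closedBall,
        volume_real_closedBall (2 * ε) (by linarith), smul_eq_mul, mul_comm]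
    refine hI.trans (le_of_eq_of_le (b := |M1| * ((4 * n + 4 : ℝ) * (|M2| + 1)) * 2 ^ n * V *
      ε ^ (n - 2)) ?_ (mul_le_mul_of_nonneg_left (pow_le_of_le_one hε.le hε1 (by omega))
        (by positivity)))
    rw [hB, mul_pow, inv_pow, show ε ^ n = ε ^ 2 * ε ^ (n - 2) by
      rw [← pow_add]; congr 1; omega]
    field_simp
  have hA0 : A = 0 := by
    refine le_antisymm (le_of_forall_pos_le_add fun r hr => ?_) (le_max_left _ _)
    set K := |M1| * ((4 * n + 4 : ℝ) * (|M2| + 1)) * 2 ^ n * V
    have hK : 0 ≤ K := by positivity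
    have hε : 0 < min 1 (r / (K + 1)) := lt_min one_pos (div_pos hr (by linarith))
    refine (key _ hε (min_le_left _ _)).trans ?_
    rw [zero_add]
    calc K * min 1 (r / (K + 1)) ≤ (K + 1) * (r / (K + 1)) :=
          mul_le_mul (by linarith) (min_le_right _ _) hε.le (by linarith)
      _ = r := by field_simp
  have h := (le_max_right (0 : ℝ) (∫ x, u x * ∑ i, pd i (pd i φ) x + g x * φ x)).trans hA0.le
  simpa [hg'] using h


/-- Two-sided bounds of a weight on an annulus. -/
lemma weight_bounds (A : ℝ) {r D : ℝ} (hr : 0 < r) (hD : r ≤ D) :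
    ∃ c C : ℝ, 0 < c ∧ 0 < C ∧ ∀ y : Euc n, r ≤ ‖y‖ → ‖y‖ ≤ D →
      c ≤ ‖y‖ ^ A ∧ ‖y‖ ^ A ≤ C := by
  have hD0 : 0 < D := hr.trans_le hD
  refine ⟨min (r ^ A) (D ^ A), max (r ^ A) (D ^ A), lt_min (Real.rpow_pos_of_pos hr _)
    (Real.rpow_pos_of_pos hD0 _), lt_max_of_lt_left (Real.rpow_pos_of_pos hr _), fun y h1 h2 => ?_⟩
  have hy : 0 < ‖y‖ := hr.trans_le h1
  rcases le_total 0 A with h | h
  · exact ⟨(min_le_left _ _).trans (Real.rpow_le_rpow hr.le h1 h),
      (Real.rpow_le_rpow hy.le h2 h).trans (le_max_right _ _)⟩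
  · exact ⟨(min_le_right _ _).trans (Real.rpow_le_rpow_of_nonpos hy h2 h),
      (Real.rpow_le_rpow_of_nonpos hr h1 h).trans (le_max_left _ _)⟩

/-- Testing the equation away from the origin. -/
lemma test_le {u g ψ : Euc n → ℝ} (hu : ContDiffOn ℝ 2 u {x | x ≠ 0}) (huc : Continuous u)
    (hup : ∀ x, 0 < u x) (heq : ∀ x, x ≠ 0 → -(Δ u x) = g x) (hψ : ContDiff ℝ 2 ψ)
    (hψc : HasCompactSupport ψ) {d D M : ℝ} (hd : 0 < d)
    (hsupp : ∀ y ∈ tsupport ψ, d ≤ ‖y‖ ∧ ‖y‖ ≤ D) (hM : 0 ≤ M)
    (hbd : ∀ y, |∑ i, pd i (pd i ψ) y| ≤ M) :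
    ∫ y, g y * ψ y ≤ M * ∫ y in Metric.closedBall (0 : Euc n) D, u y := by
  set U := glue d u
  have hU : ContDiff ℝ 2 U := contDiff_glue hd hu
  have e1 : ∀ y, g y * ψ y = -(ψ y * ∑ i, pd i (pd i U) y) := fun y => by
    by_cases hy : y ∈ tsupport ψ
    · have h1 := (hsupp y hy).1
      rw [(glue_local hd hu (show 3 / 4 * d < ‖y‖ by linarith)).2.2,
        ← heq y (norm_pos_iff.1 (hd.trans_le h1))]
      ring
    · simp [image_eq_zero_of_notMem_tsupport hy]
  have hψU : ∫ y, g y * ψ y = ∫ y, -(U y * ∑ i, pd i (pd i ψ) y) := by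
    simp only [e1, integral_neg]
    rw [integral_mul_lap hψ hψc hU]
  rw [hψU, ← integral_const_mul, ← integral_indicator measurableSet_closedBall]
  refine integral_mono ?_ (((huc.const_mul M).continuousOn.integrableOn_compact
    (isCompact_closedBall _ _)).integrable_indicator measurableSet_closedBall) fun y => ?_
  · refine (Continuous.integrable_of_hasCompactSupport (hU.continuous.mul
      (continuous_finsetSum _ fun i _ => continuous_pd (contDiff_pd hψ i) i))
      (HasCompactSupport.intro hψc fun z hz => ?_)).neg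
    have h2 : ∀ i, pd i (pd i ψ) z = 0 := fun i => image_eq_zero_of_notMem_tsupport
      fun h => hz (tsupport_fderiv_apply_subset ℝ (ev i) (tsupport_fderiv_apply_subset ℝ (ev i) h))
    simp [h2]
  · by_cases hy : y ∈ tsupport ψ
    · obtain ⟨h1, h2⟩ := hsupp y hy
      rw [indicator_of_mem (mem_closedBall_zero_iff.2 h2)]
      simp only [U, glue_eq hd u (show 3 / 4 * d ≤ ‖y‖ by linarith)]
      calc -(u y * ∑ i, pd i (pd i ψ) y) ≤ u y * |∑ i, pd i (pd i ψ) y| := by
            rw [← mul_neg]; exact mul_le_mul_of_nonneg_left (neg_le_abs _) (hup y).le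
        _ ≤ u y * M := mul_le_mul_of_nonneg_left (hbd y) (hup y).le
        _ = M * u y := mul_comm _ _
    · have h2 : ∀ i, pd i (pd i ψ) y = 0 := fun i => image_eq_zero_of_notMem_tsupport
        fun h => hy (tsupport_fderiv_apply_subset ℝ (ev i) (tsupport_fderiv_apply_subset ℝ (ev i) h))
      simp only [h2, Finset.sum_const_zero, mul_zero, neg_zero]
      exact indicator_nonneg (fun z _ => mul_nonneg hM (hup z).le) y

lemma exists_bound_pd_pd {ψ : Euc n → ℝ} (hψ : ContDiff ℝ 2 ψ) (hψc : HasCompactSupport ψ) :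
    ∃ M : ℝ, 0 ≤ M ∧ ∀ y, |∑ i, pd i (pd i ψ) y| ≤ M := by
  have hc : HasCompactSupport fun y => ∑ i, pd i (pd i ψ) y :=
    HasCompactSupport.intro hψc fun z hz => Finset.sum_eq_zero fun i _ =>
      image_eq_zero_of_notMem_tsupport fun h => hz
        (tsupport_fderiv_apply_subset ℝ (ev i) (tsupport_fderiv_apply_subset ℝ (ev i) h))
  obtain ⟨M, hM⟩ := hc.exists_bound_of_continuous
    (continuous_finsetSum _ fun i _ => continuous_pd (contDiff_pd hψ i) i)
  exact ⟨|M|, abs_nonneg _, fun y => (hM y).trans (le_abs_self M)⟩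

lemma glueW_integrable {v ψ : Euc n → ℝ} (hv : Continuous v) (hvp : ∀ x, 0 < v x)
    (hψ : Continuous ψ) (hψc : HasCompactSupport ψ) {d : ℝ} (hd : 0 < d)
    (hsupp : ∀ y ∈ tsupport ψ, d ≤ ‖y‖) {A r : ℝ} :
    Integrable fun y => ‖y‖ ^ A * v y ^ r * ψ y := by
  have e : (fun y => ‖y‖ ^ A * v y ^ r * ψ y) =
      fun y => glue d (fun z : Euc n => ‖z‖ ^ A) y * v y ^ r * ψ y := funext fun y => by
    by_cases hy : y ∈ tsupport ψ
    · rw [glue_eq hd (fun z : Euc n => ‖z‖ ^ A) (by linarith [hsupp y hy])]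
    · simp [image_eq_zero_of_notMem_tsupport hy]
  rw [e]
  exact (((contDiff_glue hd (contDiffOn_weight A)).continuous.mul
    (hv.rpow_const fun x => Or.inl (hvp x).ne')).mul hψ).integrable_of_hasCompactSupport
    hψc.mul_left

/-- Universal bounds of the masses of the functions on balls. -/
theorem apriori_ball (hn : 3 ≤ n) {A B p q : ℝ} (hp : 0 < p) (hq : 0 < q) (hpq : 1 < p * q)
    {R : ℝ} (hR : 0 < R) : ∃ C : ℝ, ∀ u v : Euc n → ℝ, IsWeightedSolution A B p q u v →
      (∫ x in Metric.closedBall (0 : Euc n) R, u x) ≤ C ∧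
      (∫ x in Metric.closedBall (0 : Euc n) R, v x) ≤ C := by
  obtain ⟨c, hc, hmv⟩ := mean_value n R hR
  set e₀ : Euc n := ev ⟨0, by omega⟩
  set z₀ : Euc n := (R / 2) • e₀ with hz₀
  set ψ := tb ((R / 4) ^ 2) z₀
  have hψ : ContDiff ℝ 2 ψ := contDiff_tb _ _
  have hψc : HasCompactSupport ψ := hasCompactSupport_tb _ _
  have hψ0 : ∀ y, 0 ≤ ψ y := fun y => ppow_nonneg _ _
  have hn0 : ‖z₀‖ = R / 2 := by
    rw [hz₀, norm_smul, norm_ev, mul_one, Real.norm_of_nonneg (by linarith)]
  have hsupp : ∀ y ∈ tsupport ψ, R / 4 ≤ ‖y‖ ∧ ‖y‖ ≤ R := by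
    have h : tsupport ψ ⊆ Metric.closedBall z₀ (R / 4) := by
      refine closure_minimal (fun y hy => ?_) Metric.isClosed_closedBall
      by_contra hne
      rw [Metric.mem_closedBall, dist_eq_norm, not_le] at hne
      refine hy ?_
      have : (R / 4) ^ 2 - ‖y - z₀‖ ^ 2 ≤ 0 := by nlinarith
      simp [ψ, tb, ppow, max_eq_right this]
    intro y hy
    have := h hy
    rw [Metric.mem_closedBall, dist_eq_norm] at this
    constructor <;> linarith [norm_le_norm_add_norm_sub' y z₀, norm_le_norm_add_norm_sub y z₀]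
  obtain ⟨M, hM0, hM⟩ := exists_bound_pd_pd hψ hψc
  set T := ∫ y, ψ y
  have hψi : Integrable ψ := hψ.continuous.integrable_of_hasCompactSupport hψc
  have hT : 0 < T := by
    refine hψ.continuous.integral_pos_of_hasCompactSupport_nonneg_nonzero hψc hψ0 (x := z₀) ?_
    simp [ψ, tb, ppow, hR.ne']
  obtain ⟨cA, _, hcA, -, hwA⟩ := weight_bounds (n := n) A (show 0 < R / 4 by linarith)
    (show R / 4 ≤ R by linarith)
  obtain ⟨cB, _, hcB, -, hwB⟩ := weight_bounds (n := n) B (show 0 < R / 4 by linarith)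
    (show R / 4 ≤ R by linarith)
  set K := max (M / (cA * T)) (M / (cB * T)) + 1 with hK
  have hK0 : 0 < K := by positivity
  set X0 := ((K / c) ^ (p + 1)) ^ (1 / (p * q - 1)) with hX0d
  refine ⟨max (X0 / c) ((K / c * X0) ^ (1 / p) / c), fun u v hs => ?_⟩
  obtain ⟨hu, hv⟩ := hs.super
  obtain ⟨huc, hvc, hu2, hv2, hup, hvp, heq⟩ := hs
  have step : ∀ (u v : Euc n → ℝ) (A r cA : ℝ), 0 < r → 0 < cA → M / (cA * T) + 1 ≤ K →
      Continuous u → Super v → (∀ x, 0 < u x) → ContDiffOn ℝ 2 u {x | x ≠ 0} →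
      (∀ x, x ≠ 0 → -(Δ u x) = ‖x‖ ^ A * v x ^ r) →
      (∀ y : Euc n, R / 4 ≤ ‖y‖ → ‖y‖ ≤ R → cA ≤ ‖y‖ ^ A) →
      (c * ∫ z in Metric.closedBall (0 : Euc n) R, v z) ^ r
        ≤ K * ∫ x in Metric.closedBall (0 : Euc n) R, u x := by
    intro u v A r cA hr hcA hle huc hv hup hu2 he hw
    have hlow := hmv v hv.1 (fun x => (hv.2.2.1 x).le) fun s x =>
      weak_le hn hv (contDiff_tb s x) (hasCompactSupport_tb s x) fun y => ppow_nonneg _ _
    set J := ∫ z in Metric.closedBall (0 : Euc n) R, v z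
    have hJ : 0 ≤ J := integral_nonneg fun z => (hv.2.2.1 z).le
    have h1 := test_le hu2 huc hup he hψ hψc (show 0 < R / 4 by linarith) hsupp hM0 hM
    have h2 : cA * (c * J) ^ r * T ≤ ∫ y, ‖y‖ ^ A * v y ^ r * ψ y := by
      rw [← integral_const_mul]
      refine integral_mono (hψi.const_mul _) ?_ fun y => ?_
      · exact glueW_integrable (A := A) (r := r) hv.1 hv.2.2.1 hψ.continuous hψc
          (show 0 < R / 4 by linarith) fun y hy => (hsupp y hy).1
      · by_cases hy : y ∈ tsupport ψ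
        · obtain ⟨g1, g2⟩ := hsupp y hy
          refine mul_le_mul_of_nonneg_right (mul_le_mul (hw y g1 g2) (Real.rpow_le_rpow
            (mul_nonneg hc.le hJ) (hlow y (mem_closedBall_zero_iff.2 (by linarith))) hr.le)
            (Real.rpow_nonneg (mul_nonneg hc.le hJ) _) (by positivity)) (hψ0 y)
        · simp [image_eq_zero_of_notMem_tsupport hy]
    have hI : 0 ≤ ∫ x in Metric.closedBall (0 : Euc n) R, u x := integral_nonneg fun x => (hup x).le
    refine le_trans ?_ (mul_le_mul_of_nonneg_right hle hI)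
    rw [add_mul, one_mul, div_mul_eq_mul_div]
    refine le_trans ?_ (le_add_of_nonneg_right hI)
    rw [le_div_iff₀ (mul_pos hcA hT)]
    calc (c * J) ^ r * (cA * T) = cA * (c * J) ^ r * T := by ring
      _ ≤ _ := h2.trans h1
  set Iu := ∫ x in Metric.closedBall (0 : Euc n) R, u x
  set Iv := ∫ x in Metric.closedBall (0 : Euc n) R, v x
  have hu0 : 0 ≤ Iu := integral_nonneg fun x => (hup x).le
  have hv0 : 0 ≤ Iv := integral_nonneg fun x => (hvp x).le
  have s1 : (c * Iv) ^ p ≤ K * Iu := step u v A p cA hp hcA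
    (by rw [hK]; gcongr; exact le_max_left _ _) huc hv hup hu2 (fun x hx => (heq x hx).1)
    fun y h1 h2 => (hwA y h1 h2).1
  have s2 : (c * Iu) ^ q ≤ K * Iv := step v u B q cB hq hcB
    (by rw [hK]; gcongr; exact le_max_right _ _) hvc hu hvp hv2 (fun x hx => (heq x hx).2)
    fun y h1 h2 => (hwB y h1 h2).1
  set X := c * Iu with hX
  set Y := c * Iv with hY
  have hX' : 0 ≤ X := mul_nonneg hc.le hu0
  have hY' : 0 ≤ Y := mul_nonneg hc.le hv0
  set Q := K / c with hQ
  have hQ0 : 0 < Q := div_pos hK0 hc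
  have t1 : Y ^ p ≤ Q * X := s1.trans (le_of_eq (by rw [hQ, hX]; field_simp))
  have t2 : X ^ q ≤ Q * Y := s2.trans (le_of_eq (by rw [hQ, hY]; field_simp))
  have hd : 0 < p * q - 1 := by linarith
  have hX0 : X ≤ X0 := by
    rcases eq_or_lt_of_le hX' with h | h
    · rw [← h]; positivity
    · have e1 := Real.rpow_le_rpow (Real.rpow_nonneg hX' q) t2 hp.le
      rw [← Real.rpow_mul hX', Real.mul_rpow hQ0.le hY', mul_comm q p] at e1
      have e2 : X ^ (p * q - 1) ≤ Q ^ (p + 1) := by
        rw [Real.rpow_sub_one h.ne', div_le_iff₀ h, Real.rpow_add_one hQ0.ne', mul_assoc]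
        exact e1.trans (mul_le_mul_of_nonneg_left t1 (Real.rpow_nonneg hQ0.le p))
      have e3 := Real.rpow_le_rpow (Real.rpow_nonneg hX' _) e2 (one_div_nonneg.2 hd.le)
      rwa [← Real.rpow_mul hX', mul_one_div_cancel hd.ne', Real.rpow_one] at e3
  have hY0 : Y ≤ (Q * X0) ^ (1 / p) := by
    have e1 := Real.rpow_le_rpow (Real.rpow_nonneg hY' p)
      (t1.trans (mul_le_mul_of_nonneg_left hX0 hQ0.le)) (one_div_nonneg.2 hp.le)
    rwa [← Real.rpow_mul hY', mul_one_div_cancel hp.ne', Real.rpow_one] at e1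
  exact ⟨((le_div_iff₀ hc).2 (by rw [mul_comm]; exact hX0)).trans (le_max_left _ _),
    ((le_div_iff₀ hc).2 (by rw [mul_comm]; exact hY0)).trans (le_max_right _ _)⟩

end Vale.Agent.P100W
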