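import Vale.Agent.P100W.Kelvin
import Vale.Agent.P100W.Decay

/-!
Moving spheres centred at the origin: if both decay exponents exceed `(n - 2) / 2` then
`r^a u` and `r^b v` increase along every ray, for some `a < α`, `b < β`, which is impossible.
-/

open Filter Topology Laplacian Set
open scoped ContDiff

noncomputable section

namespace Vale.Agent.P100W

open Vale.Agent.P100 Vale.Agent.P100C

variable {n : ℕ} {a l : ℝ} {f : Euc n → ℝ}

lemma inv2_norm (hl : 0 < l) {x : Euc n} (hx : x ≠ 0) : ‖inv2 l x‖ = l ^ 2 / ‖x‖ := by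
  have hr : 0 < ‖x‖ := norm_pos_iff.2 hx
  rw [inv2, norm_smul, Real.norm_of_nonneg (by positivity), Real.rpow_neg hr.le, Real.rpow_two]
  field_simp

lemma inv2_ne (hl : 0 < l) {x : Euc n} (hx : x ≠ 0) : inv2 l x ≠ 0 :=
  norm_pos_iff.1 (by
    have := norm_pos_iff.2 hx
    rw [inv2_norm hl hx]
    positivity)

lemma refl_coef (hl : 0 < l) {x : Euc n} (a : ℝ) :
    l ^ (2 * a) * ‖x‖ ^ (-(2 * a)) = (l / ‖x‖) ^ (2 * a) := by
  rw [Real.div_rpow hl.le (norm_nonneg _), Real.rpow_neg (norm_nonneg _), div_eq_mul_inv]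

lemma refl_self (hl : 0 < l) {x : Euc n} (hx : ‖x‖ = l) : refl a l f x = f x := by
  have e : inv2 l x = x := by
    rw [inv2, hx, Real.rpow_neg hl.le, Real.rpow_two, mul_inv_cancel₀ (by positivity), one_smul]
  rw [refl, e, refl_coef hl, hx, div_self hl.ne', Real.one_rpow, one_mul]

lemma contDiffAt_refl (hl : 0 < l) (hf : ContDiffOn ℝ 2 f {x | x ≠ 0}) {x : Euc n} (hx : x ≠ 0) :
    ContDiffAt ℝ 2 (refl a l f) x :=
  (contDiffAt_const.mul (contDiffAt_pow _ hx)).mul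
    (ContDiffAt.comp x (hf.contDiffAt (isOpen_ne.mem_nhds (inv2_ne hl hx))) (contDiffAt_inv2 l hx))

lemma continuousAt_refl (hl : 0 < l) (hf : Continuous f) {x : Euc n} (hx : x ≠ 0) :
    ContinuousAt (fun z : ℝ × Euc n => refl a z.1 f z.2) (l, x) := by
  have h1 : ContinuousAt (fun z : ℝ × Euc n => ‖z.2‖) (l, x) :=
    (continuous_norm.comp continuous_snd).continuousAt
  have h0 : ‖((l, x) : ℝ × Euc n).2‖ ≠ 0 := norm_ne_zero_iff.2 hx
  have h2 : ContinuousAt (fun z : ℝ × Euc n => z.1) (l, x) := continuous_fst.continuousAt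
  exact ((h2.rpow_const (Or.inl hl.ne')).mul (h1.rpow_const (Or.inl h0))).mul
    (hf.continuousAt.comp_of_eq
      (((h2.pow 2).mul (h1.rpow_const (Or.inl h0))).smul continuous_snd.continuousAt) rfl)

/-- A positive superharmonic function decays no faster than any power beyond `2 - n`. -/
lemma far_power (hn : 3 ≤ n) {u : Euc n → ℝ} (hu : Super u) {e r : ℝ} (he : (n : ℝ) - 2 < e)
    (hr : 0 < r) : ∃ c : ℝ, 0 < c ∧ ∀ x : Euc n, r ≤ ‖x‖ → c * ‖x‖ ^ (-e) ≤ u x := by
  have hn' : (3 : ℝ) ≤ n := by exact_mod_cast hn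
  obtain ⟨z, hz, hmin⟩ := exists_sphere_min (by omega : 0 < n) hu.1 hr.le
  obtain ⟨huc, hu2, hup, hlap⟩ := hu
  set c := u z / r ^ (-e) with hc
  have hc0 : 0 < c := div_pos (hup z) (Real.rpow_pos_of_pos hr _)
  refine ⟨c, hc0, fun x hx => ?_⟩
  have main : ∀ L : ℝ, ‖x‖ ≤ L → c * ‖x‖ ^ (-e) - c * L ^ (-e) ≤ u x := by
    intro L hL
    set K : Set (Euc n) := {y | r ≤ ‖y‖ ∧ ‖y‖ ≤ L}
    have hK : IsCompact K := (isCompact_closedBall (0 : Euc n) L).of_isClosed_subset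
      (isClosed_le continuous_const continuous_norm |>.inter
        (isClosed_le continuous_norm continuous_const))
      fun y hy => by simpa using hy.2
    have hne : ∀ y ∈ K, y ≠ 0 := fun y hy h0 => by
      have := hy.1; rw [h0, norm_zero] at this; linarith
    obtain ⟨s, hs, hle⟩ := min_principle (φ := fun y => u y + -c * ‖y‖ ^ (-e))
      (S := {y | ‖y‖ = r ∨ ‖y‖ = L}) hK
      (huc.continuousOn.add (continuousOn_const.mul (continuous_norm.continuousOn.rpow_const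
        fun y hy => Or.inl (norm_ne_zero_iff.2 (hne y hy)))))
      (fun y hy hyS => by
        simp only [mem_setOf_eq, not_or] at hyS
        refine ⟨mem_of_superset (((isOpen_lt continuous_const continuous_norm).inter
          (isOpen_lt continuous_norm continuous_const)).mem_nhds
          ⟨lt_of_le_of_ne hy.1 (Ne.symm hyS.1), lt_of_le_of_ne hy.2 hyS.2⟩)
          fun w hw => ⟨hw.1.le, hw.2.le⟩,
          (hu2.contDiffAt (isOpen_ne.mem_nhds (hne y hy))).add
            (contDiffAt_const.mul (contDiffAt_pow _ (hne y hy))), ?_⟩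
        rw [lap_add_mul (hu2.contDiffAt (isOpen_ne.mem_nhds (hne y hy)))
          (contDiffAt_pow _ (hne y hy)), lap_pow _ (hne y hy)]
        have : 0 < c * ((e * (e - ((n : ℝ) - 2))) * ‖y‖ ^ (-e - 2)) :=
          mul_pos hc0 (mul_pos (mul_pos (by linarith) (by linarith))
            (Real.rpow_pos_of_pos (norm_pos_iff.2 (hne y hy)) _))
        have e' : -e * (-e + n - 2) = e * (e - ((n : ℝ) - 2)) := by ring
        rw [e']
        linarith [hlap y (hne y hy)]) (x := x) ⟨hx, hL⟩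
    have hcL : 0 ≤ c * L ^ (-e) :=
      mul_nonneg hc0.le (Real.rpow_nonneg ((norm_nonneg _).trans hL) _)
    rcases hs with hsr | hsL
    · rw [hsr] at hle
      have : c * r ^ (-e) = u z := div_mul_cancel₀ _ (Real.rpow_pos_of_pos hr _).ne'
      linarith [hmin s hsr]
    · rw [hsL] at hle
      linarith [hup s]
  have hlim : Tendsto (fun L : ℝ => c * ‖x‖ ^ (-e) - c * L ^ (-e)) atTop
      (𝓝 (c * ‖x‖ ^ (-e) - c * 0)) :=
    tendsto_const_nhds.sub (Tendsto.const_mul c (tendsto_rpow_neg_atTop (by linarith)))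
  have := le_of_tendsto hlim ((eventually_ge_atTop ‖x‖).mono main)
  linarith

lemma hasDerivAt_ray (hf : ContDiffOn ℝ 2 f {x | x ≠ 0}) {x : Euc n} (hx : x ≠ 0) {s : ℝ}
    (hs : 0 < s) :
    HasDerivAt (fun s : ℝ => s ^ a * f (s • x)) (s ^ (a - 1) * grow a f (s • x)) s := by
  have h1 : HasDerivAt (fun s : ℝ => s • x) x s := by
    simpa using (hasDerivAt_id s).smul_const x
  have h2 := (Real.hasDerivAt_rpow_const (p := a) (Or.inl hs.ne')).fun_mul
    (((hf.contDiffAt (isOpen_ne.mem_nhds (smul_ne_zero hs.ne' hx))).differentiableAt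
      two_ne_zero).hasFDerivAt.comp_hasDerivAt s h1)
  refine h2.congr_deriv ?_
  simp only [Function.comp_apply]
  rw [grow, map_smul, smul_eq_mul, show s ^ a = s ^ (a - 1) * s by
    rw [← Real.rpow_add_one hs.ne', sub_add_cancel]]
  ring

/-- `r^a f` increases along rays inside a ball where `grow a f` is positive. -/
lemma ray_mono (hf : ContDiffOn ℝ 2 f {x | x ≠ 0}) {ρ : ℝ}
    (hG : ∀ y : Euc n, y ≠ 0 → ‖y‖ ≤ ρ → 0 < grow a f y) {x : Euc n} (hx : x ≠ 0) {t : ℝ}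
    (ht : 0 < t) (ht1 : t ≤ 1) (hxρ : ‖x‖ ≤ ρ) : t ^ a * f (t • x) ≤ f x := by
  set g : ℝ → ℝ := fun s => s ^ a * f (s • x) with hg
  have hd : ∀ s : ℝ, 0 < s → HasDerivAt g (s ^ (a - 1) * grow a f (s • x)) s :=
    fun s hs => hasDerivAt_ray hf hx hs
  have hmono : MonotoneOn g (Ioc 0 1) :=
    monotoneOn_of_deriv_nonneg (convex_Ioc 0 1)
      (fun s hs => (hd s hs.1).continuousAt.continuousWithinAt)
      (fun s hs => (hd s (interior_subset hs).1).differentiableAt.differentiableWithinAt)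
      fun s hs => by
        have hs' := interior_subset hs
        rw [(hd s hs'.1).deriv]
        refine mul_nonneg (Real.rpow_nonneg hs'.1.le _)
          (hG _ (smul_ne_zero hs'.1.ne' hx) ?_).le
        rw [norm_smul, Real.norm_of_nonneg hs'.1.le]
        exact (mul_le_of_le_one_left (norm_nonneg _) hs'.2).trans hxρ
  have := hmono ⟨ht, ht1⟩ ⟨one_pos, le_rfl⟩ ht1
  simpa [hg] using this

/-- The comparison with the reflection in the sphere of radius `l`. -/
def Below (a l : ℝ) (f : Euc n → ℝ) : Prop := ∀ x : Euc n, l ≤ ‖x‖ → refl a l f x ≤ f x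

lemma below_near (hf : ContDiffOn ℝ 2 f {x | x ≠ 0}) {ρ : ℝ}
    (hG : ∀ y : Euc n, y ≠ 0 → ‖y‖ ≤ ρ → 0 < grow a f y) (hl : 0 < l) {x : Euc n}
    (hlx : l ≤ ‖x‖) (hxρ : ‖x‖ ≤ ρ) : refl a l f x ≤ f x := by
  have hr : 0 < ‖x‖ := hl.trans_le hlx
  have h := ray_mono hf hG (norm_pos_iff.1 hr) (t := (l / ‖x‖) ^ 2) (by positivity)
    (pow_le_one₀ (by positivity) (by rw [div_le_one hr]; exact hlx)) hxρ
  rw [refl, refl_coef hl]
  refine le_trans (le_of_eq ?_) h
  rw [inv2, ← Real.rpow_two (l / ‖x‖), ← Real.rpow_mul (by positivity),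
    show l ^ 2 * ‖x‖ ^ (-2 : ℝ) = (l / ‖x‖) ^ (2 : ℝ) by
      rw [Real.rpow_neg hr.le, Real.rpow_two, Real.rpow_two, div_pow, div_eq_mul_inv]]

/-- The reflection is below the function wherever an explicit inequality holds. -/
lemma below_far (hn : 3 ≤ n) (hu : Super f) (ha : (n : ℝ) - 2 < 2 * a) (L : ℝ) {r : ℝ}
    (hr : 0 < r) : ∃ M c : ℝ, 0 < M ∧ 0 < c ∧ ∀ l : ℝ, 0 < l → l ≤ L → ∀ x : Euc n,
      r ≤ ‖x‖ → l ≤ ‖x‖ → l ^ (2 * a) * M ≤ c * ‖x‖ ^ (a - ((n : ℝ) - 2) / 2) →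
      refl a l f x < f x := by
  obtain ⟨c, hc, hlow⟩ := far_power hn hu (e := ((n : ℝ) - 2) / 2 + a) (by linarith) hr
  obtain ⟨M, hM⟩ := (isCompact_closedBall (0 : Euc n) |L|).exists_bound_of_continuousOn
    hu.1.continuousOn
  refine ⟨|M| + 1, c, by positivity, hc, fun l hl hlL x hrx hlx hcase => ?_⟩
  have hx : 0 < ‖x‖ := hr.trans_le hrx
  have hb : f (inv2 l x) < |M| + 1 := by
    have hin : inv2 l x ∈ Metric.closedBall (0 : Euc n) |L| := by
      rw [mem_closedBall_zero_iff, inv2_norm hl (norm_pos_iff.1 hx), div_le_iff₀ hx, pow_two]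
      exact mul_le_mul (hlL.trans (le_abs_self _)) hlx hl.le (abs_nonneg _)
    have := (le_abs_self (f (inv2 l x))).trans (hM _ hin)
    linarith [le_abs_self M]
  set P := ‖x‖ ^ (-(2 * a)) with hP
  have hP0 : 0 < P := Real.rpow_pos_of_pos hx _
  calc refl a l f x < l ^ (2 * a) * P * (|M| + 1) :=
        mul_lt_mul_of_pos_left hb (mul_pos (Real.rpow_pos_of_pos hl _) hP0)
    _ = l ^ (2 * a) * (|M| + 1) * P := by ring
    _ ≤ c * ‖x‖ ^ (a - ((n : ℝ) - 2) / 2) * P := mul_le_mul_of_nonneg_right hcase hP0.le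
    _ = c * ‖x‖ ^ (-(((n : ℝ) - 2) / 2 + a)) := by
        rw [hP, mul_assoc, ← Real.rpow_add hx]; ring_nf
    _ ≤ f x := hlow x hrx

/-- Positivity of `grow` near the origin. -/
lemma grow_pos_near (hn : 3 ≤ n) {A p : ℝ} (hA : -2 < A) (hp : 0 < p) {u v : Euc n → ℝ}
    (hu : Super u) (hvc : Continuous v) (hvp : ∀ x, 0 < v x)
    (heq : ∀ x, x ≠ 0 → -(Δ u x) = ‖x‖ ^ A * v x ^ p) (ha : 0 < a) :
    ∃ r : ℝ, 0 < r ∧ ∀ y : Euc n, y ≠ 0 → ‖y‖ ≤ r → 0 < grow a u y := by
  obtain ⟨C, hC, hgrad⟩ := grad_local (n := n) hn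
  obtain ⟨huc, hu2, hup, -⟩ := hu
  obtain ⟨Mv, hMv⟩ := (isCompact_closedBall (0 : Euc n) 1).exists_bound_of_continuousOn
    hvc.continuousOn
  set m := a * u 0 / (4 * (C + 1)) with hm
  have hm0 : 0 < m := by have := hup 0; positivity
  obtain ⟨d, hd, hdd⟩ := Metric.continuousAt_iff.1 (huc.continuousAt (x := (0 : Euc n)))
    (min m (u 0 / 2)) (lt_min hm0 (half_pos (hup 0)))
  set w := max ((1 / 2 : ℝ) ^ A) ((3 / 2 : ℝ) ^ A) with hw
  have hw0 : 0 < w := lt_max_of_lt_left (Real.rpow_pos_of_pos (by norm_num) _)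
  obtain ⟨r, ⟨hr1, hr2⟩, hr0⟩ : ∃ r : ℝ, (w * |Mv| ^ p * r ^ (2 + A) ≤ m ∧
      r < min (1 / 2) (d / 2)) ∧ 0 < r := by
    have t : Tendsto (fun r : ℝ => w * |Mv| ^ p * r ^ (2 + A)) (𝓝[>] 0) (𝓝 0) := by
      have h := ((Real.continuous_rpow_const (show (0 : ℝ) ≤ 2 + A by linarith)).tendsto
        0).const_mul (w * |Mv| ^ p)
      rw [Real.zero_rpow (by linarith), mul_zero] at h
      exact h.mono_left nhdsWithin_le_nhds
    exact (((t.eventually (eventually_le_nhds hm0)).and (mem_nhdsWithin_of_mem_nhds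
      (Iio_mem_nhds (lt_min (by norm_num) (half_pos hd))))).and self_mem_nhdsWithin).exists
  have hr3 : r < 1 / 2 := hr2.trans_le (min_le_left _ _)
  have hr4 : r < d / 2 := hr2.trans_le (min_le_right _ _)
  refine ⟨r, hr0, fun y hy hyr => ?_⟩
  have hy0 : 0 < ‖y‖ := norm_pos_iff.2 hy
  set f : Euc n → ℝ := fun z => u z + -u 0 with hf
  have hf2 : ContDiffOn ℝ 2 f {z | z ≠ 0} := hu2.add contDiffOn_const
  have hz : ∀ z : Euc n, ‖z - y‖ ≤ ‖y‖ / 2 →
      |u z - u 0| < min m (u 0 / 2) ∧ |Δ u z| * ‖y‖ ^ 2 ≤ m := by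
    intro z hz
    have z1 : ‖y‖ / 2 ≤ ‖z‖ := by linarith [norm_sub_norm_le y z, norm_sub_rev y z]
    have z2 : ‖z‖ ≤ 3 / 2 * ‖y‖ := by linarith [norm_sub_norm_le z y]
    have hz0 : z ≠ 0 := norm_pos_iff.1 (by linarith)
    refine ⟨by simpa [Real.dist_eq] using hdd (show dist z 0 < d by simp; linarith), ?_⟩
    have e : |Δ u z| = ‖z‖ ^ A * v z ^ p := by
      rw [← abs_neg, heq z hz0, abs_of_nonneg
        (mul_nonneg (Real.rpow_nonneg (norm_nonneg _) _) (Real.rpow_nonneg (hvp z).le _))]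
    have hwA : ‖z‖ ^ A ≤ w * ‖y‖ ^ A := by
      rcases le_total 0 A with h | h
      · refine le_trans (Real.rpow_le_rpow (norm_nonneg _) z2 h) ?_
        rw [Real.mul_rpow (by norm_num) hy0.le]
        exact mul_le_mul_of_nonneg_right (le_max_right _ _) (by positivity)
      · refine le_trans (Real.rpow_le_rpow_of_nonpos (by linarith) z1 h) ?_
        rw [show ‖y‖ / 2 = 1 / 2 * ‖y‖ by ring, Real.mul_rpow (by norm_num) hy0.le]
        exact mul_le_mul_of_nonneg_right (le_max_left _ _) (by positivity)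
    have hv1 : v z ≤ |Mv| :=
      ((le_abs_self _).trans (hMv z (mem_closedBall_zero_iff.2 (by linarith)))).trans (le_abs_self _)
    rw [e]
    calc ‖z‖ ^ A * v z ^ p * ‖y‖ ^ 2 ≤ w * ‖y‖ ^ A * |Mv| ^ p * ‖y‖ ^ 2 :=
          mul_le_mul_of_nonneg_right (mul_le_mul hwA (Real.rpow_le_rpow (hvp z).le hv1 hp.le)
            (Real.rpow_nonneg (hvp z).le _) (by positivity)) (sq_nonneg _)
      _ = w * |Mv| ^ p * ‖y‖ ^ (2 + A) := by
          rw [Real.rpow_add hy0, Real.rpow_two]; ring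
      _ ≤ m := le_trans (mul_le_mul_of_nonneg_left
          (Real.rpow_le_rpow hy0.le hyr (by linarith)) (by positivity)) hr1
  have hΔ : ∀ z : Euc n, z ≠ 0 → Δ f z = Δ u z := fun z hz => by
    have h : (f : Euc n → ℝ) = u + fun _ => -u 0 := rfl
    rw [h, (hu2.contDiffAt (isOpen_ne.mem_nhds hz)).laplacian_add contDiffAt_const]
    simp
  have hg := hgrad f y m hf2 hy fun z hzy => by
    obtain ⟨h1, h2⟩ := hz z hzy
    have hz0 : z ≠ 0 := fun h => by rw [h, zero_sub, norm_neg] at hzy; linarith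
    exact ⟨by simpa [hf, ← sub_eq_add_neg] using h1.le.trans (min_le_left _ _),
      by rw [hΔ z hz0]; exact h2⟩
  rw [show fderiv ℝ f y = fderiv ℝ u y by rw [hf]; exact fderiv_add_const _] at hg
  have h1 : |fderiv ℝ u y y| ≤ C * m := by
    have := (fderiv ℝ u y).le_opNorm y
    rw [Real.norm_eq_abs] at this
    linarith
  have h2 := (hz y (by simp; positivity)).1.trans_le (min_le_right _ _)
  rw [abs_lt] at h2
  have h3 : C * m < a * (u 0 / 2) := by
    have : (C + 1) * m = a * u 0 / 4 := by rw [hm]; field_simp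
    have := mul_pos ha (hup 0)
    linarith
  have h4 : a * (u 0 / 2) ≤ a * u y := mul_le_mul_of_nonneg_left (by linarith) ha.le
  rw [grow]
  linarith [(abs_le.1 h1).1]

/-- Comparison of the Laplacians when `grow` is positive inside the sphere. -/
lemma lap_refl_lower {A p b : ℝ} {u v : Euc n → ℝ}
    (hu2 : ContDiffOn ℝ 2 u {x | x ≠ 0}) (hvp : ∀ x, 0 < v x)
    (heq : ∀ x, x ≠ 0 → -(Δ u x) = ‖x‖ ^ A * v x ^ p) (ha : (n : ℝ) - 2 < 2 * a)
    (hl : 0 < l)
    (hG : ∀ y : Euc n, y ≠ 0 → ‖y‖ ≤ l → 0 ≤ grow a u y) {x : Euc n} (hx : l ≤ ‖x‖) :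
    -(‖x‖ ^ A * ((l / ‖x‖) ^ (2 * (2 + A + a - b * p)) * refl b l v x ^ p))
      ≤ Δ (refl a l u) x := by
  have hr : 0 < ‖x‖ := hl.trans_le hx
  have hx0 : x ≠ 0 := norm_pos_iff.1 hr
  set y := inv2 l x with hy
  have hy0 : y ≠ 0 := inv2_ne hl hx0
  rw [laplacian_refl a hl hx0 (hu2.contDiffAt (isOpen_ne.mem_nhds hy0)), ← hy,
    show Δ u y = -(‖y‖ ^ A * v y ^ p) by linarith [heq y hy0]]
  have hyl : ‖y‖ ≤ l := by
    rw [hy, inv2_norm hl hx0, div_le_iff₀ hr, pow_two]; exact mul_le_mul_of_nonneg_left hx hl.le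
  have hgood : 0 ≤ 2 * (2 * a - ((n : ℝ) - 2)) * ‖x‖ ^ (-2 : ℝ) * grow a u y :=
    mul_nonneg (mul_nonneg (by linarith) (by positivity)) (hG y hy0 hyl)
  refine le_trans (le_of_eq ?_) (mul_le_mul_of_nonneg_left
    (le_add_of_nonneg_right hgood) (by positivity))
  set k := l / ‖x‖ with hk
  have hk0 : 0 < k := div_pos hl hr
  rw [refl, refl_coef hl, refl_coef hl, ← hy, ← hk,
    Real.mul_rpow (Real.rpow_nonneg hk0.le _) (hvp y).le, ← Real.rpow_mul hk0.le]
  have hy' : ‖y‖ = k ^ (2 : ℝ) * ‖x‖ := by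
    rw [hy, inv2_norm hl hx0, Real.rpow_two, hk]; field_simp
  have h4 : l ^ 4 * ‖x‖ ^ (-4 : ℝ) = k ^ (4 : ℝ) := by
    rw [hk, Real.div_rpow hl.le hr.le, Real.rpow_neg hr.le, div_eq_mul_inv,
      show (4 : ℝ) = ((4 : ℕ) : ℝ) by norm_num, Real.rpow_natCast, Real.rpow_natCast]
  rw [h4, hy', Real.mul_rpow (by positivity) hr.le, ← Real.rpow_mul hk0.le,
    show 2 * (2 + A + a - b * p) = 2 * a + 4 + 2 * A + -(2 * b * p) by ring,
    Real.rpow_add hk0, Real.rpow_add hk0, Real.rpow_add hk0]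
  have e : k ^ (-(2 * b * p)) * k ^ (2 * b * p) = 1 := by
    rw [← Real.rpow_add hk0]; simp
  linear_combination (-(‖x‖ ^ A * k ^ (2 * a) * k ^ (4 : ℝ) * k ^ (2 * A) * v y ^ p)) * e

/-- Strict comparison and positivity of `grow` on the sphere. -/
lemma strict_step {A p b : ℝ} (hn : 3 ≤ n) (hp : 0 < p) {u v : Euc n → ℝ}
    (hu : Super u) (hvp : ∀ x, 0 < v x)
    (heq : ∀ x, x ≠ 0 → -(Δ u x) = ‖x‖ ^ A * v x ^ p) (ha : (n : ℝ) - 2 < 2 * a)
    (hμ : 0 < 2 + A + a - b * p) (hl : 0 < l) (hP : Below a l u) (hQ : Below b l v)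
    (hG : ∀ y : Euc n, y ≠ 0 → ‖y‖ ≤ l → 0 ≤ grow a u y) :
    (∀ x : Euc n, l < ‖x‖ → refl a l u x < u x) ∧
      ∀ x : Euc n, ‖x‖ = l → 0 < grow a u x := by
  obtain ⟨huc, hu2, hup, -⟩ := id hu
  set w : Euc n → ℝ := fun x => u x + -refl a l u x with hw
  have hw2 : ∀ x : Euc n, x ≠ 0 → ContDiffAt ℝ 2 w x := fun x hx =>
    (hu2.contDiffAt (isOpen_ne.mem_nhds hx)).add (contDiffAt_refl hl hu2 hx).neg
  have hlap : ∀ x : Euc n, l ≤ ‖x‖ → x ≠ 0 → Δ w x ≤ -(‖x‖ ^ A * (v x ^ p -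
      (l / ‖x‖) ^ (2 * (2 + A + a - b * p)) * refl b l v x ^ p)) := by
    intro x hx hx0
    have h : w = u + -refl a l u := rfl
    have hn' : ContDiffAt ℝ 2 (-refl a l u) x := (contDiffAt_refl hl hu2 hx0).neg
    rw [h, (hu2.contDiffAt (isOpen_ne.mem_nhds hx0)).laplacian_add hn',
      InnerProductSpace.laplacian_neg, Pi.neg_apply]
    have h1 := lap_refl_lower (b := b) (p := p) hu2 hvp heq ha hl hG hx
    have h2 := heq x hx0
    linarith
  have hrefl : ∀ x : Euc n, x ≠ 0 → 0 < refl b l v x := fun x hx =>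
    mul_pos (by have := norm_pos_iff.2 hx; positivity) (hvp _)
  have hneg : ∀ x : Euc n, l < ‖x‖ → Δ w x < 0 := by
    intro x hx
    have hx0 : x ≠ 0 := norm_pos_iff.1 (hl.trans hx)
    refine (hlap x hx.le hx0).trans_lt (neg_lt_zero.2 (mul_pos (by positivity) (sub_pos.2 ?_)))
    calc (l / ‖x‖) ^ (2 * (2 + A + a - b * p)) * refl b l v x ^ p
        < 1 * refl b l v x ^ p := by
          refine mul_lt_mul_of_pos_right ?_ (Real.rpow_pos_of_pos (hrefl x hx0) _)
          exact Real.rpow_lt_one (by positivity) (by rw [div_lt_one (hl.trans hx)]; exact hx)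
            (by linarith)
      _ ≤ v x ^ p := by
          rw [one_mul]; exact Real.rpow_le_rpow (hrefl x hx0).le (hQ x hx.le) hp.le
  have hw0 : ∀ x : Euc n, l ≤ ‖x‖ → 0 ≤ w x := fun x hx => by
    simp only [hw]; linarith [hP x hx]
  have hstrict : ∀ x : Euc n, l < ‖x‖ → 0 < w x := by
    intro x hx
    refine (hw0 x hx.le).lt_of_ne fun he => ?_
    have hmin : IsLocalMin w x := by
      filter_upwards [(isOpen_lt continuous_const continuous_norm).mem_nhds hx] with z hz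
      rw [← he]; exact hw0 z (le_of_lt hz)
    linarith [hneg x hx, lap_nonneg_of_isLocalMin (hw2 x (norm_pos_iff.1 (hl.trans hx))) hmin]
  refine ⟨fun x hx => by have := hstrict x hx; simp only [hw] at this; linarith, fun x hx => ?_⟩
  -- barrier on the annulus `l ≤ |z| ≤ 2 l`
  have hcw : ∀ z : Euc n, z ≠ 0 → ContinuousAt w z := fun z hz => (hw2 z hz).continuousAt
  have hne : ∀ z : Euc n, l ≤ ‖z‖ → z ≠ 0 := fun z hz => norm_pos_iff.1 (hl.trans_le hz)
  obtain ⟨z0, hz0, hz0min⟩ := (isCompact_sphere (0 : Euc n) (2 * l)).exists_isMinOn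
    ⟨(2 * l / ‖x‖) • x, mem_sphere_zero_iff_norm.2 (by
      rw [norm_smul, Real.norm_of_nonneg (by positivity), div_mul_cancel₀ _ (by linarith)])⟩
    (fun z hz => (hcw z (hne z (by
      rw [mem_sphere_zero_iff_norm] at hz; linarith))).continuousWithinAt)
  rw [mem_sphere_zero_iff_norm] at hz0
  set η := w z0 / (3 * l ^ 2) with hη
  have hη0 : 0 < η := div_pos (hstrict z0 (by linarith)) (by positivity)
  set K : Set (Euc n) := {z | l ≤ ‖z‖ ∧ ‖z‖ ≤ 2 * l}
  have hK : IsCompact K := (isCompact_closedBall (0 : Euc n) (2 * l)).of_isClosed_subset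
    (isClosed_le continuous_const continuous_norm |>.inter
      (isClosed_le continuous_norm continuous_const))
    fun z hz => by simpa using hz.2
  have hq : ContDiff ℝ 2 fun z : Euc n => ‖z‖ ^ (2 : ℝ) := by
    simp only [Real.rpow_two]; exact contDiff_norm_sq ℝ
  have hbar : ∀ z ∈ K, η * (‖z‖ ^ 2 - l ^ 2) ≤ w z := by
    intro z hz
    obtain ⟨s, hs, hle⟩ := min_principle (φ := fun y => w y + -η * ‖y‖ ^ (2 : ℝ))
      (S := {y | ‖y‖ = l ∨ ‖y‖ = 2 * l}) hK
      (fun y hy => ((hcw y (hne y hy.1)).add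
        (continuousAt_const.mul hq.continuous.continuousAt)).continuousWithinAt)
      (fun y hy hyS => by
        simp only [mem_setOf_eq, not_or] at hyS
        have h1 : l < ‖y‖ := lt_of_le_of_ne hy.1 (Ne.symm hyS.1)
        refine ⟨mem_of_superset (((isOpen_lt continuous_const continuous_norm).inter
          (isOpen_lt continuous_norm continuous_const)).mem_nhds
          ⟨h1, lt_of_le_of_ne hy.2 hyS.2⟩) fun w hw => ⟨hw.1.le, hw.2.le⟩,
          (hw2 y (hne y hy.1)).add (contDiffAt_const.mul hq.contDiffAt), ?_⟩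
        rw [lap_add_mul (hw2 y (hne y hy.1)) hq.contDiffAt, lap_pow _ (hne y hy.1)]
        have : 0 < η * (2 * ((2 : ℝ) + n - 2) * ‖y‖ ^ ((2 : ℝ) - 2)) := by
          have : (3 : ℝ) ≤ n := by exact_mod_cast hn
          exact mul_pos hη0 (mul_pos (mul_pos two_pos (by linarith))
            (Real.rpow_pos_of_pos (hl.trans h1) _))
        linarith [hneg y h1]) hz
    simp only [Real.rpow_two] at hle
    rcases hs with hs | hs
    · rw [hs] at hle
      linarith [hw0 s hs.ge]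
    · rw [hs] at hle
      have h1 : w z0 ≤ w s := hz0min (mem_sphere_zero_iff_norm.2 hs)
      have h2 : η * (3 * l ^ 2) = w z0 := div_mul_cancel₀ _ (by positivity)
      linarith
  -- derivative along the ray
  have hx0 : x ≠ 0 := hne x hx.ge
  set g : ℝ → ℝ := fun t => u (t • x) - (t⁻¹ ^ (2 * a)) * u (t⁻¹ • x)
    - η * l ^ 2 * (t ^ 2 - 1) with hg
  have hval : ∀ t : ℝ, 0 < t → refl a l u (t • x) = t⁻¹ ^ (2 * a) * u (t⁻¹ • x) := by
    intro t ht
    have hn1 : ‖t • x‖ = t * l := by rw [norm_smul, Real.norm_of_nonneg ht.le, hx]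
    rw [refl, refl_coef hl, hn1, show l / (t * l) = t⁻¹ by field_simp, inv2, hn1, smul_smul,
      Real.rpow_neg (by positivity), Real.rpow_two,
      show l ^ 2 * ((t * l) ^ 2)⁻¹ * t = t⁻¹ by field_simp]
  have hg1 : g 1 = 0 := by simp [hg]
  have hd : HasDerivAt g (2 * grow a u x - η * l ^ 2 * 2) 1 := by
    have hD := ((hu2.contDiffAt (isOpen_ne.mem_nhds hx0)).differentiableAt two_ne_zero).hasFDerivAt
    have h1 : HasDerivAt (fun t : ℝ => u (t • x)) (fderiv ℝ u x x) 1 := by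
      have := hD
      rw [← one_smul ℝ x] at this
      exact (this.comp_hasDerivAt (1 : ℝ)
        (show HasDerivAt (fun t : ℝ => t • x) x 1 by
          simpa using (hasDerivAt_id (1 : ℝ)).smul_const x)).congr_deriv (by rw [one_smul])
    have hi : HasDerivAt (fun t : ℝ => t⁻¹) (-1) 1 :=
      (hasDerivAt_inv one_ne_zero).congr_deriv (by norm_num)
    have h2 : HasDerivAt (fun t : ℝ => u (t⁻¹ • x)) (-(fderiv ℝ u x x)) 1 := by
      have h1' : HasDerivAt (fun t : ℝ => u (t • x)) (fderiv ℝ u x x) ((1 : ℝ)⁻¹) := by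
        rwa [inv_one]
      simpa [Function.comp_def] using h1'.comp 1 hi
    have h3 : HasDerivAt (fun t : ℝ => t⁻¹ ^ (2 * a)) (-(2 * a)) 1 := by
      simpa using hi.rpow_const (p := 2 * a) (Or.inl (by norm_num))
    have h4 : HasDerivAt (fun t : ℝ => η * l ^ 2 * (t ^ 2 - 1)) (η * l ^ 2 * 2) 1 := by
      simpa using ((hasDerivAt_pow 2 (1 : ℝ)).sub_const 1).const_mul (η * l ^ 2)
    refine ((h1.fun_sub (h3.fun_mul h2)).fun_sub h4).congr_deriv ?_
    simp [grow]
    ring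
  have hge : ∀ t ∈ Ioc (1 : ℝ) 2, 0 ≤ g t := by
    intro t ht
    have ht0 : 0 < t := by linarith [ht.1]
    have hn1 : ‖t • x‖ = t * l := by rw [norm_smul, Real.norm_of_nonneg ht0.le, hx]
    have hmem : t • x ∈ K := ⟨by rw [hn1]; nlinarith [ht.1], by rw [hn1]; nlinarith [ht.2]⟩
    have := hbar _ hmem
    simp only [hw, hn1, hval t ht0, mul_pow] at this
    simp only [hg]
    linarith
  have hlim := hd.tendsto_slope_zero_right
  have hnn : 0 ≤ 2 * grow a u x - η * l ^ 2 * 2 := by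
    refine ge_of_tendsto hlim ?_
    filter_upwards [self_mem_nhdsWithin, mem_nhdsWithin_of_mem_nhds
      (Iio_mem_nhds (show (0 : ℝ) < 1 by norm_num))] with h (h0 : 0 < h) (h1 : h < 1)
    simp only [hg1, sub_zero, smul_eq_mul]
    exact mul_nonneg (by positivity) (hge _ ⟨by linarith, by linarith⟩)
  have : 0 < η * l ^ 2 := by positivity
  linarith

end Vale.Agent.P100W
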